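import Claimed.Open.R306.Coordinates

/-!
# Homotopies of circle-valued maps
-/

set_option autoImplicit false

open Set unitInterval

namespace Claimed.Open.R306

noncomputable section

variable {X : Type*} [TopologicalSpace X]

/-- A nowhere vanishing homotopy of complex functions gives a homotopy of circle-valued maps. -/
theorem homotopic_circleMap (F : C(I × X, ℂ)) (hF : ∀ y, F y ≠ 0) (f₀ f₁ : C(X, ℂ))
    (h₀ : ∀ x, f₀ x ≠ 0) (h₁ : ∀ x, f₁ x ≠ 0) (e₀ : ∀ x, F (0, x) = f₀ x)
    (e₁ : ∀ x, F (1, x) = f₁ x) : (circleMap f₀ h₀).Homotopic (circleMap f₁ h₁) :=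
  ⟨{ toContinuousMap := circleMap F hF
     map_zero_left := fun x => by simp [e₀]
     map_one_left := fun x => by simp [e₁] }⟩

/-- The straight-line homotopy: if the segment from `f₀ x` to `f₁ x` never meets `0`, then
`f₀ / |f₀|` and `f₁ / |f₁|` are homotopic. -/
theorem homotopic_circleMap_of_segment (f₀ f₁ : C(X, ℂ))
    (h : ∀ x, ∀ s : ℝ, 0 ≤ s → s ≤ 1 → (1 - s) • f₀ x + s • f₁ x ≠ 0)
    (h₀ : ∀ x, f₀ x ≠ 0) (h₁ : ∀ x, f₁ x ≠ 0) :
    (circleMap f₀ h₀).Homotopic (circleMap f₁ h₁) := by
  refine homotopic_circleMap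
    ⟨fun y => (1 - (y.1 : ℝ)) • f₀ y.2 + (y.1 : ℝ) • f₁ y.2, by fun_prop⟩
    (fun y => h y.2 y.1 y.1.2.1 y.1.2.2) f₀ f₁ h₀ h₁ (fun x => by simp) (fun x => by simp)

/-- Multiplying by a nonzero constant does not change the homotopy class. -/
theorem homotopic_circleMap_const_mul (c : ℂ) (hc : c ≠ 0) (f : C(X, ℂ)) (hf : ∀ x, f x ≠ 0)
    (g : C(X, ℂ)) (hg : ∀ x, g x = c * f x) :
    (circleMap g (fun x => by rw [hg]; exact mul_ne_zero hc (hf x))).Homotopic (circleMap f hf) := by
  refine homotopic_circleMap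
    ⟨fun y => Complex.exp ((1 - (y.1 : ℝ)) * Complex.log c) * f y.2, by fun_prop⟩
    (fun y => mul_ne_zero (Complex.exp_ne_zero _) (hf _)) g f _ hf (fun x => ?_) (fun x => ?_)
  · simp [hg, Complex.exp_log hc]
  · simp

/-- the inclusion of the circle, as a continuous map -/
def coeMap : C(Circle, ℂ) := ⟨fun z => (z : ℂ), continuous_subtype_val⟩

lemma coeMap_ne_zero (z : Circle) : coeMap z ≠ 0 := z.coe_ne_zero

lemma circleMap_coeMap : circleMap coeMap coeMap_ne_zero = ContinuousMap.id Circle := by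
  ext z
  exact congrArg _ (unitOf_coe z)

/-- the power map of the circle -/
def zpowMap (k : ℤ) : C(Circle, Circle) := ⟨fun z => z ^ k, continuous_zpow k⟩

@[simp] lemma zpowMap_apply (k : ℤ) (z : Circle) : zpowMap k z = z ^ k := rfl

/-- A map to the circle which is null-homotopic lifts to the real line. -/
theorem exists_lift_of_nullhomotopic {f : C(X, Circle)} (hf : f.Nullhomotopic) :
    ∃ g : C(X, ℝ), ∀ x, Circle.exp (g x) = f x := by
  obtain ⟨c, ⟨H⟩⟩ := hf
  obtain ⟨t, ht⟩ := Circle.exp_surjective c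
  have H' := H.symm
  have H_0 : ∀ a, H'.toContinuousMap (0, a) = Circle.exp ((ContinuousMap.const X t) a) := by
    intro a
    simp [ht]
  refine ⟨(Circle.isCoveringMap_exp.liftHomotopy H'.toContinuousMap (ContinuousMap.const X t)
    H_0).comp ⟨fun x => (1, x), by fun_prop⟩, fun x => ?_⟩
  have := congrFun (Circle.isCoveringMap_exp.liftHomotopy_lifts H'.toContinuousMap
    (ContinuousMap.const X t) H_0) (1, x)
  simpa using this

/-- The power map `z ↦ z^k` of the circle is null-homotopic only for `k = 0`. -/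
theorem eq_zero_of_nullhomotopic_zpowMap {k : ℤ} (h : (zpowMap k).Nullhomotopic) : k = 0 := by
  obtain ⟨g, hg⟩ := exists_lift_of_nullhomotopic h
  have hm : ∀ t : ℝ, ∃ m : ℤ, g (Circle.exp t) = k * t + m * (2 * Real.pi) := by
    intro t
    have h1 : Circle.exp (g (Circle.exp t)) = Circle.exp (k * t) := by
      rw [hg, zpowMap_apply]
      apply Subtype.ext
      rw [Circle.coe_zpow, Circle.coe_exp, Circle.coe_exp, ← Complex.exp_int_mul]
      push_cast
      ring_nf
    exact Circle.exp_eq_exp.mp h1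
  choose m hm using hm
  have hcont : Continuous m := by
    rw [Int.isClosedEmbedding_coe_real.isEmbedding.continuous_iff]
    have h2 : (fun t => ((m t : ℤ) : ℝ)) = fun t => (g (Circle.exp t) - k * t) / (2 * Real.pi) := by
      funext t
      rw [hm t]
      field_simp
      ring
    change Continuous (fun t => ((m t : ℤ) : ℝ))
    rw [h2]
    fun_prop
  have h3 : m 0 = m (2 * Real.pi) := PreconnectedSpace.constant inferInstance hcont
  have h4 := hm 0
  have h5 := hm (2 * Real.pi)
  rw [Circle.exp_two_pi, ← Circle.exp_zero, h4, h3] at h5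
  have h6 : (k : ℝ) * (2 * Real.pi) = 0 := by linarith
  have h7 : (k : ℝ) = 0 := by
    rcases mul_eq_zero.mp h6 with h | h
    · exact h
    · exact absurd h (by positivity)
  exact_mod_cast h7

end

end Claimed.Open.R306
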