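import Claimed.Open.R306.Embedding

/-!
# Complex coordinates on `S³` and smoothness of maps given by formulas
-/

set_option autoImplicit false

open scoped Manifold ContDiff
open Manifold Set Metric Module

namespace Claimed.Open.R306

noncomputable section

/-- `ℝ⁴` -/
abbrev E4 : Type := EuclideanSpace ℝ (Fin 4)

/-- `ℂ² → ℝ⁴` -/
def toE4 : ℂ × ℂ →L[ℝ] E4 :=
  LinearMap.toContinuousLinearMap
    { toFun := fun x => !₂[x.1.re, x.1.im, x.2.re, x.2.im]
      map_add' := by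
        intro x y; ext i; fin_cases i <;> simp
      map_smul' := by
        intro c x; ext i; fin_cases i <;> simp }

/-- `ℝ⁴ → ℂ²` -/
def ofE4 : E4 →L[ℝ] ℂ × ℂ :=
  LinearMap.toContinuousLinearMap
    { toFun := fun x => (⟨x 0, x 1⟩, ⟨x 2, x 3⟩)
      map_add' := by
        intro x y; refine Prod.ext (Complex.ext ?_ ?_) (Complex.ext ?_ ?_) <;> simp
      map_smul' := by
        intro c x; refine Prod.ext (Complex.ext ?_ ?_) (Complex.ext ?_ ?_) <;> simp }

@[simp] lemma toE4_apply (x : ℂ × ℂ) : toE4 x = !₂[x.1.re, x.1.im, x.2.re, x.2.im] := rfl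

@[simp] lemma ofE4_apply (x : E4) : ofE4 x = (⟨x 0, x 1⟩, ⟨x 2, x 3⟩) := rfl

@[simp] lemma ofE4_toE4 (x : ℂ × ℂ) : ofE4 (toE4 x) = x := by
  ext <;> simp

@[simp] lemma toE4_ofE4 (x : E4) : toE4 (ofE4 x) = x := by
  ext i; fin_cases i <;> simp

lemma norm_toE4_sq (x : ℂ × ℂ) : ‖toE4 x‖ ^ 2 = ‖x.1‖ ^ 2 + ‖x.2‖ ^ 2 := by
  rw [EuclideanSpace.real_norm_sq_eq, Fin.sum_univ_four, Complex.sq_norm, Complex.sq_norm,
    Complex.normSq_apply, Complex.normSq_apply]
  simp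
  ring

/-- the point of `S³` with complex coordinates `(a, b)` -/
def mkS3 (a b : ℂ) (h : ‖a‖ ^ 2 + ‖b‖ ^ 2 = 1) : S3 :=
  ⟨toE4 (a, b), by
    rw [mem_sphere_zero_iff_norm]
    have := norm_toE4_sq (a, b)
    simp only [h] at this
    exact (pow_eq_one_iff_of_nonneg (norm_nonneg _) two_ne_zero).mp this⟩

/-- first complex coordinate -/
def cfst (x : S3) : ℂ := (ofE4 x.1).1

/-- second complex coordinate -/
def csnd (x : S3) : ℂ := (ofE4 x.1).2

@[simp] lemma cfst_mkS3 (a b : ℂ) (h) : cfst (mkS3 a b h) = a := by simp [cfst, mkS3]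
@[simp] lemma csnd_mkS3 (a b : ℂ) (h) : csnd (mkS3 a b h) = b := by simp [csnd, mkS3]

lemma norm_sq_add_norm_sq (x : S3) : ‖cfst x‖ ^ 2 + ‖csnd x‖ ^ 2 = 1 := by
  have := norm_toE4_sq (ofE4 x.1)
  rw [toE4_ofE4, norm_eq_of_mem_sphere] at this
  simpa [cfst, csnd] using this.symm

lemma S3.ext_c {x y : S3} (h₁ : cfst x = cfst y) (h₂ : csnd x = csnd y) : x = y := by
  apply Subtype.ext
  rw [← toE4_ofE4 x.1, ← toE4_ofE4 y.1]
  congr 1
  exact Prod.ext h₁ h₂

@[simp] lemma mkS3_cfst_csnd (x : S3) (h) : mkS3 (cfst x) (csnd x) h = x :=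
  S3.ext_c (by simp) (by simp)

/-! ### Smoothness -/

section codRestrict

variable {E : Type*} [NormedAddCommGroup E] [InnerProductSpace ℝ E]
variable {m : ℕ∞ω} {F : Type*} [NormedAddCommGroup F] [NormedSpace ℝ F]
variable {H : Type*} [TopologicalSpace H] {I : ModelWithCorners ℝ F H}
variable {M : Type*} [TopologicalSpace M] [ChartedSpace H M] [IsManifold I m M]

/-- The version "on a set" of Mathlib's `ContMDiff.codRestrict_sphere`. -/
theorem contMDiffOn_codRestrictSphere {n : ℕ} [Fact (finrank ℝ E = n + 1)] {f : M → E} {s : Set M}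
    (hf : ContMDiffOn I 𝓘(ℝ, E) m f s) (hf' : ∀ x, f x ∈ sphere (0 : E) 1) :
    ContMDiffOn I (𝓡 n) m (Set.codRestrict _ _ hf' : M → sphere (0 : E) 1) s := by
  rw [contMDiffOn_iff_target]
  refine ⟨continuousOn_iff_continuous_domRestrict.2 (continuous_induced_rng.2
    (continuousOn_iff_continuous_domRestrict.1 hf.continuousOn)), ?_⟩
  intro v
  let U : _ ≃ₗᵢ[ℝ] _ :=
    (OrthonormalBasis.fromOrthogonalSpanSingleton
        n (ne_zero_of_mem_unit_sphere (-v))).repr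
  have h : ContDiffOn ℝ ω _ Set.univ := U.contDiff.contDiffOn
  have H₁ := (h.comp_inter contDiffOn_stereoToFun).contMDiffOn
  convert! (H₁.of_le le_top).comp' hf using 1
  ext x
  have hfxv : f x = -↑v ↔ inner ℝ (f x) (-↑v : E) = 1 := by
    have hfx : ‖f x‖ = 1 := by simpa using hf' x
    rw [inner_eq_one_iff_of_norm_eq_one hfx]
    exact norm_eq_of_mem_sphere (-v)
  simp [chartAt, ChartedSpace.chartAt, Subtype.ext_iff, hfxv, real_inner_comm]

end codRestrict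

attribute [local instance] finrank_real_complex_fact'

/-- local fact: `dim ℝ⁴ = 3 + 1` -/
theorem finrank_E4_fact : Fact (finrank ℝ E4 = 3 + 1) := ⟨finrank_euclideanSpace_fin⟩

attribute [local instance] finrank_E4_fact

/-- the inclusion of the circle in `ℂ` -/
def circleCoe : Circle → ℂ := (↑)

lemma contMDiff_circle_coe : ContMDiff (𝓡 1) 𝓘(ℝ, ℂ) ∞ circleCoe :=
  contMDiff_coe_sphere

lemma contMDiff_coe_prod :
    ContMDiff IT 𝓘(ℝ, ℂ × ℂ) ∞ (fun x : Circle × ℂ => ((x.1 : ℂ), x.2)) :=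
  (contMDiff_circle_coe.comp contMDiff_fst).prodMk_space contMDiff_snd

/-- A map `S¹ × ℂ → S³` given by a smooth formula in the ambient coordinates is smooth. -/
lemma contMDiff_mkS3 {G : ℂ × ℂ → ℂ × ℂ} (hG : ContDiff ℝ ∞ G)
    (h : ∀ x : Circle × ℂ, ‖(G ((x.1 : ℂ), x.2)).1‖ ^ 2 + ‖(G ((x.1 : ℂ), x.2)).2‖ ^ 2 = 1) :
    ContMDiff IT (𝓡 3) ∞
      (fun x : Circle × ℂ => mkS3 (G ((x.1 : ℂ), x.2)).1 (G ((x.1 : ℂ), x.2)).2 (h x)) := by
  have h1 : ContMDiff IT 𝓘(ℝ, E4) ∞ (fun x : Circle × ℂ => toE4 (G ((x.1 : ℂ), x.2))) :=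
    (toE4.contDiff.comp hG).contMDiff.comp contMDiff_coe_prod
  exact h1.codRestrict_sphere (fun x => (mkS3 _ _ (h x)).2)

lemma contMDiff_coords : ContMDiff (𝓡 3) 𝓘(ℝ, ℂ × ℂ) ∞ (fun x : S3 => (cfst x, csnd x)) :=
  ofE4.contDiff.contMDiff.comp contMDiff_coe_sphere

/-- A function on `S³` given by a smooth formula in the ambient coordinates is smooth. -/
lemma contMDiffOn_of_coords {F : Type*} [NormedAddCommGroup F] [NormedSpace ℝ F]
    {G : ℂ × ℂ → F} {V : Set (ℂ × ℂ)} (hG : ContDiffOn ℝ ∞ G V) :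
    ContMDiffOn (𝓡 3) 𝓘(ℝ, F) ∞ (fun x : S3 => G (cfst x, csnd x)) {x | (cfst x, csnd x) ∈ V} :=
  hG.contMDiffOn.comp contMDiff_coords.contMDiffOn (fun _ hx => hx)

/-- `c ↦ c / |c|`, with the junk value `1` at `0`. -/
def unitOf (c : ℂ) : Circle :=
  if h : c = 0 then 1 else ⟨c / ‖c‖, by
    rw [Submonoid.unitSphere, Submonoid.mem_mk, Subsemigroup.mem_mk, mem_sphere_zero_iff_norm]
    simp [h]⟩

lemma coe_unitOf {c : ℂ} (h : c ≠ 0) : (unitOf c : ℂ) = c / ‖c‖ := by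
  simp [unitOf, h]

lemma unitOf_coe (z : Circle) : unitOf (z : ℂ) = z := by
  apply Subtype.ext
  rw [coe_unitOf z.coe_ne_zero, Circle.norm_coe]
  simp

lemma unitOf_smul {r : ℝ} (hr : 0 < r) (c : ℂ) : unitOf (r • c) = unitOf c := by
  by_cases hc : c = 0
  · simp [hc]
  apply Subtype.ext
  rw [coe_unitOf hc, coe_unitOf (smul_ne_zero hr.ne' hc), norm_smul, Real.norm_eq_abs,
    abs_of_pos hr, Complex.real_smul]
  have h1 : (r : ℂ) ≠ 0 := by exact_mod_cast hr.ne'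
  have h2 : (‖c‖ : ℂ) ≠ 0 := by exact_mod_cast (norm_ne_zero_iff.2 hc)
  push_cast
  field_simp

lemma norm_smul_unitOf {c : ℂ} (hc : c ≠ 0) : ‖c‖ • (unitOf c : ℂ) = c := by
  rw [coe_unitOf hc, Complex.real_smul]
  have h2 : (‖c‖ : ℂ) ≠ 0 := by exact_mod_cast (norm_ne_zero_iff.2 hc)
  field_simp

lemma contDiffOn_coe_unitOf : ContDiffOn ℝ ∞ (fun c : ℂ => (unitOf c : ℂ)) {c | c ≠ 0} := by
  have : ContDiffOn ℝ ∞ (fun c : ℂ => (‖c‖⁻¹ : ℝ) • c) {c | c ≠ 0} := by
    intro c hc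
    have h1 : ContDiffAt ℝ ∞ (fun c : ℂ => ‖c‖) c := contDiffAt_norm ℝ hc
    exact ((h1.inv (norm_ne_zero_iff.2 hc)).smul contDiffAt_id).contDiffWithinAt
  refine this.congr (fun c hc => ?_)
  rw [coe_unitOf hc, Complex.real_smul, div_eq_inv_mul]
  simp

section

variable {F : Type*} [NormedAddCommGroup F] [NormedSpace ℝ F]
variable {H : Type*} [TopologicalSpace H] {I : ModelWithCorners ℝ F H}
variable {M : Type*} [TopologicalSpace M] [ChartedSpace H M] [IsManifold I ∞ M]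

lemma contMDiffOn_unitOf {g : M → ℂ} {s : Set M} (hg : ContMDiffOn I 𝓘(ℝ, ℂ) ∞ g s)
    (h0 : ∀ x ∈ s, g x ≠ 0) : ContMDiffOn I (𝓡 1) ∞ (fun x => unitOf (g x)) s := by
  have h1 : ContMDiffOn I 𝓘(ℝ, ℂ) ∞ (fun x => (unitOf (g x) : ℂ)) s :=
    contDiffOn_coe_unitOf.contMDiffOn.comp hg h0
  exact contMDiffOn_codRestrictSphere h1 (fun x => (unitOf (g x)).2)

end

/-! ### Continuity -/

lemma continuousOn_unitOf : ContinuousOn unitOf {c : ℂ | c ≠ 0} := by
  rw [continuousOn_iff_continuous_domRestrict]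
  exact continuous_induced_rng.2
    (continuousOn_iff_continuous_domRestrict.1 contDiffOn_coe_unitOf.continuousOn)

lemma continuous_cfst : Continuous cfst := (contMDiff_coords.continuous).fst

lemma continuous_csnd : Continuous csnd := (contMDiff_coords.continuous).snd

/-- the circle-valued map `g / |g|` of a nowhere vanishing function -/
def circleMap {X : Type*} [TopologicalSpace X] (g : C(X, ℂ)) (h : ∀ x, g x ≠ 0) : C(X, Circle) where
  toFun x := unitOf (g x)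
  continuous_toFun := continuousOn_unitOf.comp_continuous g.continuous h

@[simp] lemma circleMap_apply {X : Type*} [TopologicalSpace X] (g : C(X, ℂ)) (h : ∀ x, g x ≠ 0)
    (x : X) : circleMap g h x = unitOf (g x) := rfl

end

end Claimed.Open.R306
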