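import Claimed.Open.R306.Statement

/-!
# A criterion for smooth embeddings `S¹ × ℂ → S³`
-/

set_option autoImplicit false

open scoped Manifold ContDiff
open Manifold Set

namespace Claimed.Open.R306

noncomputable section

/-- a linear identification of the model spaces -/
def tubeModelEquiv : (EuclideanSpace ℝ (Fin 1) × ℂ) ≃L[ℝ] EuclideanSpace ℝ (Fin 3) :=
  ContinuousLinearEquiv.ofFinrankEq (by simp [Complex.finrank_real_complex])

/-- the model of `S¹ × ℂ` -/
abbrev IT : ModelWithCorners ℝ (EuclideanSpace ℝ (Fin 1) × ℂ) (ModelProd (EuclideanSpace ℝ (Fin 1)) ℂ) :=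
  (𝓡 1).prod 𝓘(ℝ, ℂ)

/-- the model space of `S¹ × ℂ` -/
abbrev HT : Type := ModelProd (EuclideanSpace ℝ (Fin 1)) ℂ

/-- `tubeModelEquiv` as a map from the model space -/
def modelMap : HT → EuclideanSpace ℝ (Fin 3) := tubeModelEquiv

/-- the inverse of `tubeModelEquiv` as a map to the model space -/
def modelMapSymm : EuclideanSpace ℝ (Fin 3) → HT := tubeModelEquiv.symm

lemma contMDiff_modelMap : ContMDiff IT (𝓡 3) ∞ modelMap := by
  have h : ContDiff ℝ ∞ (tubeModelEquiv : EuclideanSpace ℝ (Fin 1) × ℂ → EuclideanSpace ℝ (Fin 3)) :=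
    tubeModelEquiv.contDiff
  have := h.contMDiff
  rw [modelWithCornersSelf_prod] at this
  exact this

lemma contMDiff_modelMapSymm : ContMDiff (𝓡 3) IT ∞ modelMapSymm := by
  have h : ContDiff ℝ ∞ (tubeModelEquiv.symm : EuclideanSpace ℝ (Fin 3) → EuclideanSpace ℝ (Fin 1) × ℂ) :=
    tubeModelEquiv.symm.contDiff
  have := h.contMDiff
  rw [modelWithCornersSelf_prod] at this
  exact this

variable {φ : Circle × ℂ → S3} {ψ : S3 → Circle × ℂ} {U : Set S3}

/-- The partial homeomorphism given by a pair of mutually inverse maps. -/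
def invChart (hU : IsOpen U) (hφ : Continuous φ) (hψ : ContinuousOn ψ U)
    (hφU : ∀ x, φ x ∈ U) (hl : ∀ x, ψ (φ x) = x) (hr : ∀ y ∈ U, φ (ψ y) = y) :
    OpenPartialHomeomorph S3 (Circle × ℂ) where
  toFun := ψ
  invFun := φ
  source := U
  target := univ
  map_source' _ _ := mem_univ _
  map_target' x _ := hφU x
  left_inv' y hy := hr y hy
  right_inv' x _ := hl x
  open_source := hU
  open_target := isOpen_univ
  continuousOn_toFun := hψ
  continuousOn_invFun := hφ.continuousOn

/-- The chart of `S³` adapted to the embedding. -/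
def codChart (hU : IsOpen U) (hφ : Continuous φ) (hψ : ContinuousOn ψ U)
    (hφU : ∀ x, φ x ∈ U) (hl : ∀ x, ψ (φ x) = x) (hr : ∀ y ∈ U, φ (ψ y) = y) (x : Circle × ℂ) :
    OpenPartialHomeomorph S3 (EuclideanSpace ℝ (Fin 3)) :=
  (invChart hU hφ hψ hφU hl hr) ≫ₕ (chartAt (ModelProd (EuclideanSpace ℝ (Fin 1)) ℂ) x) ≫ₕ
    tubeModelEquiv.toHomeomorph.toOpenPartialHomeomorph

lemma codChart_apply (hU : IsOpen U) (hφ : Continuous φ) (hψ : ContinuousOn ψ U)
    (hφU : ∀ x, φ x ∈ U) (hl : ∀ x, ψ (φ x) = x) (hr : ∀ y ∈ U, φ (ψ y) = y) (x : Circle × ℂ)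
    (y : S3) : codChart hU hφ hψ hφU hl hr x y = modelMap (chartAt HT x (ψ y)) := rfl

lemma mem_codChart_source (hU : IsOpen U) (hφ : Continuous φ) (hψ : ContinuousOn ψ U)
    (hφU : ∀ x, φ x ∈ U) (hl : ∀ x, ψ (φ x) = x) (hr : ∀ y ∈ U, φ (ψ y) = y) (x : Circle × ℂ)
    (y : S3) : y ∈ (codChart hU hφ hψ hφU hl hr x).source ↔ y ∈ U ∧ ψ y ∈ (chartAt HT x).source := by
  rw [codChart, OpenPartialHomeomorph.trans_source, OpenPartialHomeomorph.trans_source]
  simp [invChart]

lemma codChart_mem_maximalAtlas (hU : IsOpen U) (hφ : ContMDiff IT (𝓡 3) ∞ φ)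
    (hψ : ContMDiffOn (𝓡 3) IT ∞ ψ U)
    (hφU : ∀ x, φ x ∈ U) (hl : ∀ x, ψ (φ x) = x) (hr : ∀ y ∈ U, φ (ψ y) = y) (x : Circle × ℂ) :
    codChart hU hφ.continuous hψ.continuousOn hφU hl hr x ∈ IsManifold.maximalAtlas (𝓡 3) ∞ S3 := by
  apply OpenPartialHomeomorph.mem_maximalAtlas_of_contMDiffOn
  · have h1 : ContMDiffOn IT IT ∞ (chartAt (ModelProd (EuclideanSpace ℝ (Fin 1)) ℂ) x)
        (chartAt (ModelProd (EuclideanSpace ℝ (Fin 1)) ℂ) x).source := contMDiffOn_chart
    refine contMDiff_modelMap.comp_contMDiffOn (h1.comp (hψ.mono ?_) ?_)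
    · intro y hy
      simp only [codChart, invChart, mfld_simps] at hy
      exact hy.1
    · intro y hy
      simp only [codChart, invChart, mfld_simps] at hy
      exact hy.2
  · have h1 : ContMDiffOn IT IT ∞ (chartAt (ModelProd (EuclideanSpace ℝ (Fin 1)) ℂ) x).symm
        (chartAt (ModelProd (EuclideanSpace ℝ (Fin 1)) ℂ) x).target := contMDiffOn_chart_symm
    refine hφ.comp_contMDiffOn (h1.comp contMDiff_modelMapSymm.contMDiffOn ?_)
    intro y hy
    rw [codChart, OpenPartialHomeomorph.trans_target, OpenPartialHomeomorph.trans_target] at hy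
    exact hy.1.2

/-- A smooth map `S¹ × ℂ → S³` with a smooth inverse defined on an open set is a smooth embedding. -/
theorem isSmoothEmbedding_of_inverse (hU : IsOpen U) (hφ : ContMDiff IT (𝓡 3) ∞ φ)
    (hψ : ContMDiffOn (𝓡 3) IT ∞ ψ U)
    (hφU : ∀ x, φ x ∈ U) (hl : ∀ x, ψ (φ x) = x) (hr : ∀ y ∈ U, φ (ψ y) = y) :
    IsSmoothEmbedding IT (𝓡 3) ∞ φ := by
  refine ⟨?_, ?_⟩
  · apply IsImmersionOfComplement.isImmersion (F := PUnit)
    intro x
    apply IsImmersionAtOfComplement.mk_of_continuousAt hφ.continuous.continuousAt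
      ((ContinuousLinearEquiv.prodUnique ℝ _ PUnit).trans tubeModelEquiv)
      (chartAt HT x) (codChart hU hφ.continuous hψ.continuousOn hφU hl hr x)
      (mem_chart_source _ x) ?_ (IsManifold.chart_mem_maximalAtlas x)
      (codChart_mem_maximalAtlas hU hφ hψ hφU hl hr x)
    · intro u hu
      have hu' : IT.symm u ∈ (chartAt HT x).target := by
        rw [OpenPartialHomeomorph.extend_target] at hu
        exact hu.1
      have h2 : IT (IT.symm u) = u := IT.right_inv (by simp [mfld_simps])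
      have h3 : (chartAt HT x) ((chartAt HT x).symm (IT.symm u)) = IT.symm u :=
        (chartAt HT x).right_inv hu'
      simp only [Function.comp_apply, OpenPartialHomeomorph.extend_coe,
        OpenPartialHomeomorph.extend_coe_symm, codChart_apply, hl, h3]
      rfl
    · rw [mem_codChart_source]
      exact ⟨hφU x, by rw [hl]; exact mem_chart_source _ x⟩
  · exact ((invChart hU hφ.continuous hψ.continuousOn hφU hl hr).symm.isOpenEmbedding rfl).isEmbedding

/-- The core `z ↦ φ (z, 0)` of such an embedding is a smooth embedding of the circle. -/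
theorem isSmoothEmbedding_core_of_inverse (hU : IsOpen U) (hφ : ContMDiff IT (𝓡 3) ∞ φ)
    (hψ : ContMDiffOn (𝓡 3) IT ∞ ψ U)
    (hφU : ∀ x, φ x ∈ U) (hl : ∀ x, ψ (φ x) = x) (hr : ∀ y ∈ U, φ (ψ y) = y) :
    IsSmoothEmbedding (𝓡 1) (𝓡 3) ∞ (fun z : Circle => φ (z, 0)) := by
  have hc : Continuous (fun z : Circle => ((z, 0) : Circle × ℂ)) := by fun_prop
  refine ⟨?_, ?_⟩
  · apply IsImmersionOfComplement.isImmersion (F := ℂ)
    intro z
    apply IsImmersionAtOfComplement.mk_of_continuousAt (hφ.continuous.comp hc).continuousAt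
      tubeModelEquiv
      (chartAt (EuclideanSpace ℝ (Fin 1)) z)
      (codChart hU hφ.continuous hψ.continuousOn hφU hl hr (z, 0))
      (mem_chart_source _ z) ?_ (IsManifold.chart_mem_maximalAtlas z)
      (codChart_mem_maximalAtlas hU hφ hψ hφU hl hr (z, 0))
    · intro u hu
      have hu' : (𝓡 1).symm u ∈ (chartAt (EuclideanSpace ℝ (Fin 1)) z).target := by
        rw [OpenPartialHomeomorph.extend_target] at hu
        exact hu.1
      have h3 : (chartAt (EuclideanSpace ℝ (Fin 1)) z)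
          ((chartAt (EuclideanSpace ℝ (Fin 1)) z).symm ((𝓡 1).symm u)) = (𝓡 1).symm u :=
        (chartAt (EuclideanSpace ℝ (Fin 1)) z).right_inv hu'
      simp only [Function.comp_apply, OpenPartialHomeomorph.extend_coe,
        OpenPartialHomeomorph.extend_coe_symm, codChart_apply, hl]
      have h4 : (chartAt HT ((z, 0) : Circle × ℂ))
          ((chartAt (EuclideanSpace ℝ (Fin 1)) z).symm ((𝓡 1).symm u), (0 : ℂ)) =
          ((𝓡 1).symm u, (0 : ℂ)) := by
        rw [prodChartedSpace_chartAt]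
        exact Prod.ext h3 rfl
      rw [h4]
      rfl
    · rw [mem_codChart_source]
      exact ⟨hφU _, by rw [Function.comp_apply, hl]; exact mem_chart_source _ _⟩
  · exact ((invChart hU hφ.continuous hψ.continuousOn hφU hl hr).symm.isOpenEmbedding rfl).isEmbedding.comp
      (Function.LeftInverse.isEmbedding (f := Prod.fst) (fun _ => rfl) continuous_fst hc)

end

end Claimed.Open.R306
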