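import Claimed.Open.R306.Statement

/-!
# Sanity checks for Dehn fillings: independence of the completion of the gluing matrix
-/

set_option autoImplicit false

open CategoryTheory Set

namespace Claimed.Open.R306

noncomputable section

/-- A homeomorphism which matches two relations induces a homeomorphism of the quotients. -/
def quotHomeomorph {X Y : Type*} [TopologicalSpace X] [TopologicalSpace Y]
    {r : X → X → Prop} {s : Y → Y → Prop} (h : X ≃ₜ Y)
    (h₁ : ∀ a b, r a b → s (h a) (h b)) (h₂ : ∀ a b, s a b → r (h.symm a) (h.symm b)) :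
    Quot r ≃ₜ Quot s where
  toFun := Quot.map h h₁
  invFun := Quot.map h.symm h₂
  left_inv := by
    rintro ⟨x⟩
    simp [Quot.map]
  right_inv := by
    rintro ⟨x⟩
    simp [Quot.map]
  continuous_toFun := continuous_quot_lift _ (continuous_quot_mk.comp h.continuous)
  continuous_invFun := continuous_quot_lift _ (continuous_quot_mk.comp h.symm.continuous)

lemma continuous_circleCoe : Continuous (fun z : Circle => (z : ℂ)) := continuous_subtype_val

namespace Tube

/-- The twist `(x, z) ↦ (z^k x, z)` of the solid torus `D² × S¹`. -/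
def twist (k : ℤ) : SolidTorus ≃ₜ SolidTorus where
  toFun v := (⟨((v.2 ^ k : Circle) : ℂ) * v.1, by
    have := v.1.2
    simp only [Metric.mem_closedBall, dist_zero_right] at this ⊢
    rw [norm_mul, Circle.norm_coe, one_mul]
    exact this⟩, v.2)
  invFun v := (⟨((v.2 ^ (-k) : Circle) : ℂ) * v.1, by
    have := v.1.2
    simp only [Metric.mem_closedBall, dist_zero_right] at this ⊢
    rw [norm_mul, Circle.norm_coe, one_mul]
    exact this⟩, v.2)
  left_inv v := by
    refine Prod.ext (Subtype.ext ?_) rfl
    simp only
    rw [← mul_assoc, ← Circle.coe_mul, ← zpow_add]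
    simp
  right_inv v := by
    refine Prod.ext (Subtype.ext ?_) rfl
    simp only
    rw [← mul_assoc, ← Circle.coe_mul, ← zpow_add]
    simp
  continuous_toFun := by
    refine Continuous.prodMk (Continuous.subtype_mk ?_ _) continuous_snd
    exact (continuous_circleCoe.comp (continuous_snd.zpow k)).mul
      (continuous_subtype_val.comp continuous_fst)
  continuous_invFun := by
    refine Continuous.prodMk (Continuous.subtype_mk ?_ _) continuous_snd
    exact (continuous_circleCoe.comp (continuous_snd.zpow (-k))).mul
      (continuous_subtype_val.comp continuous_fst)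

lemma twist_rim (k : ℤ) (u z : Circle) : twist k (rim u, z) = (rim (z ^ k * u), z) :=
  Prod.ext (Subtype.ext (by simp [twist, rim])) rfl

lemma twist_symm_rim (k : ℤ) (u z : Circle) : (twist k).symm (rim u, z) = (rim (z ^ (-k) * u), z) :=
  Prod.ext (Subtype.ext (by simp [twist, rim])) rfl

variable {K : Set S3} (N : Tube K)

/-- Changing the completion `(a, b)` of the gluing matrix to `(a + k p, b + k q)` does not change
the filling: the twist of the solid torus extends the change of the gluing map. -/
def fillingTwist (p q a b k : ℤ) : N.Filling p q (a + k * p) (b + k * q) ≃ₜ N.Filling p q a b :=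
  quotHomeomorph ((Homeomorph.refl N.Exterior).sumCongr (twist k))
    (by
      rintro _ _ ⟨u, z, rfl, rfl⟩
      refine ⟨z ^ k * u, z, ?_, ?_⟩
      · exact congrArg Sum.inr (twist_rim k u z)
      · refine congrArg (fun x => Sum.inl (N.torus x)) (Prod.ext ?_ ?_)
        · simp only [mul_zpow, ← zpow_mul, zpow_add]
          rw [mul_comm (z ^ b), mul_comm (z ^ (k * q)) (u ^ q), mul_assoc]
        · simp only [mul_zpow, ← zpow_mul, zpow_add]
          rw [mul_comm (z ^ a), mul_comm (z ^ (k * p)) (u ^ p), mul_assoc])
    (by
      rintro _ _ ⟨u, z, rfl, rfl⟩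
      refine ⟨z ^ (-k) * u, z, ?_, ?_⟩
      · exact congrArg Sum.inr (twist_symm_rim k u z)
      · refine congrArg (fun x => Sum.inl (N.torus x)) (Prod.ext ?_ ?_)
        · simp only [mul_zpow, ← zpow_mul, zpow_add]
          rw [mul_comm (z ^ (-k * q)) (u ^ q), mul_assoc, ← mul_assoc (z ^ (-k * q)), mul_comm (z ^ (-k * q)),
            mul_assoc (z ^ b), ← zpow_add]
          simp
        · simp only [mul_zpow, ← zpow_mul, zpow_add]
          rw [mul_comm (z ^ (-k * p)) (u ^ p), mul_assoc, ← mul_assoc (z ^ (-k * p)), mul_comm (z ^ (-k * p)),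
            mul_assoc (z ^ a), ← zpow_add]
          simp)

lemma pinch_comp_fillingTwist (p q a b k : ℤ) :
    (N.pinch p q a b).comp (toContinuousMap (N.fillingTwist p q a b k)) =
      N.pinch p q (a + k * p) (b + k * q) := by
  ext x
  induction x using Quot.ind with
  | mk x => cases x <;> rfl

/-- The homeomorphism `fillingTwist` preserves orientation. -/
lemma isOrientationPreserving_fillingTwist (p q a b k : ℤ) :
    N.IsOrientationPreserving (N.fillingTwist p q a b k) := by
  unfold IsOrientationPreserving
  rw [pinch_comp_fillingTwist]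

/-- **The filling depends only on the slope**: two completions `(a, b)`, `(a', b')` of `(p, q)` to
a matrix of determinant one give fillings which are homeomorphic by an orientation-preserving
homeomorphism. -/
theorem exists_homeomorph_of_det_eq_one {p q a b a' b' : ℤ} (h : q * a - p * b = 1)
    (h' : q * a' - p * b' = 1) :
    ∃ f : N.Filling p q a' b' ≃ₜ N.Filling p q a b, N.IsOrientationPreserving f := by
  obtain ⟨k, hk⟩ : ∃ k : ℤ, k = a * b' - b * a' := ⟨_, rfl⟩
  have ha : a' = a + k * p := by
    rw [hk]; linear_combination (-a') * h + a * h'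
  have hb : b' = b + k * q := by
    rw [hk]; linear_combination (-b') * h + b * h'
  subst ha hb
  exact ⟨N.fillingTwist p q a b k, N.isOrientationPreserving_fillingTwist p q a b k⟩

/-- The reflection `(x, z) ↦ (conj x, z)` of the solid torus. -/
def flipDisc : SolidTorus ≃ₜ SolidTorus where
  toFun v := (⟨(starRingEnd ℂ) v.1, by
    have := v.1.2
    simp only [Metric.mem_closedBall, dist_zero_right] at this ⊢
    rwa [RCLike.norm_conj]⟩, v.2)
  invFun v := (⟨(starRingEnd ℂ) v.1, by
    have := v.1.2
    simp only [Metric.mem_closedBall, dist_zero_right] at this ⊢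
    rwa [RCLike.norm_conj]⟩, v.2)
  left_inv v := Prod.ext (Subtype.ext (by simp)) rfl
  right_inv v := Prod.ext (Subtype.ext (by simp)) rfl
  continuous_toFun := by
    refine Continuous.prodMk (Continuous.subtype_mk ?_ _) continuous_snd
    exact Complex.continuous_conj.comp (continuous_subtype_val.comp continuous_fst)
  continuous_invFun := by
    refine Continuous.prodMk (Continuous.subtype_mk ?_ _) continuous_snd
    exact Complex.continuous_conj.comp (continuous_subtype_val.comp continuous_fst)

lemma flipDisc_rim (u z : Circle) : flipDisc (rim u, z) = (rim u⁻¹, z) :=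
  Prod.ext (Subtype.ext (Circle.coe_inv_eq_conj u).symm) rfl

lemma flipDisc_symm_rim (u z : Circle) : flipDisc.symm (rim u, z) = (rim u⁻¹, z) :=
  Prod.ext (Subtype.ext (Circle.coe_inv_eq_conj u).symm) rfl

/-- The pairs `(p, q)` and `(-p, -q)` give the same filling: a slope is a class `p μ + q λ` up to
sign. -/
def fillingNeg (p q a b : ℤ) : N.Filling (-p) (-q) a b ≃ₜ N.Filling p q a b :=
  quotHomeomorph ((Homeomorph.refl N.Exterior).sumCongr flipDisc)
    (by
      rintro _ _ ⟨u, z, rfl, rfl⟩
      refine ⟨u⁻¹, z, congrArg Sum.inr (flipDisc_rim u z), ?_⟩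
      refine congrArg (fun x => Sum.inl (N.torus x)) (Prod.ext ?_ ?_) <;> simp)
    (by
      rintro _ _ ⟨u, z, rfl, rfl⟩
      refine ⟨u⁻¹, z, congrArg Sum.inr (flipDisc_symm_rim u z), ?_⟩
      refine congrArg (fun x => Sum.inl (N.torus x)) (Prod.ext ?_ ?_) <;> simp)

lemma isOrientationPreserving_fillingNeg (p q a b : ℤ) :
    N.IsOrientationPreserving (N.fillingNeg p q a b) := by
  unfold IsOrientationPreserving
  congr 2
  ext x
  induction x using Quot.ind with
  | mk x => cases x <;> rfl

end Tube

end

end Claimed.Open.R306
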