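import Claimed.Open.R306.TubeData

/-!
# Twisting and mirroring explicit tubes
-/

set_option autoImplicit false

open scoped Manifold ContDiff
open Manifold Set Metric Module

namespace Claimed.Open.R306

noncomputable section

/-- A globally smooth function on `ℂ` which restricts to `z ↦ z^k` on the unit circle. -/
def pw (k : ℤ) (z : ℂ) : ℂ :=
  if 0 ≤ k then z ^ k.toNat else ((starRingEnd ℂ) z) ^ (-k).toNat

lemma contDiff_pw (k : ℤ) : ContDiff ℝ ∞ (pw k) := by
  unfold pw
  split_ifs
  · exact contDiff_id.pow _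
  · exact (Complex.conjCLE.contDiff).pow _

lemma pw_coe (k : ℤ) (z : Circle) : pw k (z : ℂ) = ((z ^ k : Circle) : ℂ) := by
  unfold pw
  split_ifs with h
  · obtain ⟨n, rfl⟩ := Int.eq_ofNat_of_zero_le h
    simp
  · obtain ⟨n, hn⟩ := Int.eq_ofNat_of_zero_le (by omega : 0 ≤ -k)
    have hk : k = -(n : ℤ) := by omega
    subst hk
    rw [← Circle.coe_inv_eq_conj]
    simp

namespace TubeData

variable (D : TubeData)

/-- The tube `(z, w) ↦ N (z, z^k w)`: the same tubular neighbourhood, with the framing changed by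
`k` full twists. -/
def twist (k : ℤ) : TubeData where
  G x := D.G (x.1, pw k x.1 * x.2)
  P₁ := D.P₁
  P₂ x := pw (-k) (unitOf (D.P₁ x)) * D.P₂ x
  V := D.V
  contDiff_G := D.contDiff_G.comp
    (contDiff_fst.prodMk (((contDiff_pw k).comp contDiff_fst).mul contDiff_snd))
  isOpen_V := D.isOpen_V
  contDiffOn_P₁ := D.contDiffOn_P₁
  contDiffOn_P₂ :=
    ((contDiff_pw (-k)).comp_contDiffOn
      (contDiffOn_coe_unitOf.comp D.contDiffOn_P₁ D.P₁_ne)).mul D.contDiffOn_P₂
  P₁_ne := D.P₁_ne
  norm_G z w := D.norm_G z _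
  G_mem z w := D.G_mem z _
  left₁ z w := D.left₁ z _
  left₂ z w := by
    simp only
    rw [D.left₁, D.left₂, pw_coe, pw_coe, ← mul_assoc, ← Circle.coe_mul, ← zpow_add]
    simp
  right x hx h := by
    simp only
    rw [pw_coe, pw_coe, ← mul_assoc, ← Circle.coe_mul, ← zpow_add]
    simpa using D.right x hx h

lemma twist_φ (k : ℤ) (x : Circle × ℂ) :
    (D.twist k).φ x = D.φ (x.1, ((x.1 ^ k : Circle) : ℂ) * x.2) := by
  apply S3.ext_c <;> simp [φ, twist, pw_coe]

lemma twist_knot (k : ℤ) : (D.twist k).knot = D.knot := by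
  unfold knot
  congr 1
  funext z
  simp [twist_φ]

lemma twist_inner (k : ℤ) : (D.twist k).tube.inner = D.tube.inner := by
  ext y
  constructor
  · rintro ⟨x, hx, rfl⟩
    refine ⟨(x.1, ((x.1 ^ k : Circle) : ℂ) * x.2), ?_, (D.twist_φ k x).symm⟩
    simpa [Circle.norm_coe] using hx
  · rintro ⟨x, hx, rfl⟩
    refine ⟨(x.1, ((x.1 ^ (-k) : Circle) : ℂ) * x.2), ?_, ?_⟩
    · simpa [Circle.norm_coe] using hx
    · change (D.twist k).φ _ = D.φ x
      rw [twist_φ]
      simp only
      rw [← mul_assoc, ← Circle.coe_mul, ← zpow_add]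
      simp

lemma hasDerivAt_lift_line (x v : ℝ × ℂ) :
    HasDerivAt (fun s : ℝ => D.tube.lift (x + s • v)) (fderiv ℝ D.tube.lift x v) 0 := by
  have h1 : HasDerivAt (fun s : ℝ => x + s • v) v 0 := by
    simpa using ((hasDerivAt_id (0 : ℝ)).smul_const v).const_add x
  have h2 : HasFDerivAt D.tube.lift (fderiv ℝ D.tube.lift x) (x + (0 : ℝ) • v) := by
    simpa using (D.differentiableAt_lift x).hasFDerivAt
  exact HasFDerivAt.comp_hasDerivAt (f := fun s : ℝ => x + s • v) (l := D.tube.lift) (0 : ℝ) h2 h1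

lemma twist_lift (k : ℤ) (x : ℝ × ℂ) :
    (D.twist k).tube.lift x = D.tube.lift (x.1, (((Circle.exp x.1) ^ k : Circle) : ℂ) * x.2) :=
  congrArg Subtype.val (D.twist_φ k (Circle.exp x.1, x.2))

/-- Twisting does not change the frame at the point `(0, 0)`. -/
lemma twist_frame_zero (k : ℤ) : (D.twist k).tube.frame (0, 0) = D.tube.frame (0, 0) := by
  have e0 : (D.twist k).tube.lift (0, 0) = D.tube.lift (0, 0) := by simp [twist_lift]
  have e1 : fderiv ℝ (D.twist k).tube.lift (0, 0) (1, 0) = fderiv ℝ D.tube.lift (0, 0) (1, 0) := by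
    apply (D.twist k).fderiv_lift_apply
    refine (D.hasDerivAt_lift_line (0, 0) (1, 0)).congr_of_eventuallyEq
      (Filter.Eventually.of_forall fun s => ?_)
    simp [twist_lift]
  have e2 : ∀ v : ℂ,
      fderiv ℝ (D.twist k).tube.lift (0, 0) (0, v) = fderiv ℝ D.tube.lift (0, 0) (0, v) := by
    intro v
    apply (D.twist k).fderiv_lift_apply
    refine (D.hasDerivAt_lift_line (0, 0) (0, v)).congr_of_eventuallyEq
      (Filter.Eventually.of_forall fun s => ?_)
    simp [twist_lift]
  simp only [Tube.frame, e0, e1, e2]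

/-- A twist of a positive tube is positive. -/
theorem twist_isPositive (k : ℤ) (h : D.tube.IsPositive) : (D.twist k).tube.IsPositive :=
  (D.twist k).isPositive_of_point (0, 0) (by rw [twist_frame_zero]; exact h (0, 0))

/-- The mirror tube `(z, w) ↦ N (z, conj w)`. -/
def mirror : TubeData where
  G x := D.G (x.1, (starRingEnd ℂ) x.2)
  P₁ := D.P₁
  P₂ x := (starRingEnd ℂ) (D.P₂ x)
  V := D.V
  contDiff_G := D.contDiff_G.comp
    (contDiff_fst.prodMk (Complex.conjCLE.contDiff.comp contDiff_snd))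
  isOpen_V := D.isOpen_V
  contDiffOn_P₁ := D.contDiffOn_P₁
  contDiffOn_P₂ := Complex.conjCLE.contDiff.comp_contDiffOn D.contDiffOn_P₂
  P₁_ne := D.P₁_ne
  norm_G z w := D.norm_G z _
  G_mem z w := D.G_mem z _
  left₁ z w := D.left₁ z _
  left₂ z w := by simp [D.left₂]
  right x hx h := by simpa using D.right x hx h

lemma mirror_φ (x : Circle × ℂ) : D.mirror.φ x = D.φ (x.1, (starRingEnd ℂ) x.2) := by
  apply S3.ext_c <;> simp [φ, mirror]

lemma mirror_knot : D.mirror.knot = D.knot := by
  unfold knot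
  congr 1
  funext z
  simp [mirror_φ]

lemma mirror_lift (x : ℝ × ℂ) : D.mirror.tube.lift x = D.tube.lift (x.1, (starRingEnd ℂ) x.2) :=
  congrArg Subtype.val (D.mirror_φ (Circle.exp x.1, x.2))

/-- Mirroring changes the sign of the orientation determinant at `(0, 0)`. -/
lemma mirror_frame_zero_det : (D.mirror.tube.frame (0, 0)).det = -(D.tube.frame (0, 0)).det := by
  have e0 : D.mirror.tube.lift (0, 0) = D.tube.lift (0, 0) := by simp [mirror_lift]
  have e1 : fderiv ℝ D.mirror.tube.lift (0, 0) (1, 0) = fderiv ℝ D.tube.lift (0, 0) (1, 0) := by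
    apply D.mirror.fderiv_lift_apply
    refine (D.hasDerivAt_lift_line (0, 0) (1, 0)).congr_of_eventuallyEq
      (Filter.Eventually.of_forall fun s => ?_)
    simp [mirror_lift]
  have e2 : ∀ v : ℂ, fderiv ℝ D.mirror.tube.lift (0, 0) (0, v) =
      fderiv ℝ D.tube.lift (0, 0) (0, (starRingEnd ℂ) v) := by
    intro v
    apply D.mirror.fderiv_lift_apply
    refine (D.hasDerivAt_lift_line (0, 0) (0, (starRingEnd ℂ) v)).congr_of_eventuallyEq
      (Filter.Eventually.of_forall fun s => ?_)
    simp [mirror_lift]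
  have e3 : fderiv ℝ D.tube.lift (0, 0) (0, (starRingEnd ℂ) Complex.I) =
      -fderiv ℝ D.tube.lift (0, 0) (0, Complex.I) := by
    rw [← map_neg]
    simp
  have h : D.mirror.tube.frame (0, 0) =
      (D.tube.frame (0, 0)).updateRow 3 (-(D.tube.frame (0, 0)) 3) := by
    ext i j
    simp only [Tube.frame, e0, e1, e2, e3]
    fin_cases i <;> simp [Matrix.updateRow_apply]
  rw [h, ← neg_one_smul ℝ ((D.tube.frame (0, 0)) 3), Matrix.det_updateRow_smul,
    Matrix.updateRow_eq_self]
  simp

/-- The mirror of a positive tube is not positive. -/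
theorem mirror_not_isPositive (h : D.tube.IsPositive) : ¬ D.mirror.tube.IsPositive := by
  intro h'
  have h1 := h' (0, 0)
  rw [mirror_frame_zero_det] at h1
  linarith [h (0, 0)]

end TubeData

end

end Claimed.Open.R306
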