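import Claimed.Open.R306.Unknot
import Claimed.Open.R306.TubeTwist
import Claimed.Open.R306.CircleDegree

/-!
# Non-examples: tubes of the unknot which are not positive or not preferred
-/

set_option autoImplicit false

open scoped Manifold ContDiff
open Manifold Set Metric Module unitInterval

namespace Claimed.Open.R306

noncomputable section

namespace Unknot

/-- The mirror image `(z, w) ↦ (z, conj w)/√(1+|w|²)` of the standard tube is not positive. -/
theorem mirror_not_isPositive : ¬ data.mirror.tube.IsPositive :=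
  data.mirror_not_isPositive isPositive

/-- All twisted tubes `(z, w) ↦ (z, z^k w)/√(1+|w|²)` are positive. -/
theorem twist_isPositive (k : ℤ) : (data.twist k).tube.IsPositive :=
  data.twist_isPositive k isPositive

lemma continuous_mkS3 {X : Type*} [TopologicalSpace X] {a b : X → ℂ} (ha : Continuous a)
    (hb : Continuous b) (h : ∀ x, ‖a x‖ ^ 2 + ‖b x‖ ^ 2 = 1) :
    Continuous fun x => mkS3 (a x) (b x) (h x) :=
  Continuous.subtype_mk (toE4.continuous.comp (ha.prodMk hb)) _

/-- The interior of the standard tube is `|b| < |a|`. -/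
lemma mem_inner_iff (x : S3) : x ∈ data.tube.inner ↔ ‖csnd x‖ < ‖cfst x‖ := by
  constructor
  · rintro ⟨y, hy, rfl⟩
    change ‖csnd (data.φ y)‖ < ‖cfst (data.φ y)‖
    rw [csnd_φ, cfst_φ, norm_smul, norm_smul, Circle.norm_coe, mul_one]
    have h1 : 0 < ‖sc y.2‖ := norm_pos_iff.2 (sc_pos _).ne'
    have h2 : ‖y.2‖ < 1 := hy
    nlinarith
  · intro h
    have ha : cfst x ≠ 0 := by
      intro h0
      rw [h0, norm_zero] at h
      exact absurd h (not_lt.2 (norm_nonneg _))
    have hx : x ∈ data.U := ha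
    refine ⟨data.ψ x, ?_, data.φ_ψ x hx⟩
    change ‖(‖cfst x‖⁻¹ : ℝ) • csnd x‖ < 1
    rw [norm_smul, norm_inv, norm_norm, inv_mul_lt_iff₀ (norm_pos_iff.2 ha), mul_one]
    exact h

lemma sc_coe (u : Circle) : sc (u : ℂ) = sc 1 := by simp [sc, Circle.norm_coe]

lemma mem_exterior_iff (k : ℤ) (x : S3) :
    x ∈ ((data.twist k).tube.inner)ᶜ ↔ ‖cfst x‖ ≤ ‖csnd x‖ := by
  rw [mem_compl_iff, TubeData.twist_inner, mem_inner_iff, not_lt]

lemma arc_norm (s : ℝ) (a b : Circle) :
    ‖(sc ((1 - s : ℝ) : ℂ) * (1 - s)) • (a : ℂ)‖ ^ 2 + ‖sc ((1 - s : ℝ) : ℂ) • (b : ℂ)‖ ^ 2 = 1 := by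
  have h := sc_sq ((1 - s : ℝ) : ℂ)
  rw [Complex.norm_real, Real.norm_eq_abs, sq_abs] at h
  rw [norm_smul, norm_smul, Circle.norm_coe, Circle.norm_coe, mul_one, mul_one, Real.norm_eq_abs,
    Real.norm_eq_abs, sq_abs, sq_abs]
  nlinarith

/-- The homotopy in the exterior which pushes the loop `z ↦ (α z, β z)/√2` of the peripheral
torus to the loop `z ↦ (0, β z)` in the core circle of the exterior. -/
def arc (k : ℤ) (α β : C(Circle, Circle)) : C(I × Circle, (data.twist k).tube.Exterior) where
  toFun y := ⟨mkS3 _ _ (arc_norm y.1 (α y.2) (β y.2)), by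
    rw [mem_exterior_iff, cfst_mkS3, csnd_mkS3, norm_smul, norm_smul, Circle.norm_coe,
      Circle.norm_coe, mul_one, mul_one, norm_mul]
    have h1 : ‖(1 - (y.1 : ℝ))‖ ≤ 1 := by
      rw [Real.norm_eq_abs, abs_le]
      constructor <;> linarith [y.1.2.1, y.1.2.2]
    exact mul_le_of_le_one_right (norm_nonneg _) h1⟩
  continuous_toFun := by
    refine Continuous.subtype_mk (continuous_mkS3 ?_ ?_ _) _
    · have : Continuous sc := contDiff_sc.continuous
      have h2 : Continuous fun z : Circle => (z : ℂ) := continuous_subtype_val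
      fun_prop
    · have : Continuous sc := contDiff_sc.continuous
      have h2 : Continuous fun z : Circle => (z : ℂ) := continuous_subtype_val
      fun_prop

/-- the core circle `v ↦ (0, v)` of the exterior -/
def coreLoop (k : ℤ) : C(Circle, (data.twist k).tube.Exterior) where
  toFun v := ⟨mkS3 0 v (by simp [Circle.norm_coe]), by
    rw [mem_exterior_iff]; simp⟩
  continuous_toFun :=
    Continuous.subtype_mk (continuous_mkS3 continuous_const continuous_subtype_val _) _

/-- the loop `z ↦ (α z, β z)/√2` on the peripheral torus -/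
def torusLoop (k : ℤ) (α β : C(Circle, Circle)) : C(Circle, (data.twist k).tube.Exterior) :=
  (arc k α β).comp ⟨fun z => (0, z), by fun_prop⟩

lemma cfst_arc (k : ℤ) (α β : C(Circle, Circle)) (y : I × Circle) :
    cfst (arc k α β y).1 = (sc ((1 - (y.1 : ℝ) : ℝ) : ℂ) * (1 - (y.1 : ℝ))) • (α y.2 : ℂ) :=
  cfst_mkS3 _ _ (arc_norm _ _ _)

lemma csnd_arc (k : ℤ) (α β : C(Circle, Circle)) (y : I × Circle) :
    csnd (arc k α β y).1 = sc ((1 - (y.1 : ℝ) : ℝ) : ℂ) • (β y.2 : ℂ) :=
  csnd_mkS3 _ _ (arc_norm _ _ _)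

lemma cfst_coreLoop (k : ℤ) (v : Circle) : cfst (coreLoop k v).1 = 0 :=
  cfst_mkS3 _ _ (by simp [Circle.norm_coe])

lemma csnd_coreLoop (k : ℤ) (v : Circle) : csnd (coreLoop k v).1 = v :=
  csnd_mkS3 _ _ (by simp [Circle.norm_coe])

lemma cfst_torusLoop (k : ℤ) (α β : C(Circle, Circle)) (z : Circle) :
    cfst (torusLoop k α β z).1 = sc 1 • (α z : ℂ) := by
  change cfst (arc k α β (0, z)).1 = _
  rw [cfst_arc]
  simp

lemma csnd_torusLoop (k : ℤ) (α β : C(Circle, Circle)) (z : Circle) :
    csnd (torusLoop k α β z).1 = sc 1 • (β z : ℂ) := by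
  change csnd (arc k α β (0, z)).1 = _
  rw [csnd_arc]
  simp

lemma homotopic_torusLoop (k : ℤ) (α β : C(Circle, Circle)) :
    (torusLoop k α β).Homotopic ((coreLoop k).comp β) :=
  ⟨{ toContinuousMap := arc k α β
     map_zero_left := fun z => rfl
     map_one_left := fun z => by
       apply Subtype.ext
       apply S3.ext_c
       · change cfst (arc k α β (1, z)).1 = cfst (coreLoop k (β z)).1
         rw [cfst_arc, cfst_coreLoop]
         simp
       · change csnd (arc k α β (1, z)).1 = csnd (coreLoop k (β z)).1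
         rw [csnd_arc, csnd_coreLoop]
         simp [sc_zero] }⟩

lemma meridian_eq (k : ℤ) :
    (data.twist k).tube.meridian = torusLoop k (ContinuousMap.const _ 1) (ContinuousMap.id _) := by
  ext1 u
  apply Subtype.ext
  have h : ((data.twist k).tube.meridian u).1 = (data.twist k).φ (1, (u : ℂ)) := rfl
  rw [h, TubeData.twist_φ]
  apply S3.ext_c
  · rw [cfst_torusLoop, cfst_φ]
    simp [sc_coe]
  · rw [csnd_torusLoop, csnd_φ]
    simp [sc_coe]

lemma longitude_eq (k : ℤ) :
    (data.twist k).tube.longitude = torusLoop k (ContinuousMap.id _) (zpowMap k) := by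
  ext1 z
  apply Subtype.ext
  have h : ((data.twist k).tube.longitude z).1 = (data.twist k).φ (z, ((1 : Circle) : ℂ)) := rfl
  rw [h, TubeData.twist_φ]
  apply S3.ext_c
  · rw [cfst_torusLoop, cfst_φ]
    simp only [Circle.coe_one, mul_one, sc_coe]
    simp
  · rw [csnd_torusLoop, csnd_φ]
    simp only [Circle.coe_one, mul_one, sc_coe]
    simp

/-- **Only the untwisted tube of the unknot has the preferred framing.** -/
theorem eq_zero_of_twist_isPreferred {k : ℤ} (h : (data.twist k).tube.IsPreferred) : k = 0 := by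
  obtain ⟨θ, h₁, h₂⟩ := h
  rw [meridian_eq] at h₁
  rw [longitude_eq] at h₂
  -- `θ` has degree one on the core circle of the exterior
  have h3 : (θ.comp (coreLoop k)).Homotopic (ContinuousMap.id Circle) := by
    have := (ContinuousMap.Homotopic.refl θ).comp
      (homotopic_torusLoop k (ContinuousMap.const _ 1) (ContinuousMap.id _))
    exact this.symm.trans h₁
  -- hence degree `k` on the longitude
  have h4 : (θ.comp (torusLoop k (ContinuousMap.id _) (zpowMap k))).Homotopic (zpowMap k) := by
    have h5 := (ContinuousMap.Homotopic.refl θ).comp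
      (homotopic_torusLoop k (ContinuousMap.id _) (zpowMap k))
    have h6 := h3.comp (ContinuousMap.Homotopic.refl (zpowMap k))
    exact h5.trans h6
  obtain ⟨c, hc⟩ := h₂
  exact eq_zero_of_nullhomotopic_zpowMap ⟨c, h4.symm.trans hc⟩

lemma csnd_ne_zero' (k : ℤ) (x : (data.twist k).tube.Exterior) : csnd x.1 ≠ 0 := by
  intro h
  have h1 := (mem_exterior_iff k x.1).1 x.2
  have h2 := norm_sq_add_norm_sq x.1
  rw [h, norm_zero] at h1 h2
  have h3 : ‖cfst x.1‖ = 0 := le_antisymm h1 (norm_nonneg _)
  rw [h3] at h2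
  norm_num at h2

/-- the map `(a, b) ↦ b / |b|` on the exterior of the twisted tube -/
def θ' (k : ℤ) : C((data.twist k).tube.Exterior, Circle) :=
  circleMap ⟨fun x => csnd x.1, continuous_csnd.comp continuous_subtype_val⟩ (csnd_ne_zero' k)

lemma θ'_comp_torusLoop (k : ℤ) (α β : C(Circle, Circle)) : (θ' k).comp (torusLoop k α β) = β := by
  ext1 z
  change unitOf (csnd (torusLoop k α β z).1) = β z
  rw [csnd_torusLoop, unitOf_smul (sc_pos _), unitOf_coe]

/-- The `k`-fold twisted tube of the unknot has the preferred framing if and only if `k = 0`. -/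
theorem twist_isPreferred_iff (k : ℤ) : (data.twist k).tube.IsPreferred ↔ k = 0 := by
  refine ⟨eq_zero_of_twist_isPreferred, ?_⟩
  rintro rfl
  refine ⟨θ' 0, ?_, 1, ?_⟩
  · rw [meridian_eq, θ'_comp_torusLoop]
  · rw [longitude_eq, θ'_comp_torusLoop]
    have : zpowMap 0 = ContinuousMap.const Circle 1 := by
      ext1 z
      simp
    rw [this]

end Unknot

end

end Claimed.Open.R306
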