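import Claimed.Open.R306.TubeData

/-!
# The orientation determinant of a tube has constant sign

The same argument as in `TubeData.lean`, for an arbitrary tube `N` for which one knows that
`N.lift` is smooth and has a differentiable left inverse (up to `(t, w) ↦ (e^{it}, w)`).
-/

set_option autoImplicit false

open scoped ContDiff
open Set Metric Module

namespace Claimed.Open.R306

noncomputable section

namespace Tube

variable {K : Set S3} (N : Tube K)

lemma norm_lift (x : ℝ × ℂ) : ‖N.lift x‖ = 1 :=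
  norm_eq_of_mem_sphere (N.toFun (Circle.exp x.1, x.2))

variable {N}

lemma inner_lift_fderiv (hl : Differentiable ℝ N.lift) (x v : ℝ × ℂ) :
    Inner.inner ℝ (N.lift x) (fderiv ℝ N.lift x v) = 0 := by
  have h1 : HasFDerivAt (fun y => Inner.inner ℝ (N.lift y) (N.lift y)) _ x :=
    (hl x).hasFDerivAt.inner ℝ (hl x).hasFDerivAt
  have h2 : (fun y => Inner.inner ℝ (N.lift y) (N.lift y)) = fun _ => (1 : ℝ) := by
    funext y
    rw [real_inner_self_eq_norm_sq, norm_lift]
    norm_num
  rw [h2] at h1
  have h3 := h1.unique (hasFDerivAt_const (1 : ℝ) x)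
  have h4 := congrArg (fun L => L v) h3
  simp only [ContinuousLinearMap.comp_apply, ContinuousLinearMap.prod_apply,
    fderivInnerCLM_apply, zero_apply] at h4
  rw [real_inner_comm (N.lift x)] at h4
  linarith

lemma fderiv_lift_injective (hl : Differentiable ℝ N.lift) {Q : E4 → ℂ × ℂ}
    (hQ : ∀ x, DifferentiableAt ℝ Q (N.lift x)) (hQl : ∀ x, Q (N.lift x) = TubeData.expMap x)
    (x : ℝ × ℂ) : Function.Injective (fderiv ℝ N.lift x) := by
  have h : fderiv ℝ TubeData.expMap x = (fderiv ℝ Q (N.lift x)).comp (fderiv ℝ N.lift x) := by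
    rw [← fderiv_comp x (hQ x) (hl x)]
    congr 1
    funext y
    exact (hQl y).symm
  intro v w hvw
  apply TubeData.fderiv_expMap_injective x
  rw [h]
  simp [hvw]

lemma frame_det_ne_zero (hl : Differentiable ℝ N.lift) {Q : E4 → ℂ × ℂ}
    (hQ : ∀ x, DifferentiableAt ℝ Q (N.lift x)) (hQl : ∀ x, Q (N.lift x) = TubeData.expMap x)
    (x : ℝ × ℂ) : (N.frame x).det ≠ 0 := by
  intro h0
  obtain ⟨c, hc, hc0⟩ := Matrix.exists_vecMul_eq_zero_iff.mpr h0
  set L := fderiv ℝ N.lift x with hL
  have hrel : c 0 • N.lift x + L (c 1, (c 2 : ℂ) + (c 3 : ℂ) * Complex.I) = 0 := by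
    have hv : ((c 1, (c 2 : ℂ) + (c 3 : ℂ) * Complex.I) : ℝ × ℂ) =
        c 1 • ((1, 0) : ℝ × ℂ) + c 2 • ((0, 1) : ℝ × ℂ) + c 3 • ((0, Complex.I) : ℝ × ℂ) := by
      ext <;> simp
    rw [hv, map_add, map_add, map_smul, map_smul, map_smul]
    ext j
    have := congrFun hc0 j
    simp only [Matrix.vecMul, dotProduct, Fin.sum_univ_four, Tube.frame, Matrix.of_apply,
      Pi.zero_apply] at this
    simp only [PiLp.add_apply, PiLp.smul_apply, smul_eq_mul, PiLp.zero_apply]
    simp only [Matrix.cons_val_zero, Matrix.cons_val_one, Matrix.cons_val] at this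
    linarith
  have h1 : c 0 = 0 := by
    have := congrArg (fun y => Inner.inner ℝ (N.lift x) y) hrel
    simp only [inner_add_right, inner_smul_right, inner_zero_right,
      real_inner_self_eq_norm_sq, N.norm_lift] at this
    rw [hL, inner_lift_fderiv hl] at this
    simpa using this
  rw [h1, zero_smul, zero_add] at hrel
  have h2 : ((c 1, (c 2 : ℂ) + (c 3 : ℂ) * Complex.I) : ℝ × ℂ) = 0 :=
    fderiv_lift_injective hl hQ hQl x (by rw [hrel, map_zero])
  have h3 : c 1 = 0 := congrArg Prod.fst h2
  have h4 : (c 2 : ℂ) + (c 3 : ℂ) * Complex.I = 0 := congrArg Prod.snd h2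
  have h5 : c 2 = 0 := by simpa using congrArg Complex.re h4
  have h6 : c 3 = 0 := by simpa using congrArg Complex.im h4
  apply hc
  funext j
  fin_cases j <;> simp [h1, h3, h5, h6]

lemma continuous_frame_det (hl : ContDiff ℝ ∞ N.lift) : Continuous fun x => (N.frame x).det := by
  have hd : Continuous (fderiv ℝ N.lift) := hl.continuous_fderiv (by simp)
  have hl' : Continuous N.lift := hl.continuous
  apply Continuous.matrix_det
  apply continuous_matrix
  intro i j
  have hj : Continuous fun y : E4 => y j := (EuclideanSpace.proj j : E4 →L[ℝ] ℝ).continuous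
  fin_cases i
  · exact hj.comp hl'
  · exact hj.comp (hd.clm_apply continuous_const)
  · exact hj.comp (hd.clm_apply continuous_const)
  · exact hj.comp (hd.clm_apply continuous_const)

/-- To check that a tube is positively oriented, it is enough to do so at one point. -/
theorem isPositive_of_point (hl : ContDiff ℝ ∞ N.lift) {Q : E4 → ℂ × ℂ}
    (hQ : ∀ x, DifferentiableAt ℝ Q (N.lift x)) (hQl : ∀ x, Q (N.lift x) = TubeData.expMap x)
    (x₀ : ℝ × ℂ) (h : 0 < (N.frame x₀).det) : N.IsPositive := by
  intro x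
  by_contra hx
  obtain ⟨y, hy⟩ := mem_range_of_exists_le_of_exists_ge (continuous_frame_det hl)
    ⟨x, not_lt.mp hx⟩ ⟨x₀, h.le⟩
  exact frame_det_ne_zero (hl.differentiable (by simp)) hQ hQl y hy

/-- The differential of `lift` computed along a line. -/
lemma fderiv_lift_apply (hl : Differentiable ℝ N.lift) {x v : ℝ × ℂ} {d : E4}
    (h : HasDerivAt (fun s : ℝ => N.lift (x + s • v)) d 0) :
    fderiv ℝ N.lift x v = d := by
  have h1 : HasDerivAt (fun s : ℝ => x + s • v) v 0 := by
    simpa using ((hasDerivAt_id (0 : ℝ)).smul_const v).const_add x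
  have h2 : HasFDerivAt N.lift (fderiv ℝ N.lift x) (x + (0 : ℝ) • v) := by
    simpa using (hl x).hasFDerivAt
  have h3 : HasDerivAt (fun s : ℝ => N.lift (x + s • v)) (fderiv ℝ N.lift x v) 0 :=
    HasFDerivAt.comp_hasDerivAt (f := fun s : ℝ => x + s • v) (l := N.lift) (0 : ℝ) h2 h1
  exact h3.unique h

end Tube

end

end Claimed.Open.R306
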