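import Claimed.Open.R306.SanityCosmeticCells

/-!
# The unknot has purely cosmetic surgeries

`Cosmetic.cosm`: a homeomorphism from the `∞`-filling to the `1`-filling of the exterior of the standard unknot.  On the exterior
solid torus `|a| ≤ |b|` it is the twist `(a, b) ↦ (- (b / |b|) a, b)` along a meridian disc; this maps the curve `μ` to `μ + λ`, so it
extends over the filling solid tori.

`Cosmetic.isOrientationPreserving_cosm`: it preserves orientation in the sense of `Statement.lean`.  The two maps `S³ → S³ / νU` which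
have to be compared are NOT homotopic (they differ by the Hopf map to the 2-sphere `meridian disc / boundary`), so this is a
genuine computation in `H₃`: see `SanityCosmeticChain.lean`.
-/

set_option autoImplicit false

open Set Metric Topology CategoryTheory

namespace Claimed.Open.R306

noncomputable section

namespace Cosmetic

open Unknot Claimed.Open.R321

/-- the twist `(a, b) ↦ (- (b / |b|) a, b)` -/
def tw (x : S3) : S3 := rot (m1 * unitOf (csnd x)) x

/-- its inverse -/
def twInv (x : S3) : S3 := rot (m1 * unitOf (csnd x))⁻¹ x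

lemma tw_twInv (x : S3) : tw (twInv x) = x := by
  rw [tw, twInv, csnd_rot, rot_rot, mul_inv_cancel, rot_one]

lemma twInv_tw (x : S3) : twInv (tw x) = x := by
  rw [tw, twInv, csnd_rot, rot_rot, inv_mul_cancel, rot_one]

lemma continuous_unitOf_csnd : Continuous fun e : data.tube.Exterior => unitOf (csnd e.1) :=
  θ.continuous

/-- the twist, as a homeomorphism of the exterior -/
def twE : data.tube.Exterior ≃ₜ data.tube.Exterior where
  toFun e := ⟨tw e.1, fun h => e.2 ((rot_mem_inner_iff _ _).1 h)⟩
  invFun e := ⟨twInv e.1, fun h => e.2 ((rot_mem_inner_iff _ _).1 h)⟩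
  left_inv e := Subtype.ext (twInv_tw e.1)
  right_inv e := Subtype.ext (tw_twInv e.1)
  continuous_toFun := Continuous.subtype_mk
    (continuous_rot' (continuous_const.mul continuous_unitOf_csnd) continuous_subtype_val) _
  continuous_invFun := Continuous.subtype_mk
    (continuous_rot' (continuous_const.mul continuous_unitOf_csnd).inv continuous_subtype_val) _

lemma tw_φ (x y : Circle) : tw (data.φ (x, (y : ℂ))) = data.φ (m1 * y * x, (y : ℂ)) := by
  have h : unitOf (csnd (data.φ (x, (y : ℂ)))) = y := by
    rw [csnd_φ, unitOf_smul (sc_pos _), unitOf_coe]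
  rw [tw, h]
  refine S3.ext_c ?_ ?_
  · rw [cfst_rot, cfst_φ, cfst_φ]
    simp only [Circle.coe_mul, mul_smul_comm]
  · rw [csnd_rot, csnd_φ, csnd_φ]

lemma twE_torus (x y : Circle) :
    twE (data.tube.torus (x, y)) = data.tube.torus (m1 * y * x, y) :=
  Subtype.ext (tw_φ x y)

lemma twE_symm_torus (x y : Circle) :
    twE.symm (data.tube.torus (x, y)) = data.tube.torus ((m1 * y)⁻¹ * x, y) := by
  rw [Homeomorph.symm_apply_eq, twE_torus, mul_inv_cancel_left]

/-- the rotation `(x, z) ↦ (x, - z)` of the solid torus -/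
def sg : Tube.SolidTorus ≃ₜ Tube.SolidTorus :=
  (Homeomorph.refl _).prodCongr (Homeomorph.mulLeft m1⁻¹)

/-- The homeomorphism `S³_∞(U) ≃ₜ S³_1(U)`. -/
def cosm : data.tube.Filling 1 0 0 (-1) ≃ₜ data.tube.Filling 1 1 0 (-1) :=
  quotHomeomorph (twE.sumCongr sg)
    (by
      rintro _ _ ⟨u, z, rfl, rfl⟩
      refine ⟨u, m1⁻¹ * z, rfl, ?_⟩
      change Sum.inl (twE (data.tube.torus _)) = _
      rw [twE_torus]
      refine congrArg (fun x => Sum.inl (data.tube.torus x)) (Prod.ext ?_ ?_)
      · simp [mul_comm, mul_assoc]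
      · simp)
    (by
      rintro _ _ ⟨u, z, rfl, rfl⟩
      refine ⟨u, m1 * z, ?_, ?_⟩
      · change Sum.inr (Tube.rim u, (m1⁻¹)⁻¹ * z) = _
        rw [inv_inv]
      · change Sum.inl (twE.symm (data.tube.torus _)) = _
        rw [twE_symm_torus]
        refine congrArg (fun x => Sum.inl (data.tube.torus x)) (Prod.ext ?_ ?_)
        · simp only [zpow_one, zpow_zero, mul_one, one_mul, zpow_neg, mul_inv_rev]
          rw [mul_comm u⁻¹ m1⁻¹, mul_assoc, inv_mul_cancel_left, mul_comm]
        · simp)

/-- the map `S³ = S³_∞(U) → S³_1(U) → S³ / νU` -/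
def gmap : C(S3, data.tube.Pinched) :=
  ((data.tube.pinch 1 1 0 (-1)).comp (toContinuousMap cosm)).comp
    (toContinuousMap data.tube.fillingInfty.symm)

lemma gmap_apply (x : S3) : gmap x = data.tube.pinchSphere (tw x) := by
  obtain ⟨m, rfl⟩ := data.tube.fillingInfty.surjective x
  change data.tube.pinch 1 1 0 (-1)
    (cosm (data.tube.fillingInfty.symm (data.tube.fillingInfty m))) = _
  rw [Homeomorph.symm_apply_apply]
  induction m using Quot.ind with
  | mk m =>
    rcases m with e | v
    · rfl
    · refine Quot.sound ⟨⟨_, by simp, rfl⟩, ?_⟩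
      rw [tw, rot_mem_solid_iff]
      exact ⟨_, mem_closedBall_zero_iff.mp v.1.2, rfl⟩

lemma m1_mul_m1 : m1 * m1 = 1 := by
  rw [m1, ← Circle.exp_add, ← two_mul, Circle.exp_two_pi]

lemma gmap_eq_of_mem_skel (x : S3) (hx : x ∈ skel) : gmap x = data.tube.pinchSphere x := by
  rw [gmap_apply]
  by_cases h : x ∈ data.tube.solid
  · exact Quot.sound ⟨(rot_mem_solid_iff _ _).2 h, h⟩
  · have hs : x ∈ slit := hx.resolve_left h
    have h0 : csnd x ≠ 0 := by
      intro h0
      apply h
      rw [mem_solid_iff, h0, norm_zero]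
      exact norm_nonneg _
    rw [tw, unitOf_of_mem_slit hs h0, m1_mul_m1, rot_one]

theorem H₃_map_gmap :
    H₃.map (TopCat.ofHom gmap) = H₃.map (TopCat.ofHom data.tube.pinchSphere) :=
  H₃_map_eq_of_cell data.tube.pinchSphere gmap skel data.tube.solid
    (Quot.mk _ (data.tube.toFun (1, 0))) attach3 attach3_isWeak relVanish_skel
    (fun x hx => Quot.sound ⟨hx, ⟨(1, 0), by simp, rfl⟩⟩) gmap_eq_of_mem_skel htpy htpy_zero
    (fun x => by rw [gmap_apply, htpy_one]; rfl) htpy_mem_skel htpy_face

/-- **The homeomorphism `S³_∞(U) ≃ₜ S³_1(U)` preserves orientation.** -/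
theorem isOrientationPreserving_cosm : data.tube.IsOrientationPreserving cosm := by
  unfold Tube.IsOrientationPreserving
  have e1 : TopCat.ofHom ((data.tube.pinch 1 1 0 (-1)).comp (toContinuousMap cosm)) =
      TopCat.ofHom (toContinuousMap data.tube.fillingInfty) ≫ TopCat.ofHom gmap := by
    ext x
    simp [gmap]
  have e2 : TopCat.ofHom (data.tube.pinch 1 0 0 (-1)) =
      TopCat.ofHom (toContinuousMap data.tube.fillingInfty) ≫
        TopCat.ofHom data.tube.pinchSphere := by
    rw [← Tube.pinchSphere_comp_fillingInfty]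
    rfl
  rw [e1, e2, Functor.map_comp, Functor.map_comp, H₃_map_gmap]

end Cosmetic

end

end Claimed.Open.R306
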