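import Claimed.Open.R306.SanityFillingT2

/-!
# The exterior of a knot and its fillings are connected

* `Tube.connectedSpace_exterior`: the exterior `E_K` of every tube is connected (a locally constant function on `E_K` is constant on the
  peripheral torus, so it extends to the `∞`-filling, which is `S³`);
* `Tube.connectedSpace_filling`: every filling is connected.
-/

set_option autoImplicit false

open Set Metric Topology

namespace Claimed.Open.R306

noncomputable section

lemma preconnectedSpace_S3 : PreconnectedSpace S3 := by
  have hrank : 1 < Module.rank ℝ (EuclideanSpace ℝ (Fin 4)) := by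
    have h3 : Module.finrank ℝ (EuclideanSpace ℝ (Fin 4)) = 4 := by simp
    have := Module.lt_rank_of_lt_finrank (R := ℝ) (M := EuclideanSpace ℝ (Fin 4)) (n := 1)
      (by rw [h3]; norm_num)
    simpa using this
  exact Subtype.preconnectedSpace (isPreconnected_sphere hrank 0 1)

namespace Tube

variable {K : Set S3} (N : Tube K)

/-- **The exterior of a knot is connected.** -/
theorem connectedSpace_exterior : ConnectedSpace N.Exterior := by
  have : PreconnectedSpace S3 := preconnectedSpace_S3
  have hpre : PreconnectedSpace N.Exterior := by
    refine preconnectedSpace_of_forall_constant fun f hf e e' => ?_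
    have ht : ∀ t, f (N.torus t) = f (N.torus (1, 1)) := fun t =>
      PreconnectedSpace.constant inferInstance (hf.comp N.torus.continuous)
    let F : C(N.Filling 1 0 0 (-1), Bool) := N.fillingLift 1 0 0 (-1) ⟨f, hf⟩
      (ContinuousMap.const _ (f (N.torus (1, 1)))) (fun u z => (ht _).symm)
    have hc : Continuous fun x : S3 => F (N.fillingInfty.symm x) :=
      F.continuous.comp N.fillingInfty.symm.continuous
    have h1 := PreconnectedSpace.constant (x := N.fillingInfty (N.exteriorToFilling 1 0 0 (-1) e))
      (y := N.fillingInfty (N.exteriorToFilling 1 0 0 (-1) e')) inferInstance hc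
    simp only [Homeomorph.symm_apply_apply] at h1
    exact h1
  exact { toPreconnectedSpace := hpre, toNonempty := ⟨N.torus (1, 1)⟩ }

/-- **Every filling is connected.** -/
theorem connectedSpace_filling (p q a b : ℤ) : ConnectedSpace (N.Filling p q a b) := by
  have hE : ConnectedSpace N.Exterior := N.connectedSpace_exterior
  have hD : PreconnectedSpace (closedBall (0 : ℂ) 1) :=
    Subtype.preconnectedSpace (convex_closedBall (0 : ℂ) 1).isPreconnected
  have hpre : PreconnectedSpace (N.Filling p q a b) := by
    refine preconnectedSpace_of_forall_constant fun f hf => ?_
    have h1 : ∀ e, f (N.exteriorToFilling p q a b e) =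
        f (N.solidToFilling p q a b (rim 1, 1)) := fun e => by
      rw [solidToFilling_rim]
      exact PreconnectedSpace.constant inferInstance
        (hf.comp (N.exteriorToFilling p q a b).continuous)
    have h2 : ∀ v, f (N.solidToFilling p q a b v) = f (N.solidToFilling p q a b (rim 1, 1)) :=
      fun v => PreconnectedSpace.constant inferInstance
        (hf.comp (N.solidToFilling p q a b).continuous)
    have h3 : ∀ x, f x = f (N.solidToFilling p q a b (rim 1, 1)) := by
      intro x
      rcases N.exists_rep p q a b x with ⟨e, rfl⟩ | ⟨v, -, rfl⟩
      · exact h1 e
      · exact h2 v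
    intro x y
    rw [h3 x, h3 y]
  exact { toPreconnectedSpace := hpre, toNonempty := inferInstance }

end Tube

end

end Claimed.Open.R306
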