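import Claimed.Open.R306.SanityZeroInfty

/-!
# The fillings are compact Hausdorff spaces, glued from `E_K` and a solid torus along their boundary tori

For every tube `N` and all integers `p, q, a, b`:

* `Tube.exists_extension_real`: every continuous real function on the exterior extends to the filling (Tietze's theorem on `D² × S¹`);
* `Tube.instT2SpaceFilling`: the filling is a Hausdorff space (it is compact by `TubeOpen.lean`);
* `Tube.isClosedEmbedding_exteriorToFilling`: the exterior `E_K` is a closed subspace of the filling;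
* `Tube.isClosedEmbedding_solidToFilling`: so is the solid torus `D² × S¹`, if `q a - p b = 1`;
* `Tube.range_exteriorToFilling_union`, `Tube.range_exteriorToFilling_inter`: the two subspaces cover the filling, and (if `q a - p b = 1`) they meet
  exactly in the peripheral torus `∂E_K`.
-/

set_option autoImplicit false

open Set Metric Topology

namespace Claimed.Open.R306

noncomputable section

namespace Tube

variable {K : Set S3} (N : Tube K) (p q a b : ℤ)

/-- the inclusion of the solid torus into a filling -/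
def solidToFilling : C(SolidTorus, N.Filling p q a b) :=
  ⟨fun v => Quot.mk _ (Sum.inr v), continuous_quot_mk.comp continuous_inr⟩

lemma solidToFilling_rim (u z : Circle) :
    N.solidToFilling p q a b (rim u, z) =
      N.exteriorToFilling p q a b (N.torus (u ^ q * z ^ b, u ^ p * z ^ a)) :=
  Quot.sound ⟨u, z, rfl, rfl⟩

/-- A map on the exterior and a map on the solid torus which agree on the boundary tori define a map on the filling. -/
def fillingLift {Y : Type*} [TopologicalSpace Y] (f : C(N.Exterior, Y)) (g : C(SolidTorus, Y))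
    (h : ∀ u z, g (rim u, z) = f (N.torus (u ^ q * z ^ b, u ^ p * z ^ a))) :
    C(N.Filling p q a b, Y) :=
  ⟨Quot.lift (Sum.elim f g) (by rintro _ _ ⟨u, z, rfl, rfl⟩; exact h u z),
    continuous_quot_lift _ (f.continuous.sumElim g.continuous)⟩

/-- Every continuous real function on the exterior extends to the filling. -/
theorem exists_extension_real (f : C(N.Exterior, ℝ)) :
    ∃ F : C(N.Filling p q a b, ℝ), ∀ e, F (N.exteriorToFilling p q a b e) = f e := by
  let φ : C(Circle × Circle, ℝ) :=
    ⟨fun y => f (N.torus (y.1 ^ q * y.2 ^ b, y.1 ^ p * y.2 ^ a)), by fun_prop⟩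
  obtain ⟨Φ, hΦ⟩ := ContinuousMap.exists_extension ZeroInfty.isClosedEmbedding_rimMap φ
  exact ⟨N.fillingLift p q a b f Φ
    (fun u z => congrArg (fun k : C(Circle × Circle, ℝ) => k (u, z)) hΦ), fun _ => rfl⟩

/-- A function on the solid torus which vanishes on the boundary torus and at a given point and is `1` at a given interior point. -/
lemma exists_bump (v v' : SolidTorus) (hv : ‖(v.1 : ℂ)‖ < 1) (hne : v ≠ v') :
    ∃ g : C(SolidTorus, ℝ), g v = 1 ∧ g v' = 0 ∧ ∀ u z, g (rim u, z) = 0 := by
  have hs : IsClosed (range ZeroInfty.rimMap ∪ {v'}) :=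
    ZeroInfty.isClosedEmbedding_rimMap.isClosed_range.union isClosed_singleton
  have hd : Disjoint (range ZeroInfty.rimMap ∪ {v'}) {v} := by
    rw [disjoint_singleton_right]
    rintro (⟨y, rfl⟩ | h)
    · have h1 : ‖((ZeroInfty.rimMap y).1 : ℂ)‖ = 1 := Circle.norm_coe y.1
      exact absurd hv (by rw [h1]; exact lt_irrefl _)
    · exact hne h
  obtain ⟨g, h0, h1, -⟩ := exists_continuous_zero_one_of_isClosed hs isClosed_singleton hd
  exact ⟨g, h1 rfl, h0 (Or.inr rfl), fun u z => h0 (Or.inl ⟨(u, z), rfl⟩)⟩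

/-- A function on the filling which vanishes on the exterior and at a given point of the solid torus and is `1` at a given interior
point of the solid torus. -/
lemma exists_bump_filling (v v' : SolidTorus) (hv : ‖(v.1 : ℂ)‖ < 1) (hne : v ≠ v') :
    ∃ F : C(N.Filling p q a b, ℝ), F (N.solidToFilling p q a b v) = 1 ∧
      F (N.solidToFilling p q a b v') = 0 ∧ ∀ e, F (N.exteriorToFilling p q a b e) = 0 := by
  obtain ⟨g, g1, g0, gr⟩ := exists_bump v v' hv hne
  exact ⟨N.fillingLift p q a b (ContinuousMap.const _ 0) g gr, g1, g0, fun _ => rfl⟩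

/-- a point of the solid torus which is not an interior point lies on the boundary torus -/
lemma exists_rim_of_not_lt (v : SolidTorus) (hv : ¬ ‖(v.1 : ℂ)‖ < 1) :
    ∃ u z : Circle, v = (rim u, z) := by
  obtain ⟨w, z⟩ := v
  have hw : ‖(w : ℂ)‖ ≤ 1 := mem_closedBall_zero_iff.mp w.2
  have h1 : ‖(w : ℂ)‖ = 1 := le_antisymm hw (not_lt.mp hv)
  exact ⟨⟨(w : ℂ), mem_sphere_zero_iff_norm.mpr h1⟩, z, rfl⟩

/-- Every point of the filling comes from the exterior or from the interior of the solid torus. -/
lemma exists_rep (x : N.Filling p q a b) :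
    (∃ e, x = N.exteriorToFilling p q a b e) ∨
      ∃ v : SolidTorus, ‖(v.1 : ℂ)‖ < 1 ∧ x = N.solidToFilling p q a b v := by
  obtain ⟨y, rfl⟩ := Quot.exists_rep x
  rcases y with e | v
  · exact Or.inl ⟨e, rfl⟩
  · by_cases hv : ‖(v.1 : ℂ)‖ < 1
    · exact Or.inr ⟨v, hv, rfl⟩
    · obtain ⟨u, z, rfl⟩ := exists_rim_of_not_lt v hv
      exact Or.inl ⟨_, N.solidToFilling_rim p q a b u z⟩

/-- a boundary point of the solid torus, to be used as a dummy -/
lemma exists_ne_of_lt (v : SolidTorus) (hv : ‖(v.1 : ℂ)‖ < 1) : v ≠ (rim 1, 1) := by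
  rintro rfl
  have h1 : ‖((rim 1 : closedBall (0 : ℂ) 1) : ℂ)‖ = 1 := Circle.norm_coe 1
  exact absurd hv (by rw [h1]; exact lt_irrefl _)

/-- Two points of the exterior are separated by a function on the filling. -/
lemma exists_separating_exterior {e e' : N.Exterior} (hne : e ≠ e') :
    ∃ F : C(N.Filling p q a b, ℝ),
      F (N.exteriorToFilling p q a b e) = 0 ∧ F (N.exteriorToFilling p q a b e') = 1 := by
  obtain ⟨f, h0, h1, -⟩ := exists_continuous_zero_one_of_isClosed (isClosed_singleton (x := e))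
    (isClosed_singleton (x := e')) (by simpa using hne)
  obtain ⟨F, hF⟩ := N.exists_extension_real p q a b f
  exact ⟨F, by rw [hF]; exact h0 rfl, by rw [hF]; exact h1 rfl⟩

/-- **Every filling is a Hausdorff space.** -/
instance instT2SpaceFilling : T2Space (N.Filling p q a b) := by
  refine ⟨fun x y hxy => ?_⟩
  suffices h : ∃ F : C(N.Filling p q a b, ℝ), F x ≠ F y by
    obtain ⟨F, hF⟩ := h
    exact separated_by_continuous F.continuous hF
  rcases N.exists_rep p q a b x with ⟨e, rfl⟩ | ⟨v, hv, rfl⟩ <;>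
    rcases N.exists_rep p q a b y with ⟨e', rfl⟩ | ⟨v', hv', rfl⟩
  · obtain ⟨F, h0, h1⟩ := N.exists_separating_exterior p q a b (e := e) (e' := e')
      (fun h => hxy (by rw [h]))
    exact ⟨F, by rw [h0, h1]; exact zero_ne_one⟩
  · obtain ⟨F, h1, -, h0⟩ := N.exists_bump_filling p q a b v' _ hv' (exists_ne_of_lt v' hv')
    exact ⟨F, by rw [h0, h1]; exact zero_ne_one⟩
  · obtain ⟨F, h1, -, h0⟩ := N.exists_bump_filling p q a b v _ hv (exists_ne_of_lt v hv)
    exact ⟨F, by rw [h0, h1]; exact one_ne_zero⟩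
  · obtain ⟨F, h1, h0, -⟩ := N.exists_bump_filling p q a b v v' hv (fun h => hxy (by rw [h]))
    exact ⟨F, by rw [h0, h1]; exact one_ne_zero⟩

theorem exteriorToFilling_injective : Function.Injective (N.exteriorToFilling p q a b) := by
  intro e e' h
  by_contra hne
  obtain ⟨F, h0, h1⟩ := N.exists_separating_exterior p q a b hne
  rw [h, h1] at h0
  exact one_ne_zero h0

/-- **The exterior is a closed subspace of every filling.** -/
theorem isClosedEmbedding_exteriorToFilling : IsClosedEmbedding (N.exteriorToFilling p q a b) :=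
  (N.exteriorToFilling p q a b).continuous.isClosedEmbedding (N.exteriorToFilling_injective p q a b)

lemma torus_injective : Function.Injective N.torus := by
  rintro ⟨x, y⟩ ⟨x', y'⟩ h
  have h1 : ((x, (y : ℂ)) : Circle × ℂ) = (x', (y' : ℂ)) := N.injective (congrArg Subtype.val h)
  have h2 : x = x' := congrArg Prod.fst h1
  have h3 : (y : ℂ) = y' := congrArg Prod.snd h1
  exact Prod.ext h2 (Subtype.ext h3)

variable {p q a b}

/-- the inverse of the gluing matrix, first coordinate -/
lemma glue_inv_fst (h : q * a - p * b = 1) (u z : Circle) :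
    (u ^ q * z ^ b) ^ a * ((u ^ p * z ^ a) ^ b)⁻¹ = u := by
  have h1 : (u ^ q * z ^ b) ^ a * ((u ^ p * z ^ a) ^ b)⁻¹ =
      u ^ (q * a - p * b) * z ^ (b * a - a * b) := by
    rw [zpow_sub, zpow_sub, zpow_mul, zpow_mul, zpow_mul, zpow_mul, mul_zpow, mul_zpow, mul_inv]
    exact mul_mul_mul_comm _ _ _ _
  rw [h1, h, mul_comm b a, sub_self, zpow_one, zpow_zero, mul_one]

/-- the inverse of the gluing matrix, second coordinate -/
lemma glue_inv_snd (h : q * a - p * b = 1) (u z : Circle) :
    ((u ^ q * z ^ b) ^ p)⁻¹ * (u ^ p * z ^ a) ^ q = z := by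
  have h1 : ((u ^ q * z ^ b) ^ p)⁻¹ * (u ^ p * z ^ a) ^ q =
      u ^ (p * q - q * p) * z ^ (a * q - b * p) := by
    rw [zpow_sub, zpow_sub, zpow_mul, zpow_mul, zpow_mul, zpow_mul, mul_zpow, mul_zpow, mul_inv,
      mul_comm ((u ^ p) ^ q) ((u ^ q) ^ p)⁻¹, mul_comm ((z ^ a) ^ q) ((z ^ b) ^ p)⁻¹]
    exact mul_mul_mul_comm _ _ _ _
  rw [h1, mul_comm p q, sub_self, mul_comm a q, mul_comm b p, h, zpow_one, zpow_zero, one_mul]

theorem solidToFilling_injective (h : q * a - p * b = 1) :
    Function.Injective (N.solidToFilling p q a b) := by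
  intro v v' hvv
  by_contra hne
  by_cases hv : ‖(v.1 : ℂ)‖ < 1
  · obtain ⟨F, h1, h0, -⟩ := N.exists_bump_filling p q a b v v' hv hne
    rw [hvv, h0] at h1
    exact zero_ne_one h1
  by_cases hv' : ‖(v'.1 : ℂ)‖ < 1
  · obtain ⟨F, h1, h0, -⟩ := N.exists_bump_filling p q a b v' v hv' (Ne.symm hne)
    rw [← hvv, h0] at h1
    exact zero_ne_one h1
  obtain ⟨u, z, rfl⟩ := exists_rim_of_not_lt v hv
  obtain ⟨u', z', rfl⟩ := exists_rim_of_not_lt v' hv'
  rw [solidToFilling_rim, solidToFilling_rim] at hvv
  have h2 := N.torus_injective (N.exteriorToFilling_injective p q a b hvv)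
  have hX : u ^ q * z ^ b = u' ^ q * z' ^ b := congrArg Prod.fst h2
  have hY : u ^ p * z ^ a = u' ^ p * z' ^ a := congrArg Prod.snd h2
  have hu : u = u' := by rw [← glue_inv_fst h u z, hX, hY, glue_inv_fst h]
  have hz : z = z' := by rw [← glue_inv_snd h u z, hX, hY, glue_inv_snd h]
  exact hne (by rw [hu, hz])

/-- **The solid torus is a closed subspace of the filling**, if the gluing matrix has determinant one. -/
theorem isClosedEmbedding_solidToFilling (h : q * a - p * b = 1) :
    IsClosedEmbedding (N.solidToFilling p q a b) :=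
  (N.solidToFilling p q a b).continuous.isClosedEmbedding (N.solidToFilling_injective h)

variable (p q a b) in
/-- The exterior and the solid torus cover the filling. -/
theorem range_exteriorToFilling_union :
    range (N.exteriorToFilling p q a b) ∪ range (N.solidToFilling p q a b) = univ := by
  refine eq_univ_of_forall fun x => ?_
  rcases N.exists_rep p q a b x with ⟨e, rfl⟩ | ⟨v, -, rfl⟩
  · exact Or.inl ⟨e, rfl⟩
  · exact Or.inr ⟨v, rfl⟩

/-- The exterior and the solid torus meet exactly in the peripheral torus, if the gluing matrix has determinant one. -/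
theorem range_exteriorToFilling_inter (h : q * a - p * b = 1) :
    range (N.exteriorToFilling p q a b) ∩ range (N.solidToFilling p q a b) =
      range ((N.exteriorToFilling p q a b).comp N.torus) := by
  ext x
  constructor
  · rintro ⟨⟨e, rfl⟩, v, hv⟩
    by_cases hlt : ‖(v.1 : ℂ)‖ < 1
    · obtain ⟨F, h1, -, h0⟩ := N.exists_bump_filling p q a b v _ hlt (exists_ne_of_lt v hlt)
      rw [hv, h0] at h1
      exact absurd h1 zero_ne_one
    · obtain ⟨u, z, rfl⟩ := exists_rim_of_not_lt v hlt
      rw [solidToFilling_rim] at hv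
      exact ⟨_, hv⟩
  · rintro ⟨⟨X, Y⟩, rfl⟩
    refine ⟨⟨_, rfl⟩, (rim (X ^ a * Y ^ (-b)), X ^ (-p) * Y ^ q), ?_⟩
    have e1 : (X ^ a * Y ^ (-b)) ^ q * (X ^ (-p) * Y ^ q) ^ b = X := by
      have := glue_inv_fst (p := -p) (q := a) (a := q) (b := -b) (by rw [← h]; ring) X Y
      rwa [zpow_neg (X ^ (-p) * Y ^ q) b, inv_inv] at this
    have e2 : (X ^ a * Y ^ (-b)) ^ p * (X ^ (-p) * Y ^ q) ^ a = Y := by
      have := glue_inv_snd (p := -p) (q := a) (a := q) (b := -b) (by rw [← h]; ring) X Y
      rwa [zpow_neg (X ^ a * Y ^ (-b)) p, inv_inv] at this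
    rw [solidToFilling_rim, e1, e2]
    rfl

end Tube

end

end Claimed.Open.R306
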