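import Claimed.Open.R306.SanitySlopeZero

/-!
# For every knot: `[E_K, S¹]` is generated by any map of degree one on the meridian, and the preferred framing is unique

On top of `SanitySlopeZero.lean` (a map `E_K → S¹` which lifts to the real line on the meridian lifts to the real line):

* `Tube.existsUnique_degree`: if `θ : E_K → S¹` has degree one on the meridian, every map `g : E_K → S¹` is `θ ^ d · exp (i φ)` with a continuous real
  function `φ`, for exactly one integer `d` (the existence of such a `θ` is not proved for a general knot; it is part of `Tube.IsPreferred`);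
* `Tube.eq_zero_of_isPreferred_twist`: if the tube `N'` is the tube `N` with `k` full twists, `N' (z, w) = N (z, z ^ k w)`, and both satisfy
  `Tube.IsPreferred`, then `k = 0`.
-/

set_option autoImplicit false

open Set Metric Topology

namespace Claimed.Open.R306

noncomputable section

namespace Tube

open ZeroInfty

variable {K : Set S3} (N : Tube K)

/-- **`[E_K, S¹] = ℤ θ` for any map `θ` of degree one on the meridian** (if there is one: its existence is a hypothesis here). -/
theorem existsUnique_degree (θ : C(N.Exterior, Circle))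
    (hμ : (θ.comp N.meridian).Homotopic (ContinuousMap.id Circle)) (g : C(N.Exterior, Circle)) :
    ∃! d : ℤ, ∃ φ : C(N.Exterior, ℝ), ∀ e, g e = θ e ^ d * Circle.exp (φ e) := by
  obtain ⟨k', hk'⟩ := exists_lift_of_homotopic hμ
  replace hk' : ∀ z, θ (N.meridian z) = z * Circle.exp (k' z) := hk'
  obtain ⟨d, k, hk⟩ := exists_degree (g.comp N.meridian)
  refine ⟨d, N.exists_lift_of_degree g θ d k k' hk hk', ?_⟩
  rintro d' ⟨φ', hφ'⟩
  have h1 : (zpowMap (d' - d)).Nullhomotopic := by
    refine nullhomotopic_of_lift (⟨fun z => k z - (d' * k' z + φ' (N.meridian z)), by fun_prop⟩ :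
      C(Circle, ℝ)) (fun z => ?_)
    change Circle.exp (k z - (d' * k' z + φ' (N.meridian z))) = z ^ (d' - d)
    have e1 : z ^ d * Circle.exp (k z) =
        (z * Circle.exp (k' z)) ^ d' * Circle.exp (φ' (N.meridian z)) := by
      rw [← hk', ← hφ']
      exact (hk z).symm
    have e2 : Circle.exp (k z) = (z ^ d)⁻¹ *
        ((z * Circle.exp (k' z)) ^ d' * Circle.exp (φ' (N.meridian z))) := by
      rw [← e1, inv_mul_cancel_left]
    rw [Circle.exp_sub, e2, Circle.exp_add, exp_int_mul, mul_zpow, mul_assoc, ← mul_assoc,
      mul_div_cancel_right, mul_comm, sub_eq_add_neg, zpow_add, zpow_neg]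
  have := eq_zero_of_nullhomotopic_zpowMap h1
  omega

variable {N}

/-- **The preferred framing is unique, for every knot**: if two tubes differ by `k` full twists and both have the preferred longitude,
then `k = 0`. -/
theorem eq_zero_of_isPreferred_twist {K' : Set S3} {N' : Tube K'} {k : ℤ}
    (hN : ∀ (z : Circle) (w : ℂ), N'.toFun (z, w) = N.toFun (z, ((z ^ k : Circle) : ℂ) * w))
    (h : N.IsPreferred) (h' : N'.IsPreferred) : k = 0 := by
  have hin : N.inner = N'.inner := by
    ext x
    constructor
    · rintro ⟨⟨z, w⟩, hw, rfl⟩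
      refine ⟨(z, ((z ^ (-k) : Circle) : ℂ) * w), ?_, ?_⟩
      · simpa [Circle.norm_coe] using hw
      · rw [hN, ← mul_assoc, ← Circle.coe_mul, ← zpow_add]
        simp
    · rintro ⟨⟨z, w⟩, hw, rfl⟩
      exact ⟨(z, ((z ^ k : Circle) : ℂ) * w), by simpa [Circle.norm_coe] using hw, (hN z w).symm⟩
  have hmem : ∀ e : N.Exterior, e.1 ∈ (N'.inner)ᶜ := fun e => by
    rw [← hin]
    exact e.2
  let j : C(N.Exterior, N'.Exterior) :=
    ⟨fun e => ⟨e.1, hmem e⟩, Continuous.subtype_mk continuous_subtype_val hmem⟩
  have hj : ∀ z w : Circle, j (N.torus (z, z ^ k * w)) = N'.torus (z, w) := fun z w =>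
    Subtype.ext (by
      change N.toFun (z, ((z ^ k * w : Circle) : ℂ)) = N'.toFun (z, (w : ℂ))
      rw [hN, Circle.coe_mul])
  obtain ⟨θ', hμ', hl'⟩ := h'
  have e1 : (θ'.comp j).comp N.meridian = θ'.comp N'.meridian := by
    ext w
    have := hj 1 w
    rw [one_zpow, one_mul] at this
    exact congrArg (fun e => ((θ' e : Circle) : ℂ)) this
  have e2 : (θ'.comp j).comp (N.torus.comp ⟨fun z : Circle => (z, z ^ k), by fun_prop⟩) =
      θ'.comp N'.longitude := by
    ext z
    have := hj z 1
    rw [mul_one] at this
    exact congrArg (fun e => ((θ' e : Circle) : ℂ)) this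
  refine (h.nullhomotopic_parallel_iff (θ'.comp j) (by rw [e1]; exact hμ') k).1 ?_
  rw [e2]
  exact hl'

end Tube

end

end Claimed.Open.R306
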