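import Mathlib

/-!
# Commuting loops and monodromy

Tools for showing that a knot is not trivial: in the complement of the unknot any two loops with
the same base point commute up to homotopy, and this is impossible in a space which carries a
covering with non-commuting monodromy.
-/

set_option autoImplicit false

open scoped unitInterval Topology
open Set

namespace Claimed.Open.R306

noncomputable section

/-- Any two loops with the same base point commute up to homotopy: all fundamental groups of `X` are
commutative. -/
def LoopsCommute (X : Type*) [TopologicalSpace X] : Prop :=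
  ∀ (x : X) (p q : Path x x), (p.trans q).Homotopic (q.trans p)

/-- The Eckmann-Hilton argument: loops based at a two-sided unit of a continuous multiplication
commute up to homotopy. -/
theorem loops_commute_of_unital {X : Type*} [TopologicalSpace X] (m : X × X → X)
    (hm : Continuous m) (x : X) (h1 : ∀ y, m (x, y) = y) (h2 : ∀ y, m (y, x) = y)
    (p q : Path x x) : (p.trans q).Homotopic (q.trans p) := by
  let F : Path.Homotopy (p.trans (Path.refl x)) ((Path.refl x).trans p) :=
    (Path.Homotopy.transRefl p).trans (Path.Homotopy.reflTrans p).symm
  let G : Path.Homotopy ((Path.refl x).trans q) (q.trans (Path.refl x)) :=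
    (Path.Homotopy.reflTrans q).trans (Path.Homotopy.transRefl q).symm
  refine ⟨{ toFun := fun st => m (F st, G st)
            continuous_toFun := by fun_prop
            map_zero_left := ?_
            map_one_left := ?_
            prop' := ?_ }⟩
  · intro t
    simp only [F.apply_zero, G.apply_zero, Path.coe_toContinuousMap, Path.trans_apply]
    split_ifs <;> simp [h1, h2]
  · intro t
    simp only [F.apply_one, G.apply_one, Path.coe_toContinuousMap, Path.trans_apply]
    split_ifs <;> simp [h1, h2]
  · intro t s hs
    rcases hs with rfl | hs
    · simp [F.source, G.source, h1]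
    · rw [mem_singleton_iff] at hs
      subst hs
      simp [F.target, G.target, h1]

/-- A retract of a space with commuting loops has commuting loops. -/
theorem LoopsCommute.of_retract {X Y : Type*} [TopologicalSpace X] [TopologicalSpace Y]
    (r : C(X, Y)) (s : C(Y, X)) (hsr : ∀ x, s (r x) = x) (h : LoopsCommute Y) :
    LoopsCommute X := by
  intro x p q
  have h1 := h (r x) (p.map r.continuous) (q.map r.continuous)
  rw [← Path.map_trans, ← Path.map_trans] at h1
  obtain ⟨H⟩ := h1.map s
  refine ⟨{ toFun := H
            continuous_toFun := H.continuous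
            map_zero_left := ?_
            map_one_left := ?_
            prop' := ?_ }⟩
  · intro t
    exact (H.apply_zero t).trans (hsr _)
  · intro t
    exact (H.apply_one t).trans (hsr _)
  · intro t u hu
    exact (H.prop' t u hu).trans (hsr _)

/-- Commuting loops is a topological property. -/
theorem LoopsCommute.of_homeomorph {X Y : Type*} [TopologicalSpace X] [TopologicalSpace Y]
    (φ : X ≃ₜ Y) (h : LoopsCommute Y) : LoopsCommute X :=
  h.of_retract (φ : C(X, Y)) (φ.symm : C(Y, X)) (fun x => φ.symm_apply_apply x)

section Monodromy

variable {Y E : Type*} [TopologicalSpace Y] [TopologicalSpace E] {p : E → Y}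

/-- The monodromy of a path, computed with an explicit lift. -/
theorem monodromy_mk_eq (cov : IsCoveringMap p) {x y : Y} (γ : Path x y) (e : p ⁻¹' {x})
    (Γ : C(I, E)) (h1 : ∀ t, p (Γ t) = γ t) (h0 : Γ 0 = e) :
    (cov.monodromy (Path.Homotopic.Quotient.mk γ) e : E) = Γ 1 := by
  have h : Γ = cov.liftPath γ e (γ.source.trans e.2.symm) :=
    (cov.eq_liftPath_iff' _).mpr ⟨funext h1, h0⟩
  rw [h]
  rfl

/-- If `X` maps to the base of a covering such that a loop `α` at `x₀` acts on the fibre without fixed
point, while a loop `β` at `x₁` has exactly one fixed point, and `x₀`, `x₁` are joined by a path,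
then not all loops of `X` commute. -/
theorem not_loopsCommute_of_monodromy {X : Type*} [TopologicalSpace X] (j : C(X, Y))
    (cov : IsCoveringMap p) {x₀ x₁ : X} (α : Path x₀ x₀) (δ : Path x₀ x₁) (β : Path x₁ x₁)
    (hα : ∀ e, cov.monodromy (Path.Homotopic.Quotient.mk (α.map j.continuous)) e ≠ e)
    (e₁ : p ⁻¹' {j x₁})
    (hβ₁ : cov.monodromy (Path.Homotopic.Quotient.mk (β.map j.continuous)) e₁ = e₁)
    (hβ : ∀ e, cov.monodromy (Path.Homotopic.Quotient.mk (β.map j.continuous)) e = e → e = e₁) :
    ¬ LoopsCommute X := by
  intro hX
  set a := Path.Homotopic.Quotient.mk (α.map j.continuous) with ha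
  set b := Path.Homotopic.Quotient.mk (β.map j.continuous) with hb
  set d := Path.Homotopic.Quotient.mk (δ.map j.continuous) with hd
  -- the commutation relation in the base of the covering
  have hcomm : a.trans (d.trans (b.trans d.symm)) = (d.trans (b.trans d.symm)).trans a := by
    have h := (hX x₀ α (δ.trans (β.trans δ.symm))).map j
    have h' := Path.Homotopic.Quotient.eq.mpr h
    simpa only [Path.map_trans, ← Path.map_symm, Path.Homotopic.Quotient.mk_trans,
      Path.Homotopic.Quotient.mk_symm] using h'
  have hds : ∀ e, cov.monodromy d.symm (cov.monodromy d e) = e := by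
    intro e
    rw [← cov.monodromy_trans_apply, Path.Homotopic.Quotient.trans_symm, cov.monodromy_refl]
    rfl
  have hsd : ∀ e, cov.monodromy d (cov.monodromy d.symm e) = e := by
    intro e
    rw [← cov.monodromy_trans_apply, Path.Homotopic.Quotient.symm_trans, cov.monodromy_refl]
    rfl
  set e₀ := cov.monodromy d.symm e₁ with he₀
  have h1 := congrArg (fun γ => cov.monodromy γ e₀) hcomm
  simp only [cov.monodromy_trans_apply] at h1
  rw [he₀, hsd, hβ₁, ← he₀] at h1
  -- `h1 : d⁻¹ (b (d (a e₀))) = a e₀`
  have h2 : cov.monodromy b (cov.monodromy d (cov.monodromy a e₀)) =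
      cov.monodromy d (cov.monodromy a e₀) := by
    conv_rhs => rw [← h1]
    rw [hsd]
  have h3 := hβ _ h2
  have h4 : cov.monodromy a e₀ = e₀ := by
    have h5 := hds (cov.monodromy a e₀)
    rw [h3] at h5
    exact h5.symm
  exact hα e₀ h4

end Monodromy

end

end Claimed.Open.R306
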