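import Claimed.Open.R306.SanityTrefoilDef
import Claimed.Open.R306.SanityLoops

/-!
# Loops in the complement of a trivial knot commute

The complement of the standard unknot is a retract of (in fact homeomorphic to) `S¹ × ℂ`, which is a
topological group; hence all its fundamental groups are commutative, and the same holds for the
complement of every trivial knot.
-/

set_option autoImplicit false

open scoped Manifold ContDiff
open Set Complex

namespace Claimed.Open.R306

noncomputable section

/-- Loops in `S¹ × ℂ` commute. -/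
theorem loopsCommute_circle_prod : LoopsCommute (Circle × ℂ) := by
  intro x p q
  refine loops_commute_of_unital
    (fun y : (Circle × ℂ) × (Circle × ℂ) => (y.1.1 * y.2.1 * x.1⁻¹, y.1.2 + y.2.2 - x.2))
    (by fun_prop) x (fun y => ?_) (fun y => ?_) p q
  · ext1
    · simp [mul_assoc]
    · simp
  · ext1
    · simp [mul_assoc]
    · simp

lemma continuous_zc : Continuous zc := by
  have : zc = fun p : R4 => ((p 0 : ℝ) : ℂ) + ((p 1 : ℝ) : ℂ) * I := by
    funext p
    apply Complex.ext <;> simp [zc]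
  rw [this]
  fun_prop

lemma continuous_wc : Continuous wc := by
  have : wc = fun p : R4 => ((p 2 : ℝ) : ℂ) + ((p 3 : ℝ) : ℂ) * I := by
    funext p
    apply Complex.ext <;> simp [wc]
  rw [this]
  fun_prop

lemma continuous_ofC : Continuous (fun q : ℂ × ℂ => ofC q.1 q.2) := by
  unfold ofC
  have h : Continuous (fun q : ℂ × ℂ => ![q.1.re, q.1.im, q.2.re, q.2.im]) := by
    refine continuous_pi fun i => ?_
    fin_cases i <;> simp <;> fun_prop
  exact (PiLp.continuous_toLp 2 _).comp h

/-- `c ↦ c / |c|` is continuous where `c ≠ 0`. -/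
lemma continuous_circ_comp {X : Type*} [TopologicalSpace X] {f : X → ℂ} (hf : Continuous f)
    (h0 : ∀ x, f x ≠ 0) : Continuous (fun x => circ (f x)) := by
  have h1 : Continuous (fun x => (circ (f x) : ℂ)) := by
    have : (fun x => (circ (f x) : ℂ)) = fun x => f x / ‖f x‖ := by
      funext x
      exact coe_circ (h0 x)
    rw [this]
    refine hf.div (Complex.continuous_ofReal.comp hf.norm) fun x => ?_
    exact_mod_cast norm_ne_zero_iff.mpr (h0 x)
  exact Continuous.subtype_mk h1 _

lemma mem_unknot_iff {p : S3} : p ∈ unknot ↔ wc p.1 = 0 := by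
  simp [unknot, wc, Complex.ext_iff]

/-- The retraction data: `(z, w) ↦ (w / |w|, z / |w|)`. -/
def unknotComplTo : C(↥(unknotᶜ : Set S3), Circle × ℂ) where
  toFun p := (circ (wc p.1.1), zc p.1.1 / ‖wc p.1.1‖)
  continuous_toFun := by
    have hw : Continuous (fun p : ↥(unknotᶜ : Set S3) => wc p.1.1) :=
      continuous_wc.comp (continuous_subtype_val.comp continuous_subtype_val)
    have hz : Continuous (fun p : ↥(unknotᶜ : Set S3) => zc p.1.1) :=
      continuous_zc.comp (continuous_subtype_val.comp continuous_subtype_val)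
    have h0 : ∀ p : ↥(unknotᶜ : Set S3), wc p.1.1 ≠ 0 := fun p h => p.2 (mem_unknot_iff.mpr h)
    refine (continuous_circ_comp hw h0).prodMk
      (hz.div (Complex.continuous_ofReal.comp hw.norm) fun p => ?_)
    exact_mod_cast norm_ne_zero_iff.mpr (h0 p)

lemma ofC_circle_ne_zero (v : ℂ) (t : Circle) : ofC v t ≠ 0 := by
  intro h
  have h1 : wc (ofC v t) = 0 := by rw [h]; apply Complex.ext <;> simp [wc]
  rw [wc_ofC] at h1
  exact Circle.coe_ne_zero t h1

/-- `(t, v) ↦ (v, t) / |(v, t)|`. -/
def unknotComplOf : C(Circle × ℂ, ↥(unknotᶜ : Set S3)) where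
  toFun x := ⟨⟨‖ofC x.2 x.1‖⁻¹ • ofC x.2 x.1,
      mem_sphere_zero_iff_norm.mpr (norm_smul_inv_norm (𝕜 := ℝ) (ofC_circle_ne_zero _ _))⟩, by
    intro h
    rw [mem_unknot_iff, wc_smul, wc_ofC] at h
    have h1 : ‖ofC x.2 x.1‖ ≠ 0 := norm_ne_zero_iff.mpr (ofC_circle_ne_zero _ _)
    rcases mul_eq_zero.mp h with h2 | h2
    · exact inv_ne_zero h1 (by exact_mod_cast h2)
    · exact Circle.coe_ne_zero _ h2⟩
  continuous_toFun := by
    have h1 : Continuous (fun x : Circle × ℂ => ofC x.2 x.1) :=
      continuous_ofC.comp (continuous_snd.prodMk (continuous_subtype_val.comp continuous_fst))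
    refine Continuous.subtype_mk (Continuous.subtype_mk ?_ _) _
    exact (h1.norm.inv₀ fun x => norm_ne_zero_iff.mpr (ofC_circle_ne_zero _ _)).smul h1

lemma unknotComplOf_To (p : ↥(unknotᶜ : Set S3)) : unknotComplOf (unknotComplTo p) = p := by
  have h0 : wc p.1.1 ≠ 0 := fun h => p.2 (mem_unknot_iff.mpr h)
  have hb : 0 < ‖wc p.1.1‖ := norm_pos_iff.mpr h0
  have hp : ‖p.1.1‖ = 1 := mem_sphere_zero_iff_norm.mp p.1.2
  apply Subtype.ext
  apply Subtype.ext
  have key : ofC (zc p.1.1 / ‖wc p.1.1‖) (circ (wc p.1.1)) = ‖wc p.1.1‖⁻¹ • p.1.1 := by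
    rw [coe_circ h0]
    apply R4_ext
    · rw [zc_ofC, zc_smul]
      push_cast
      field_simp
    · rw [wc_ofC, wc_smul]
      push_cast
      field_simp
  show ‖ofC (zc p.1.1 / ‖wc p.1.1‖) (circ (wc p.1.1))‖⁻¹ •
    ofC (zc p.1.1 / ‖wc p.1.1‖) (circ (wc p.1.1)) = p.1.1
  rw [key, norm_smul, hp, mul_one, norm_inv, norm_norm, inv_inv, smul_smul,
    mul_inv_cancel₀ hb.ne', one_smul]

/-- Loops in the complement of the standard unknot commute. -/
theorem loopsCommute_unknot_compl : LoopsCommute ↥(unknotᶜ : Set S3) :=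
  loopsCommute_circle_prod.of_retract unknotComplTo unknotComplOf unknotComplOf_To

/-- Loops in the complement of a trivial knot commute. -/
theorem IsTrivialKnot.loopsCommute_compl {K : Set S3} (hK : IsTrivialKnot K) :
    LoopsCommute ↥(Kᶜ : Set S3) := by
  obtain ⟨h, hh⟩ := hK
  refine loopsCommute_unknot_compl.of_homeomorph (h.toHomeomorph.sets ?_)
  rw [← hh]
  ext x
  simp

end

end Claimed.Open.R306
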