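import Claimed.Open.R306.SanityTrefoilZero
import Claimed.Open.R306.SanityUnknotCompl

/-!
# The longitude of `trefoilTube` is the preferred one

The map `θ = f / |f|`, `f (z, w) = (5 z / 3) ^ 3 - (5 w / 4) ^ 2` (the Milnor fibration of the trefoil), has
degree one on the meridian and degree zero on the longitude of `trefoilTube`.
-/

set_option autoImplicit false

open scoped ComplexConjugate
open Set Complex

namespace Claimed.Open.R306

noncomputable section

/-- The polynomial which vanishes on the trefoil. -/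
def milnor (p : R4) : ℂ := (5 / 3 * zc p) ^ 3 - (5 / 4 * wc p) ^ 2

lemma continuous_milnor : Continuous milnor := by
  unfold milnor
  exact ((continuous_const.mul continuous_zc).pow 3).sub ((continuous_const.mul continuous_wc).pow 2)

/-- A nowhere vanishing homotopy of complex functions gives a homotopy of maps to the circle. -/
lemma homotopic_of_circ {X : Type*} [TopologicalSpace X] (F : unitInterval × X → ℂ)
    (hF : Continuous F) (hF0 : ∀ y, F y ≠ 0) (f₀ f₁ : C(X, Circle))
    (e₀ : ∀ x, f₀ x = circ (F (0, x))) (e₁ : ∀ x, f₁ x = circ (F (1, x))) : f₀.Homotopic f₁ :=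
  ⟨{ toFun := fun y => circ (F y)
     continuous_toFun := continuous_circ_comp hF hF0
     map_zero_left := fun x => (e₀ x).symm
     map_one_left := fun x => (e₁ x).symm }⟩

/-! ### The polynomial on the tube -/

lemma norm_tq_sq (t : Circle) (v : ℂ) :
    ‖tq t v‖ ^ 2 = (1 + v.im ^ 2) * (1 + 9 / 16 * Real.exp v.re ^ 2) := by
  have h : ‖(1 : ℂ) + v.im * I‖ ^ 2 = 1 + v.im ^ 2 := by
    rw [← Complex.normSq_eq_norm_sq, Complex.normSq_apply]
    simp
    ring
  rw [norm_sq_eq_zc_wc, norm_zc_tq, norm_wc_tq, mul_pow, h]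
  ring

/-- `(5/4) / ‖tq t v‖`, which does not depend on `t`. -/
def mm (v : ℂ) : ℝ := 5 / 4 / Real.sqrt ((1 + v.im ^ 2) * (1 + 9 / 16 * Real.exp v.re ^ 2))

lemma mm_pos (v : ℂ) : 0 < mm v := by
  unfold mm
  positivity

lemma norm_tq_eq (t : Circle) (v : ℂ) :
    ‖tq t v‖ = Real.sqrt ((1 + v.im ^ 2) * (1 + 9 / 16 * Real.exp v.re ^ 2)) := by
  rw [← norm_tq_sq t v, Real.sqrt_sq (norm_nonneg _)]

lemma continuous_mm : Continuous mm := by
  unfold mm
  refine continuous_const.div (by fun_prop) fun v => ?_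
  positivity

/-- The factor of the polynomial which vanishes on the core of the tube. -/
def hh (v : ℂ) : ℂ := (mm v * Real.exp v.re ^ 3 : ℝ) * (1 + v.im * I) - 1

lemma continuous_hh : Continuous hh := by
  unfold hh
  have := continuous_mm
  fun_prop

lemma milnor_tn (t : Circle) (v : ℂ) :
    milnor (tn t v) = ((mm v ^ 2 : ℝ) : ℂ) * ((t : ℂ) ^ 6 * (1 + v.im * I) ^ 2 * hh v) := by
  have h1 : ‖tq t v‖⁻¹ = 4 / 5 * mm v := by
    rw [mm, norm_tq_eq]
    field_simp
  rw [milnor, tn, zc_smul, wc_smul, h1]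
  simp only [tq, zc_ofC, wc_ofC, hh]
  push_cast
  ring

lemma hh_re (v : ℂ) : (hh v).re = mm v * Real.exp v.re ^ 3 - 1 := by
  rw [hh, Complex.sub_re, Complex.re_ofReal_mul]
  simp

lemma hh_im (v : ℂ) : (hh v).im = mm v * Real.exp v.re ^ 3 * v.im := by
  rw [hh, Complex.sub_im, Complex.im_ofReal_mul]
  simp

/-- On the real axis, `hh` has the sign of its argument. -/
lemma hh_re_pos {v : ℂ} (hy : v.im = 0) (hx : 0 < v.re) : 0 < (hh v).re := by
  have hE : 1 < Real.exp v.re := Real.one_lt_exp_iff.mpr hx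
  set E := Real.exp v.re with hEdef
  have hS0 : 0 < (1 + v.im ^ 2) * (1 + 9 / 16 * E ^ 2) := by positivity
  have hS : Real.sqrt ((1 + v.im ^ 2) * (1 + 9 / 16 * E ^ 2)) < 5 / 4 * E ^ 3 := by
    rw [Real.sqrt_lt' (by positivity), hy]
    have h2 : 1 < E ^ 2 := by nlinarith
    have h4 : E ^ 2 < E ^ 6 := by nlinarith [mul_pos (by linarith : 0 < E ^ 2) (by nlinarith : 0 < E ^ 2 * E ^ 2 - 1)]
    nlinarith
  rw [hh_re, mm, ← hEdef, sub_pos, div_mul_eq_mul_div, lt_div_iff₀ (Real.sqrt_pos.mpr hS0)]
  linarith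

lemma hh_re_neg {v : ℂ} (hy : v.im = 0) (hx : v.re < 0) : (hh v).re < 0 := by
  have hE : Real.exp v.re < 1 := Real.exp_lt_one_iff.mpr hx
  have hE0 : 0 < Real.exp v.re := Real.exp_pos _
  set E := Real.exp v.re with hEdef
  have hS0 : 0 < (1 + v.im ^ 2) * (1 + 9 / 16 * E ^ 2) := by positivity
  have hS : 5 / 4 * E ^ 3 < Real.sqrt ((1 + v.im ^ 2) * (1 + 9 / 16 * E ^ 2)) := by
    rw [Real.lt_sqrt (by positivity), hy]
    have h2 : E ^ 2 < 1 := by nlinarith
    have h20 : 0 < E ^ 2 := by positivity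
    have h4 : E ^ 6 < E ^ 2 := by nlinarith [mul_pos h20 (by nlinarith : 0 < 1 - E ^ 2 * E ^ 2)]
    nlinarith
  rw [hh_re, mm, ← hEdef, sub_neg, div_mul_eq_mul_div, div_lt_iff₀ (Real.sqrt_pos.mpr hS0)]
  linarith

/-- The segment from `hh v` to `v` avoids the origin. -/
lemma seg_ne_zero {v : ℂ} (hv : v ≠ 0) {s : ℝ} (h0 : 0 ≤ s) (h1 : s ≤ 1) :
    ((1 - s : ℝ) : ℂ) * hh v + (s : ℂ) * v ≠ 0 := by
  intro h
  have hre : (1 - s) * (hh v).re + s * v.re = 0 := by
    have := congrArg Complex.re h
    simpa using this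
  have him : (1 - s) * (hh v).im + s * v.im = 0 := by
    have := congrArg Complex.im h
    simpa using this
  have hk : 0 < mm v * Real.exp v.re ^ 3 := by have := mm_pos v; positivity
  by_cases hy : v.im = 0
  · have hx : v.re ≠ 0 := fun hx => hv (Complex.ext hx hy)
    rcases lt_or_gt_of_ne hx with hx | hx
    · have := hh_re_neg hy hx
      rcases eq_or_lt_of_le h0 with hs | hs
      · subst hs; nlinarith
      · nlinarith [mul_nonneg (sub_nonneg.mpr h1) (neg_nonneg.mpr this.le), mul_pos hs (neg_pos.mpr hx)]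
    · have := hh_re_pos hy hx
      rcases eq_or_lt_of_le h0 with hs | hs
      · subst hs; nlinarith
      · nlinarith [mul_nonneg (sub_nonneg.mpr h1) this.le, mul_pos hs hx]
  · rw [hh_im] at him
    have hfac : ((1 - s) * (mm v * Real.exp v.re ^ 3) + s) * v.im = 0 := by linarith
    have hpos : 0 < (1 - s) * (mm v * Real.exp v.re ^ 3) + s := by
      rcases eq_or_lt_of_le h0 with hs | hs
      · subst hs; simpa using hk
      · have := mul_nonneg (sub_nonneg.mpr h1) hk.le
        linarith
    rcases mul_eq_zero.mp hfac with h2 | h2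
    · exact hpos.ne' h2
    · exact hy h2

/-! ### The map to the circle -/

lemma trefoil_subset_inner : trefoil ⊆ trefoilTube.inner := by
  rintro _ ⟨t, rfl⟩
  exact ⟨(t, 0), by simp, rfl⟩

lemma milnor_ne_zero (p : trefoilTube.Exterior) : milnor p.1.1 ≠ 0 := by
  intro h
  exact p.2 (trefoil_subset_inner (mem_trefoil_of_eq (sub_eq_zero.mp h)))

/-- The Milnor map `f / |f|` on the exterior of the trefoil. -/
def trefoilTheta : C(trefoilTube.Exterior, Circle) where
  toFun p := circ (milnor p.1.1)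
  continuous_toFun := continuous_circ_comp
    (continuous_milnor.comp (continuous_subtype_val.comp continuous_subtype_val)) milnor_ne_zero

lemma trefoilTheta_torus (t u : Circle) :
    trefoilTheta (trefoilTube.torus (t, u)) =
      circ ((t : ℂ) ^ 6 * (1 + (conj (t : ℂ) ^ 6 * u).im * I) ^ 2 * hh (conj (t : ℂ) ^ 6 * u)) := by
  show circ (milnor (tn t (conj (t : ℂ) ^ 6 * u))) = _
  have := mm_pos (conj (t : ℂ) ^ 6 * u)
  rw [milnor_tn, circ_pos_mul (by positivity)]

/-- The homotopy. -/
def thetaHtpy (s : unitInterval) (t : Circle) (v : ℂ) : ℂ :=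
  (t : ℂ) ^ 6 * (1 + (((1 - (s : ℝ)) * v.im : ℝ) : ℂ) * I) ^ 2 *
    (((1 - (s : ℝ) : ℝ) : ℂ) * hh v + ((s : ℝ) : ℂ) * v)

lemma thetaHtpy_ne_zero (s : unitInterval) (t : Circle) {v : ℂ} (hv : v ≠ 0) :
    thetaHtpy s t v ≠ 0 :=
  mul_ne_zero (mul_ne_zero (pow_ne_zero 6 (Circle.coe_ne_zero t))
    (pow_ne_zero 2 (one_add_mul_I_ne_zero _))) (seg_ne_zero hv s.2.1 s.2.2)

lemma trefoil_meridian_apply (u : Circle) :
    trefoilTube.meridian u = trefoilTube.torus (1, u) := rfl

lemma trefoil_longitude_apply (t : Circle) :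
    trefoilTube.longitude t = trefoilTube.torus (t, 1) := rfl

lemma circ_one : circ 1 = 1 := by
  have := circ_coe 1
  simpa using this

/-- The Milnor map has degree one on the meridian. -/
theorem trefoilTheta_meridian :
    (trefoilTheta.comp trefoilTube.meridian).Homotopic (ContinuousMap.id Circle) := by
  have hc : Continuous (fun y : unitInterval × Circle => thetaHtpy y.1 1 (y.2 : ℂ)) := by
    unfold thetaHtpy
    have h1 := continuous_hh
    have h2 : Continuous (fun t : Circle => (t : ℂ)) := continuous_subtype_val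
    fun_prop
  apply homotopic_of_circ (fun y : unitInterval × Circle => thetaHtpy y.1 1 (y.2 : ℂ)) hc
      (fun y => thetaHtpy_ne_zero _ _ (Circle.coe_ne_zero _))
  · intro u
    rw [ContinuousMap.comp_apply, trefoil_meridian_apply, trefoilTheta_torus]
    simp [thetaHtpy]
  · intro u
    simp [thetaHtpy]

/-- The Milnor map has degree zero on the longitude. -/
theorem trefoilTheta_longitude :
    (trefoilTheta.comp trefoilTube.longitude).Homotopic (ContinuousMap.const Circle 1) := by
  have hc : Continuous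
      (fun y : unitInterval × Circle => thetaHtpy y.1 y.2 (conj (y.2 : ℂ) ^ 6)) := by
    unfold thetaHtpy
    have h1 := continuous_hh
    have h2 : Continuous (fun t : Circle => (t : ℂ)) := continuous_subtype_val
    have h3 := Complex.continuous_conj
    fun_prop
  apply homotopic_of_circ
      (fun y : unitInterval × Circle => thetaHtpy y.1 y.2 (conj (y.2 : ℂ) ^ 6)) hc
      (fun y => thetaHtpy_ne_zero _ _
        (pow_ne_zero 6 ((map_ne_zero _).mpr (Circle.coe_ne_zero _))))
  · intro t
    rw [ContinuousMap.comp_apply, trefoil_longitude_apply, trefoilTheta_torus]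
    simp [thetaHtpy]
  · intro t
    simp [thetaHtpy, circle_pow_six, circ_one]

/-- **The longitude of `trefoilTube` is the preferred longitude.** -/
theorem isPreferred_trefoilTube : trefoilTube.IsPreferred :=
  ⟨trefoilTheta, trefoilTheta_meridian, 1, trefoilTheta_longitude⟩

end

end Claimed.Open.R306
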