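import Claimed.Open.R306.SanityTrivialKnots
import Claimed.Open.R306.SanityTrefoilPreferred

/-!
# Diffeomorphic images of smooth knots

Mathlib has no composition of immersions yet.  Here: a smooth embedding into `S³` followed by a diffeomorphism of `S³` is a smooth
embedding (`IsSmoothEmbedding.diffeo_comp`: the charts of the target are transported by the diffeomorphism).  Hence

* `IsSmoothKnot.image`, `isSmoothKnot_image_iff`: `g '' K` is a smooth knot if and only if `K` is, for every diffeomorphism `g` of `S³`;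
* `Tube.image`, `Tube.IsPreferred.image`: a tube of `K` is carried to a tube of `g '' K`, the preferred longitude to the preferred longitude;
* `isSmoothKnot_greatCircle`: the great circle `x₀ = x₁ = 0` is a smooth (trivial) knot;
* `mirror_trefoil_example`: the mirror image of the trefoil knot is a smooth knot which is not trivial (a second knot which meets the two
  hypotheses of `Statement` on the knot), and it has a tube with the preferred longitude.  (Positivity of a tube of the mirror image is not
  checked: the transported tube is negatively oriented; one would have to compose it with `w ↦ conj w`.)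
-/

set_option autoImplicit false

open scoped Manifold ContDiff
open Manifold Set

namespace Claimed.Open.R306

noncomputable section

attribute [local instance] finrank_E4_fact

section general

variable {E₁ : Type*} [NormedAddCommGroup E₁] [NormedSpace ℝ E₁] {H : Type*} [TopologicalSpace H]
  {I : ModelWithCorners ℝ E₁ H} {M : Type*} [TopologicalSpace M] [ChartedSpace H M]

/-- The chart `ψ ∘ g⁻¹` of `S³`, for a chart `ψ` of the maximal atlas and a diffeomorphism `g`. -/
lemma transport_mem_maximalAtlas (g : S3 ≃ₘ⟮𝓡 3, 𝓡 3⟯ S3)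
    {ψ : OpenPartialHomeomorph S3 (EuclideanSpace ℝ (Fin 3))}
    (hψ : ψ ∈ IsManifold.maximalAtlas (𝓡 3) ∞ S3) :
    g.symm.toHomeomorph.transOpenPartialHomeomorph ψ ∈ IsManifold.maximalAtlas (𝓡 3) ∞ S3 := by
  apply OpenPartialHomeomorph.mem_maximalAtlas_of_contMDiffOn
  · exact (contMDiffOn_of_mem_maximalAtlas hψ).comp g.symm.contMDiff.contMDiffOn (fun x hx => hx)
  · exact g.contMDiff.comp_contMDiffOn (contMDiffOn_symm_of_mem_maximalAtlas hψ)

/-- An immersion into `S³` followed by a diffeomorphism of `S³` is an immersion. -/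
theorem IsImmersion.diffeo_comp {f : M → S3} (hf : IsImmersion I (𝓡 3) ∞ f)
    (g : S3 ≃ₘ⟮𝓡 3, 𝓡 3⟯ S3) : IsImmersion I (𝓡 3) ∞ (g ∘ f) := by
  obtain ⟨F, i1, i2, hF⟩ := hf
  refine ⟨F, i1, i2, fun x => ?_⟩
  have h := hF x
  refine IsImmersionAtOfComplement.mk_of_charts h.equiv h.domChart
    (g.symm.toHomeomorph.transOpenPartialHomeomorph h.codChart) h.mem_domChart_source ?_
    h.domChart_mem_maximalAtlas (transport_mem_maximalAtlas g h.codChart_mem_maximalAtlas) ?_ ?_
  · simpa using h.mem_codChart_source
  · intro y hy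
    simpa using h.source_subset_preimage_source hy
  · intro y hy
    have := h.writtenInCharts hy
    simpa [Function.comp_def] using this

/-- **A smooth embedding into `S³` followed by a diffeomorphism of `S³` is a smooth embedding.** -/
theorem IsSmoothEmbedding.diffeo_comp {f : M → S3} (hf : IsSmoothEmbedding I (𝓡 3) ∞ f)
    (g : S3 ≃ₘ⟮𝓡 3, 𝓡 3⟯ S3) : IsSmoothEmbedding I (𝓡 3) ∞ (g ∘ f) :=
  ⟨IsImmersion.diffeo_comp hf.isImmersion g, g.toHomeomorph.isEmbedding.comp hf.isEmbedding⟩

end general

/-- A diffeomorphic image of a smooth knot is a smooth knot. -/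
theorem IsSmoothKnot.image {K : Set S3} (hK : IsSmoothKnot K) (g : S3 ≃ₘ⟮𝓡 3, 𝓡 3⟯ S3) :
    IsSmoothKnot (g '' K) := by
  obtain ⟨γ, hγ, rfl⟩ := hK
  exact ⟨g ∘ γ, IsSmoothEmbedding.diffeo_comp hγ g, Set.range_comp g γ⟩

/-- **Being a smooth knot is invariant under the diffeomorphisms of `S³`.** -/
theorem isSmoothKnot_image_iff {K : Set S3} (g : S3 ≃ₘ⟮𝓡 3, 𝓡 3⟯ S3) :
    IsSmoothKnot (g '' K) ↔ IsSmoothKnot K := by
  refine ⟨fun h => ?_, fun h => h.image g⟩
  have h2 := h.image g.symm
  rwa [Set.image_image, Set.image_congr' (g := id) (fun x => by simp), Set.image_id] at h2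

/-- A tube of `K` is carried to a tube of `g '' K`. -/
def Tube.image {K : Set S3} (N : Tube K) (g : S3 ≃ₘ⟮𝓡 3, 𝓡 3⟯ S3) : Tube (g '' K) where
  toFun := g ∘ N.toFun
  isSmoothEmbedding := IsSmoothEmbedding.diffeo_comp N.isSmoothEmbedding g
  range_core := by
    have h := Set.range_comp g (fun z : Circle => N.toFun (z, 0))
    rw [N.range_core] at h
    exact h

/-- The homeomorphism `g⁻¹` from the exterior of the transported tube to the exterior of the tube (as a map). -/
def Tube.imageExt {K : Set S3} (N : Tube K) (g : S3 ≃ₘ⟮𝓡 3, 𝓡 3⟯ S3) :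
    C((N.image g).Exterior, N.Exterior) where
  toFun y := ⟨g.symm y.1, fun ⟨x, hx, hxy⟩ => y.2 ⟨x, hx, by
    change g (N.toFun x) = y.1
    rw [hxy]; simp⟩⟩
  continuous_toFun :=
    (g.symm.continuous.comp continuous_subtype_val).subtype_mk _

lemma Tube.imageExt_torus {K : Set S3} (N : Tube K) (g : S3 ≃ₘ⟮𝓡 3, 𝓡 3⟯ S3) (x : Circle × Circle) :
    N.imageExt g ((N.image g).torus x) = N.torus x := by
  apply Subtype.ext
  change g.symm (g (N.toFun (x.1, (x.2 : ℂ)))) = N.toFun (x.1, (x.2 : ℂ))
  simp

/-- **The preferred longitude is carried to the preferred longitude.** -/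
theorem Tube.IsPreferred.image {K : Set S3} {N : Tube K} (h : N.IsPreferred)
    (g : S3 ≃ₘ⟮𝓡 3, 𝓡 3⟯ S3) : (N.image g).IsPreferred := by
  obtain ⟨θ, h1, h2⟩ := h
  refine ⟨θ.comp (N.imageExt g), ?_, ?_⟩
  · have : (θ.comp (N.imageExt g)).comp (N.image g).meridian = θ.comp N.meridian := by
      ext1 u
      exact congrArg θ (N.imageExt_torus g (1, u))
    rwa [this]
  · have : (θ.comp (N.imageExt g)).comp (N.image g).longitude = θ.comp N.longitude := by
      ext1 z
      exact congrArg θ (N.imageExt_torus g (z, 1))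
    rwa [this]

/-- A trivial knot is a smooth knot. -/
theorem IsTrivialKnot.isSmoothKnot {K : Set S3} (hK : IsTrivialKnot K) : IsSmoothKnot K := by
  obtain ⟨h, hh⟩ := hK
  exact (isSmoothKnot_image_iff h).mp (hh ▸ Unknot.isSmoothKnot_unknot)

/-- The great circle `x₀ = x₁ = 0` is a smooth knot. -/
theorem isSmoothKnot_greatCircle : IsSmoothKnot greatCircle :=
  isTrivialKnot_greatCircle.isSmoothKnot

/-- **The mirror image of the trefoil knot is a smooth knot which is not trivial, and it has a tube with the preferred longitude.** -/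
theorem mirror_trefoil_example :
    IsSmoothKnot (isoDiffeo mirrorIso '' trefoil) ∧ ¬ IsTrivialKnot (isoDiffeo mirrorIso '' trefoil) ∧
      ∃ N : Tube (isoDiffeo mirrorIso '' trefoil), N.IsPreferred :=
  ⟨isSmoothKnot_trefoil.image _, not_isTrivialKnot_mirror_trefoil,
    ⟨trefoilTube.image _, isPreferred_trefoilTube.image _⟩⟩

end

end Claimed.Open.R306
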