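import Claimed.Open.R306.SanityLensGroup

/-!
# For every knot: if `S³_{p/q}(K)` is homeomorphic to `S³`, then `p = ± 1`

Let `N` be a tube of an arbitrary knot `K` with the preferred longitude, and `p ≠ 0`.

* `exists_lift_S3_of_isCoveringMap`: every map from `S³` lifts through every surjective covering map (two stereographic charts, their overlap is
  connected);
* `Tube.exists_lensMap`: a map from the filling `N.Filling p q a b` to the lens space `S³ / μ_p`: on the exterior it is `e ↦ θ(e)^{1/p} μ_p`, with the map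
  `θ : E_K → S¹` of `Tube.IsPreferred`, and on the solid torus it is `(x, z) ↦ (x + √(1 - |x|²) j) t(x, z)^{1/p} μ_p`;
* `Tube.eq_one_or_neg_one_of_lift`: a lift of it to `S³` would be a `p`-th root of `θ` on the exterior, so that `p` would divide the degree
  `1` of `θ` on the meridian;
* `Tube.eq_one_or_neg_one_of_homeomorph`: hence `p = ± 1` if the filling is homeomorphic to `S³`.
-/

set_option autoImplicit false

open Set Metric Topology

namespace Claimed.Open.R306

noncomputable section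

/-! ### Maps from the three-sphere lift through covering maps -/

section Lift

variable {X Y : Type*} [TopologicalSpace X] [TopologicalSpace Y] {c : Y → X}

/-- Away from a point `w`, a map from `S³` lifts through a covering map, with a prescribed value at one point. -/
lemma exists_lift_compl_singleton_of_isCoveringMap (hc : IsCoveringMap c) (f : C(S3, X))
    (w w₀ : S3) (hw : w₀ ≠ w) (y₀ : Y) (hy : c y₀ = f w₀) :
    ∃ g : S3 → Y, ContinuousOn g {w}ᶜ ∧ (∀ x, x ≠ w → c (g x) = f x) ∧ g w₀ = y₀ := by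
  set e := stereographic (norm_eq_of_mem_sphere w) with he
  have hs : e.source = {w}ᶜ := stereographic_source _
  have ht : e.target = univ := stereographic_target _
  have hcont : Continuous e.symm := by
    rw [← continuousOn_univ, ← ht]
    exact e.continuousOn_symm
  let F : C(↥(ℝ ∙ (w : EuclideanSpace ℝ (Fin 4)))ᗮ, X) :=
    ⟨fun y => f (e.symm y), f.continuous.comp hcont⟩
  have hw0 : w₀ ∈ e.source := by rw [hs]; exact hw
  obtain ⟨G, ⟨hG0, hG⟩, -⟩ := hc.existsUnique_continuousMap_lifts F (e w₀) y₀ (by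
    change c y₀ = f (e.symm (e w₀))
    rw [e.left_inv hw0, hy])
  refine ⟨fun x => G (e x), ?_, fun x hx => ?_, hG0⟩
  · rw [← hs]
    exact G.continuous.comp_continuousOn e.continuousOn
  · have hx' : x ∈ e.source := by rw [hs]; exact hx
    have h1 := congrFun hG (e x)
    change c (G (e x)) = f (e.symm (e x)) at h1
    rw [h1, e.left_inv hx']

/-- **Every map from `S³` lifts through every surjective covering map.** -/
theorem exists_lift_S3_of_isCoveringMap (hc : IsCoveringMap c) (hsurj : Function.Surjective c)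
    (f : C(S3, X)) : ∃ g : C(S3, Y), ∀ x, c (g x) = f x := by
  let v : S3 := mkS3 1 0 (by simp)
  let w₀ : S3 := mkS3 0 1 (by simp)
  have hne : v ≠ -v := ne_neg_S3 v
  have hw1 : w₀ ≠ v := fun h => by
    have := congrArg cfst h
    simp [w₀, v] at this
  have hw2 : w₀ ≠ -v := fun h => by
    have h1 : (w₀ : EuclideanSpace ℝ (Fin 4)) = -(v : EuclideanSpace ℝ (Fin 4)) :=
      congrArg Subtype.val h
    have h2 : cfst w₀ = -cfst v := by
      simp only [cfst, h1, map_neg, Prod.fst_neg]
    simp [w₀, v] at h2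
  obtain ⟨y₀, hy₀⟩ := hsurj (f w₀)
  obtain ⟨g₁, c₁, e₁, b₁⟩ := exists_lift_compl_singleton_of_isCoveringMap hc f v w₀ hw1 y₀ hy₀
  obtain ⟨g₂, c₂, e₂, b₂⟩ := exists_lift_compl_singleton_of_isCoveringMap hc f (-v) w₀ hw2 y₀ hy₀
  have hm : EqOn g₁ g₂ {x : S3 | x ≠ v ∧ x ≠ -v} :=
    hc.eqOn_of_comp_eqOn (isPreconnected_compl_pair v) (c₁.mono fun x hx => hx.1)
      (c₂.mono fun x hx => hx.2) (fun x hx => by
        change c (g₁ x) = c (g₂ x)
        rw [e₁ x hx.1, e₂ x hx.2]) (a := w₀) ⟨hw1, hw2⟩ (by rw [b₁, b₂])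
  classical
  let g : S3 → Y := fun x => if x = v then g₂ x else g₁ x
  have hg2 : ∀ x, x ≠ -v → g x = g₂ x := by
    intro x hx
    by_cases h : x = v
    · simp [g, h]
    · simp only [g, h, if_false]
      exact hm ⟨h, hx⟩
  have hg1 : ∀ x, x ≠ v → g x = g₁ x := fun x hx => by simp [g, hx]
  have hcont : Continuous g := by
    rw [continuous_iff_continuousAt]
    intro x
    by_cases h : x = v
    · have ho : ({-v}ᶜ : Set S3) ∈ 𝓝 x := isOpen_compl_singleton.mem_nhds (by rw [h]; exact hne)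
      exact (c₂.continuousAt ho).congr (Filter.eventuallyEq_of_mem ho fun y hy => (hg2 y hy).symm)
    · have ho : ({v}ᶜ : Set S3) ∈ 𝓝 x := isOpen_compl_singleton.mem_nhds h
      exact (c₁.continuousAt ho).congr (Filter.eventuallyEq_of_mem ho fun y hy => (hg1 y hy).symm)
  refine ⟨⟨g, hcont⟩, fun x => ?_⟩
  change c (g x) = f x
  by_cases h : x = v
  · have hx : x ≠ -v := by rw [h]; exact hne
    rw [hg2 x hx, e₂ x hx]
  · rw [hg1 x h, e₁ x h]

end Lift

/-! ### The map from the filling to the lens space -/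

namespace Tube

open ZeroInfty Lens

variable {K : Set S3} (N : Tube K)

/-- The map `e ↦ θ(e)^{1/p} μ_p` from the exterior to the lens space `S³ / μ_p` extends to the filling along `p μ + q λ`. -/
theorem exists_lensMap (θ : C(N.Exterior, Circle))
    (hμ : (θ.comp N.meridian).Homotopic (ContinuousMap.id Circle))
    (hl : (θ.comp N.longitude).Nullhomotopic) {p : ℤ} (hp : p ≠ 0) (q a b : ℤ) :
    ∃ F : C(N.Filling p q a b, SU ⧸ rootSub p),
      ∀ e, F (N.exteriorToFilling p q a b e) = rootMap hp (1, θ e) := by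
  obtain ⟨k', hk'⟩ := exists_lift_of_homotopic hμ
  replace hk' : ∀ z, θ (N.meridian z) = z * Circle.exp (k' z) := hk'
  obtain ⟨φ, hφ⟩ := exists_lift_torus (θ.comp N.torus) hl
  replace hφ : ∀ X Y, θ (N.torus (X, Y)) = θ (N.meridian Y) * Circle.exp (φ (X, Y)) := hφ
  let Ψ : C(Circle × Circle, ℝ) :=
    ⟨fun y => k' (y.1 ^ p * y.2 ^ a) + φ (y.1 ^ q * y.2 ^ b, y.1 ^ p * y.2 ^ a), by fun_prop⟩
  obtain ⟨Ψh, hΨ⟩ := ContinuousMap.exists_extension isClosedEmbedding_rimMap Ψ
  have hΨ' : ∀ u z, Ψh (rim u, z) = Ψ (u, z) := fun u z =>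
    congrArg (fun f : C(Circle × Circle, ℝ) => f (u, z)) hΨ
  let FE : C(N.Exterior, SU ⧸ rootSub p) := (rootMap hp).comp ⟨fun e => (1, θ e), by fun_prop⟩
  let FV : C(SolidTorus, SU ⧸ rootSub p) :=
    (rootMap hp).comp ⟨fun v => (kappa v.1, v.2 ^ a * Circle.exp (Ψh v)), by fun_prop⟩
  refine ⟨N.fillingLift p q a b FE FV (fun u z => ?_), fun _ => rfl⟩
  change rootMap hp (kappa (rim u), z ^ a * Circle.exp (Ψh (rim u, z))) =
    rootMap hp (1, θ (N.torus (u ^ q * z ^ b, u ^ p * z ^ a)))
  rw [kappa_rim, rootMap_iota, hΨ', hφ, hk']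
  change rootMap hp (1, u ^ p * (z ^ a * Circle.exp (k' (u ^ p * z ^ a) +
    φ (u ^ q * z ^ b, u ^ p * z ^ a)))) = _
  rw [Circle.exp_add]
  simp only [mul_assoc]

/-- A map from the filling to the lens space `S³ / μ_p` which is `e ↦ θ(e)^{1/p} μ_p` on the exterior does not lift to `S³`, unless `p = ± 1`. -/
theorem eq_one_or_neg_one_of_lift (θ : C(N.Exterior, Circle))
    (hμ : (θ.comp N.meridian).Homotopic (ContinuousMap.id Circle)) {p : ℤ} (hp : p ≠ 0) (q a b : ℤ)
    (F : C(N.Filling p q a b, SU ⧸ rootSub p))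
    (hF : ∀ e, F (N.exteriorToFilling p q a b e) = rootMap hp (1, θ e))
    (G : C(N.Filling p q a b, SU)) (hG : ∀ x, (QuotientGroup.mk (G x) : SU ⧸ rootSub p) = F x) :
    p = 1 ∨ p = -1 := by
  have h1 : ∀ e, ∃ w : Circle, iota w = G (N.exteriorToFilling p q a b e) ∧ w ^ p = θ e := fun e =>
    exists_of_mk_eq_rootMap hp (by rw [hG, hF])
  choose f hf1 hf2 using h1
  have hfc : Continuous f := by
    rw [isEmbedding_iota.continuous_iff]
    have h2 : iota ∘ f = fun e => G (N.exteriorToFilling p q a b e) := funext hf1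
    rw [h2]
    exact G.continuous.comp (N.exteriorToFilling p q a b).continuous
  obtain ⟨d, k, hk⟩ := exists_degree ((⟨f, hfc⟩ : C(N.Exterior, Circle)).comp N.meridian)
  replace hk : ∀ z, f (N.meridian z) = z ^ d * Circle.exp (k z) := hk
  obtain ⟨k', hk'⟩ := exists_lift_of_homotopic hμ
  replace hk' : ∀ z, θ (N.meridian z) = z * Circle.exp (k' z) := hk'
  have h2 : (zpowMap (d * p - 1)).Nullhomotopic := by
    refine nullhomotopic_of_lift (⟨fun z => k' z - p * k z, by fun_prop⟩ : C(Circle, ℝ))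
      (fun z => ?_)
    change Circle.exp (k' z - p * k z) = z ^ (d * p - 1)
    have h3 : (z ^ d * Circle.exp (k z)) ^ p = z * Circle.exp (k' z) := by
      rw [← hk, hf2, hk']
    rw [mul_zpow, ← zpow_mul, ← exp_int_mul] at h3
    rw [Circle.exp_sub, zpow_sub, zpow_one, ← div_eq_mul_inv, div_eq_div_iff_mul_eq_mul, h3, mul_comm]
  have h4 := eq_zero_of_nullhomotopic_zpowMap h2
  have h5 : p * d = 1 := by
    rw [mul_comm]
    omega
  exact Int.eq_one_or_neg_one_of_mul_eq_one h5

/-- **For every knot and every tube with the preferred longitude: if the filling along `p μ + q λ`, `p ≠ 0`, is homeomorphic to `S³`, then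
`p = ± 1`.** -/
theorem eq_one_or_neg_one_of_homeomorph (h : N.IsPreferred) {p q a b : ℤ} (hp : p ≠ 0)
    (f : N.Filling p q a b ≃ₜ S3) : p = 1 ∨ p = -1 := by
  obtain ⟨θ, hμ, hl⟩ := h
  obtain ⟨F, hF⟩ := N.exists_lensMap θ hμ hl hp q a b
  obtain ⟨g, hg⟩ := exists_lift_S3_of_isCoveringMap (isCoveringMap_mk hp)
    QuotientGroup.mk_surjective (F.comp (toContinuousMap f.symm))
  refine N.eq_one_or_neg_one_of_lift θ hμ hp q a b F hF (g.comp (toContinuousMap f)) (fun x => ?_)
  change (QuotientGroup.mk (g (f x)) : SU ⧸ rootSub p) = F x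
  rw [hg]
  change F (f.symm (f x)) = F x
  rw [Homeomorph.symm_apply_apply]

end Tube

end

end Claimed.Open.R306
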