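import Claimed.Open.R306.Statement

/-!
# `IsSmoothKnot`: necessary conditions and non-examples

`Sanity.lean` has two examples of `IsSmoothKnot` (the unknot and the trefoil knot) and no non-example.  Here:

* `IsSmoothKnot.nonempty_homeomorph`, `IsSmoothKnot.isCompact`, `IsSmoothKnot.isConnected`, `IsSmoothKnot.infinite`: a smooth knot is homeomorphic to
  the circle; it is compact, connected and infinite;
* `not_isSmoothKnot_hopfLink`: **a link of two components is not a knot**: the Hopf link, the union of the great circles `x₂ = x₃ = 0` (the standard unknot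
  of `Statement.lean`) and `x₀ = x₁ = 0`, is not a smooth knot (it is not connected: `x₀² + x₁²` takes exactly the values `1` and `0` on it);
* `not_isSmoothKnot_empty`, `not_isSmoothKnot_singleton`, `not_isSmoothKnot_of_finite`: neither is the empty set, a point or any finite set.
-/

set_option autoImplicit false

open scoped Manifold ContDiff
open Manifold Set

namespace Claimed.Open.R306

noncomputable section

/-- a smooth knot is homeomorphic to the circle -/
theorem IsSmoothKnot.nonempty_homeomorph {K : Set S3} (h : IsSmoothKnot K) : Nonempty (Circle ≃ₜ K) := by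
  obtain ⟨γ, hγ, rfl⟩ := h
  exact ⟨hγ.isEmbedding.toHomeomorph⟩

theorem IsSmoothKnot.isCompact {K : Set S3} (h : IsSmoothKnot K) : IsCompact K := by
  obtain ⟨γ, hγ, rfl⟩ := h
  exact isCompact_range hγ.isEmbedding.continuous

theorem IsSmoothKnot.isConnected {K : Set S3} (h : IsSmoothKnot K) : IsConnected K := by
  obtain ⟨γ, hγ, rfl⟩ := h
  exact isConnected_range hγ.isEmbedding.continuous

theorem IsSmoothKnot.nontrivial {K : Set S3} (h : IsSmoothKnot K) : K.Nontrivial := by
  obtain ⟨γ, hγ, rfl⟩ := h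
  refine ⟨γ 1, ⟨1, rfl⟩, γ (-1), ⟨-1, rfl⟩, fun he => ?_⟩
  have h1 : (1 : Circle) = -1 := hγ.isEmbedding.injective he
  have h2 : ((1 : Circle) : ℂ) = ((-1 : Circle) : ℂ) := congrArg _ h1
  simp only [Circle.coe_one, Circle.coe_neg] at h2
  norm_num at h2

theorem IsSmoothKnot.infinite {K : Set S3} (h : IsSmoothKnot K) : K.Infinite :=
  h.isConnected.isPreconnected.infinite_of_nontrivial h.nontrivial

theorem not_isSmoothKnot_of_finite {K : Set S3} (hK : K.Finite) : ¬ IsSmoothKnot K := fun h => h.infinite hK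

theorem not_isSmoothKnot_empty : ¬ IsSmoothKnot (∅ : Set S3) := not_isSmoothKnot_of_finite Set.finite_empty

theorem not_isSmoothKnot_singleton (x : S3) : ¬ IsSmoothKnot ({x} : Set S3) := not_isSmoothKnot_of_finite (Set.finite_singleton x)

/-- the Hopf link: the standard unknot `x₂ = x₃ = 0` and the great circle `x₀ = x₁ = 0` -/
def hopfLink : Set S3 := unknot ∪ {x | x.1 0 = 0 ∧ x.1 1 = 0}

/-- the sum of the squares of the coordinates of a point of `S³` -/
theorem notKnot_sum_sq (x : S3) : x.1 0 ^ 2 + x.1 1 ^ 2 + x.1 2 ^ 2 + x.1 3 ^ 2 = 1 := by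
  have h1 : ‖x.1‖ = 1 := mem_sphere_zero_iff_norm.mp x.2
  have h2 := EuclideanSpace.real_norm_sq_eq x.1
  rw [h1, Fin.sum_univ_four] at h2
  linarith

/-- the function `x₀² + x₁²` -/
def notKnotF (x : S3) : ℝ := x.1 0 ^ 2 + x.1 1 ^ 2

theorem continuous_notKnotF : Continuous notKnotF := by
  unfold notKnotF
  have h : ∀ i : Fin 4, Continuous fun x : S3 => x.1 i := fun i =>
    (EuclideanSpace.proj i : EuclideanSpace ℝ (Fin 4) →L[ℝ] ℝ).continuous.comp continuous_subtype_val
  exact ((h 0).pow 2).add ((h 1).pow 2)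

theorem notKnotF_hopfLink {x : S3} (hx : x ∈ hopfLink) : notKnotF x = 1 ∨ notKnotF x = 0 := by
  have hs := notKnot_sum_sq x
  rcases hx with h | h
  · left
    unfold notKnotF
    rw [h.1, h.2] at hs
    linarith
  · right
    unfold notKnotF
    rw [h.1, h.2]
    norm_num

/-- the point `(1, 0, 0, 0)` -/
def notKnotA : S3 := ⟨EuclideanSpace.single 0 1, by simp⟩

/-- the point `(0, 0, 1, 0)` -/
def notKnotB : S3 := ⟨EuclideanSpace.single 2 1, by simp⟩

theorem notKnotA_mem : notKnotA ∈ hopfLink := Or.inl ⟨by simp [notKnotA], by simp [notKnotA]⟩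

theorem notKnotB_mem : notKnotB ∈ hopfLink := Or.inr ⟨by simp [notKnotB], by simp [notKnotB]⟩

/-- the Hopf link is not connected -/
theorem not_isPreconnected_hopfLink : ¬ IsPreconnected hopfLink := by
  intro h
  have h1 : IsPreconnected (notKnotF '' hopfLink) := h.image _ continuous_notKnotF.continuousOn
  have hA : (1 : ℝ) ∈ notKnotF '' hopfLink := ⟨notKnotA, notKnotA_mem, by simp [notKnotF, notKnotA]⟩
  have hB : (0 : ℝ) ∈ notKnotF '' hopfLink := ⟨notKnotB, notKnotB_mem, by simp [notKnotF, notKnotB]⟩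
  have h2 : (1 / 2 : ℝ) ∈ notKnotF '' hopfLink := h1.Icc_subset hB hA ⟨by norm_num, by norm_num⟩
  obtain ⟨x, hx, hx2⟩ := h2
  rcases notKnotF_hopfLink hx with h3 | h3 <;> rw [h3] at hx2 <;> norm_num at hx2

/-- **a link of two components is not a knot** -/
theorem not_isSmoothKnot_hopfLink : ¬ IsSmoothKnot hopfLink := fun h =>
  not_isPreconnected_hopfLink h.isConnected.isPreconnected

end

end Claimed.Open.R306
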