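import Claimed.Open.R306.SanityFillingT2

/-!
# The pinched sphere `S³/νK` and the pinching maps `M → M/V`

`Statement.lean` uses `N.Pinched` and `N.pinch` to express the orientation convention.  Here, for **every** tube `N` of **every**
knot:

* `Tube.instT2SpacePinched`, `Tube.instCompactSpacePinched`: `S³/νK` is a compact Hausdorff space (the map
  `x ↦ d(x, νK) · x` to `ℝ⁴` is continuous and injective on it: `Tube.pinchedCoord`);
* `Tube.pinchSphere_eq_iff`: two points of `S³` have the same image in `S³/νK` iff they are equal or both lie in `νK`;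
* `Tube.isQuotientMap_pinch`: `N.pinch p q a b` is a (closed, surjective) quotient map, for all `p q a b`;
* `Tube.pinch_eq_iff`: if `q a - p b = 1`, two points of the filling `M` have the same image iff they are equal or both lie in the
  filling solid torus `V`.  With the previous item: `N.pinch` **is** the collapse `M → M/V`, as its docstring says;
* `Tube.isQuotientMap_pinchExterior`, `Tube.pinchExterior_eq_iff`: the map `E_K → S³/νK` is a quotient map which identifies exactly the
  points of the peripheral torus: `S³/νK = E_K/∂E_K`, as the docstring of `Pinched` says.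
-/

set_option autoImplicit false

open Set Metric Topology

namespace Claimed.Open.R306

noncomputable section

namespace Tube

variable {K : Set S3} (N : Tube K) (p q a b : ℤ)

/-! ### the closed tube -/

lemma solid_isCompact : IsCompact N.solid := by
  have h : IsCompact ({x : Circle × ℂ | ‖x.2‖ ≤ 1}) := by
    have h1 : {x : Circle × ℂ | ‖x.2‖ ≤ 1} = (univ : Set Circle) ×ˢ closedBall (0 : ℂ) 1 := by
      ext x
      simp
    rw [h1]
    exact isCompact_univ.prod (isCompact_closedBall _ _)
  exact h.image N.continuous

lemma solid_isClosed : IsClosed N.solid := N.solid_isCompact.isClosed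

lemma base_mem_solid : N.toFun (1, 0) ∈ N.solid := ⟨(1, 0), by simp, rfl⟩

lemma infDist_solid_eq_zero_iff (x : S3) : infDist x N.solid = 0 ↔ x ∈ N.solid :=
  (N.solid_isClosed.mem_iff_infDist_zero ⟨_, N.base_mem_solid⟩).symm

/-- A point of the exterior lies in the closed tube iff it lies on the peripheral torus. -/
lemma exterior_mem_solid_iff (e : N.Exterior) : e.1 ∈ N.solid ↔ e ∈ range N.torus := by
  constructor
  · rintro ⟨⟨z, w⟩, hw, hzw⟩
    have hw' : ‖w‖ ≤ 1 := hw
    have h1 : ‖w‖ = 1 := le_antisymm hw' (not_lt.mp fun hlt => e.2 ⟨(z, w), hlt, hzw⟩)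
    exact ⟨(z, ⟨w, mem_sphere_zero_iff_norm.mpr h1⟩), Subtype.ext hzw⟩
  · rintro ⟨x, rfl⟩
    exact ⟨(x.1, (x.2 : ℂ)), by simp [Circle.norm_coe], rfl⟩

/-! ### `S³/νK` is a compact Hausdorff space -/

lemma pinchSphere_surjective : Function.Surjective N.pinchSphere := fun y => Quot.exists_rep y

lemma pinchSphere_eq_of_mem {x y : S3} (hx : x ∈ N.solid) (hy : y ∈ N.solid) :
    N.pinchSphere x = N.pinchSphere y := Quot.sound ⟨hx, hy⟩

/-- The base point of `S³/νK`: the image of `νK`. -/
def pinchedBase : N.Pinched := N.pinchSphere (N.toFun (1, 0))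

/-- The map `x ↦ d(x, νK) · x` from `S³/νK` to `ℝ⁴`. -/
def pinchedCoord : N.Pinched → EuclideanSpace ℝ (Fin 4) :=
  Quot.lift (fun x : S3 => infDist x N.solid • x.1) (by
    rintro x y ⟨hx, hy⟩
    simp only [infDist_zero_of_mem hx, infDist_zero_of_mem hy, zero_smul])

lemma pinchedCoord_mk (x : S3) : N.pinchedCoord (N.pinchSphere x) = infDist x N.solid • x.1 := rfl

lemma continuous_pinchedCoord : Continuous N.pinchedCoord :=
  continuous_quot_lift _ ((continuous_infDist_pt _).smul continuous_subtype_val)

lemma norm_pinchedCoord_mk (x : S3) : ‖N.pinchedCoord (N.pinchSphere x)‖ = infDist x N.solid := by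
  have h1 : ‖x.1‖ = 1 := mem_sphere_zero_iff_norm.mp x.2
  rw [pinchedCoord_mk, norm_smul, Real.norm_of_nonneg infDist_nonneg, h1, mul_one]

lemma eq_or_mem_of_pinchedCoord_eq {x y : S3}
    (h : N.pinchedCoord (N.pinchSphere x) = N.pinchedCoord (N.pinchSphere y)) :
    x = y ∨ (x ∈ N.solid ∧ y ∈ N.solid) := by
  have hn : infDist x N.solid = infDist y N.solid := by
    rw [← norm_pinchedCoord_mk, ← norm_pinchedCoord_mk, h]
  by_cases hx : x ∈ N.solid
  · refine Or.inr ⟨hx, ?_⟩
    rw [← infDist_solid_eq_zero_iff, ← hn, infDist_solid_eq_zero_iff]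
    exact hx
  · have h0 : infDist x N.solid ≠ 0 := fun h0 => hx ((N.infDist_solid_eq_zero_iff x).1 h0)
    rw [pinchedCoord_mk, pinchedCoord_mk, ← hn] at h
    exact Or.inl (Subtype.ext (smul_right_injective _ h0 h))

lemma injective_pinchedCoord : Function.Injective N.pinchedCoord := by
  intro x' y' h
  obtain ⟨x, rfl⟩ := N.pinchSphere_surjective x'
  obtain ⟨y, rfl⟩ := N.pinchSphere_surjective y'
  rcases N.eq_or_mem_of_pinchedCoord_eq h with rfl | ⟨hx, hy⟩
  · rfl
  · exact N.pinchSphere_eq_of_mem hx hy

/-- **`S³/νK` is a Hausdorff space.** -/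
instance instT2SpacePinched : T2Space N.Pinched :=
  T2Space.of_injective_continuous N.injective_pinchedCoord N.continuous_pinchedCoord

instance instCompactSpacePinched : CompactSpace N.Pinched :=
  inferInstanceAs (CompactSpace (Quot _))

/-- Two points of the sphere have the same image in `S³/νK` iff they are equal or both lie in `νK`. -/
theorem pinchSphere_eq_iff (x y : S3) :
    N.pinchSphere x = N.pinchSphere y ↔ x = y ∨ (x ∈ N.solid ∧ y ∈ N.solid) := by
  constructor
  · intro h
    exact N.eq_or_mem_of_pinchedCoord_eq (congrArg N.pinchedCoord h)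
  · rintro (rfl | h)
    · rfl
    · exact N.pinchSphere_eq_of_mem h.1 h.2

lemma pinchSphere_eq_base_iff (x : S3) : N.pinchSphere x = N.pinchedBase ↔ x ∈ N.solid := by
  rw [pinchedBase, pinchSphere_eq_iff]
  constructor
  · rintro (h | h)
    · rw [h]
      exact N.base_mem_solid
    · exact h.1
  · exact fun h => Or.inr ⟨h, N.base_mem_solid⟩

lemma inner_subset_solid : N.inner ⊆ N.solid := by
  rintro _ ⟨y, hy, rfl⟩
  have hy' : ‖y.2‖ < 1 := hy
  exact ⟨y, hy'.le, rfl⟩

/-- The quotient map `S³ → S³/νK` is a quotient map of topological spaces. -/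
theorem isQuotientMap_pinchSphere : IsQuotientMap N.pinchSphere :=
  N.pinchSphere.continuous.isClosedMap.isQuotientMap N.pinchSphere.continuous N.pinchSphere_surjective

/-! ### the pinching maps are the collapses `M → M/V` -/

lemma pinch_exteriorToFilling (e : N.Exterior) :
    N.pinch p q a b (N.exteriorToFilling p q a b e) = N.pinchSphere e.1 := rfl

lemma pinch_solidToFilling (v : SolidTorus) :
    N.pinch p q a b (N.solidToFilling p q a b v) = N.pinchedBase := rfl

theorem pinch_surjective : Function.Surjective (N.pinch p q a b) := by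
  intro y
  obtain ⟨x, rfl⟩ := N.pinchSphere_surjective y
  by_cases hx : x ∈ N.inner
  · refine ⟨N.solidToFilling p q a b (rim 1, 1), ?_⟩
    rw [pinch_solidToFilling]
    exact ((N.pinchSphere_eq_base_iff _).2 (N.inner_subset_solid hx)).symm
  · exact ⟨N.exteriorToFilling p q a b ⟨x, hx⟩, rfl⟩

/-- **The pinching map is a quotient map** (closed and surjective), for every filling. -/
theorem isQuotientMap_pinch : IsQuotientMap (N.pinch p q a b) :=
  (N.pinch p q a b).continuous.isClosedMap.isQuotientMap (N.pinch p q a b).continuous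
    (N.pinch_surjective p q a b)

variable {p q a b}

/-- A point of the exterior lies in the filling solid torus iff it lies on the peripheral torus. -/
lemma exteriorToFilling_mem_range_solid_iff (h : q * a - p * b = 1) (e : N.Exterior) :
    N.exteriorToFilling p q a b e ∈ range (N.solidToFilling p q a b) ↔ e ∈ range N.torus := by
  constructor
  · intro he
    have h1 : N.exteriorToFilling p q a b e ∈
        range (N.exteriorToFilling p q a b) ∩ range (N.solidToFilling p q a b) := ⟨⟨e, rfl⟩, he⟩
    rw [N.range_exteriorToFilling_inter h] at h1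
    obtain ⟨t, ht⟩ := h1
    exact ⟨t, N.exteriorToFilling_injective p q a b ht⟩
  · rintro ⟨t, rfl⟩
    have h1 : N.exteriorToFilling p q a b (N.torus t) ∈
        range ((N.exteriorToFilling p q a b).comp N.torus) := ⟨t, rfl⟩
    rw [← N.range_exteriorToFilling_inter h] at h1
    exact h1.2

/-- The fibre of the pinching map over the base point is the filling solid torus. -/
theorem pinch_eq_base_iff (h : q * a - p * b = 1) (x : N.Filling p q a b) :
    N.pinch p q a b x = N.pinchedBase ↔ x ∈ range (N.solidToFilling p q a b) := by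
  rcases N.exists_rep p q a b x with ⟨e, rfl⟩ | ⟨v, -, rfl⟩
  · rw [pinch_exteriorToFilling, pinchSphere_eq_base_iff, exterior_mem_solid_iff,
      N.exteriorToFilling_mem_range_solid_iff h]
  · exact ⟨fun _ => ⟨v, rfl⟩, fun _ => rfl⟩

/-- **The pinching map identifies exactly the points of the filling solid torus `V`**: with
`isQuotientMap_pinch`, it is the collapse `M → M/V`. -/
theorem pinch_eq_iff (h : q * a - p * b = 1) (x y : N.Filling p q a b) :
    N.pinch p q a b x = N.pinch p q a b y ↔
      x = y ∨ (x ∈ range (N.solidToFilling p q a b) ∧ y ∈ range (N.solidToFilling p q a b)) := by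
  constructor
  · intro hxy
    by_cases hx : x ∈ range (N.solidToFilling p q a b)
    · refine Or.inr ⟨hx, ?_⟩
      rw [← N.pinch_eq_base_iff h, ← hxy, N.pinch_eq_base_iff h]
      exact hx
    · have hy : y ∉ range (N.solidToFilling p q a b) := by
        intro hy
        apply hx
        rw [← N.pinch_eq_base_iff h, hxy, N.pinch_eq_base_iff h]
        exact hy
      rcases N.exists_rep p q a b x with ⟨e, rfl⟩ | ⟨v, -, rfl⟩
      · rcases N.exists_rep p q a b y with ⟨e', rfl⟩ | ⟨v', -, rfl⟩
        · rw [pinch_exteriorToFilling, pinch_exteriorToFilling, pinchSphere_eq_iff] at hxy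
          rcases hxy with h1 | h1
          · exact Or.inl (congrArg _ (Subtype.ext h1))
          · exact absurd ((N.exteriorToFilling_mem_range_solid_iff h e).2
              ((N.exterior_mem_solid_iff e).1 h1.1)) hx
        · exact absurd ⟨v', rfl⟩ hy
      · exact absurd ⟨v, rfl⟩ hx
  · rintro (rfl | ⟨hx, hy⟩)
    · rfl
    · rw [(N.pinch_eq_base_iff h x).2 hx, (N.pinch_eq_base_iff h y).2 hy]

/-! ### `S³/νK = E_K/∂E_K` -/

/-- The map `E_K → S³/νK`. -/
def pinchExterior : C(N.Exterior, N.Pinched) :=
  N.pinchSphere.comp ⟨Subtype.val, continuous_subtype_val⟩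

lemma pinchExterior_apply (e : N.Exterior) : N.pinchExterior e = N.pinchSphere e.1 := rfl

theorem pinchExterior_surjective : Function.Surjective N.pinchExterior := by
  intro y
  obtain ⟨x, rfl⟩ := N.pinchSphere_surjective y
  by_cases hx : x ∈ N.inner
  · refine ⟨N.torus (1, 1), ?_⟩
    rw [pinchExterior_apply]
    exact N.pinchSphere_eq_of_mem ((N.exterior_mem_solid_iff _).2 ⟨_, rfl⟩) (N.inner_subset_solid hx)
  · exact ⟨⟨x, hx⟩, rfl⟩

/-- The map `E_K → S³/νK` is a quotient map. -/
theorem isQuotientMap_pinchExterior : IsQuotientMap N.pinchExterior :=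
  N.pinchExterior.continuous.isClosedMap.isQuotientMap N.pinchExterior.continuous
    N.pinchExterior_surjective

/-- **`S³/νK = E_K/∂E_K`**: the quotient map `E_K → S³/νK` identifies exactly the points of the peripheral torus. -/
theorem pinchExterior_eq_iff (e e' : N.Exterior) :
    N.pinchExterior e = N.pinchExterior e' ↔ e = e' ∨ (e ∈ range N.torus ∧ e' ∈ range N.torus) := by
  have h : e.1 = e'.1 ↔ e = e' := ⟨fun h => Subtype.ext h, fun h => congrArg _ h⟩
  rw [pinchExterior_apply, pinchExterior_apply, pinchSphere_eq_iff, exterior_mem_solid_iff,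
    exterior_mem_solid_iff, h]

/-- The pinching map of a filling restricts to `E_K → E_K/∂E_K` on the exterior. -/
theorem pinch_comp_exteriorToFilling (p q a b : ℤ) :
    (N.pinch p q a b).comp (N.exteriorToFilling p q a b) = N.pinchExterior := rfl

/-- the gluing matrix of `Tube.Surgery` has determinant one -/
lemma pinch_slope_det (r : Slope) :
    r.den * Int.gcdB r.num r.den - r.num * (-Int.gcdA r.num r.den) = 1 := by
  have hg : Int.gcd r.num r.den = 1 := by
    induction r using OnePoint.rec with
    | infty => simp [Slope.num, Slope.den]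
    | coe x => simpa [Slope.num, Slope.den, Int.gcd, Nat.Coprime] using x.reduced
  have h := Int.gcd_eq_gcd_ab r.num r.den
  rw [hg] at h
  push_cast at h
  linarith

/-- The collapse for the surgeries of `Statement`: for every slope `r`, the map `S³_r(K) → S³/νK` is a quotient map that
identifies exactly the points of the filling solid torus. -/
theorem surgery_pinch (r : Slope) :
    IsQuotientMap (N.pinch r.num r.den (Int.gcdB r.num r.den) (-Int.gcdA r.num r.den)) ∧
      ∀ x y : N.Surgery r,
        N.pinch r.num r.den (Int.gcdB r.num r.den) (-Int.gcdA r.num r.den) x =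
            N.pinch r.num r.den (Int.gcdB r.num r.den) (-Int.gcdA r.num r.den) y ↔
          x = y ∨ (x ∈ range (N.solidToFilling r.num r.den (Int.gcdB r.num r.den) (-Int.gcdA r.num r.den)) ∧
            y ∈ range (N.solidToFilling r.num r.den (Int.gcdB r.num r.den) (-Int.gcdA r.num r.den))) :=
  ⟨N.isQuotientMap_pinch _ _ _ _, N.pinch_eq_iff (pinch_slope_det r)⟩

end Tube

end

end Claimed.Open.R306
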