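import Claimed.Open.R306.Statement
import Claimed.Open.R321.ChainBridge

/-!
# From Mathlib's singular homology functor to chains

`exists_bd_of_H₃_map_eq`: if two continuous maps `f, g : X → Y` induce the same map on `H₃` (the functor
used in `Statement.lean`), then for every singular 3-cycle `z` of `X` the chain `f_# z - g_# z` is a
boundary.  Chains, boundaries and induced maps are Mathlib's, in the concrete notation of
`Claimed/Open/R321/ChainBridge.lean`.
-/

set_option autoImplicit false

open CategoryTheory AlgebraicTopology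

namespace Claimed.Open.R306

open Claimed.Open.R321 (Chains bd chainMap singularChains)

noncomputable section

theorem exists_bd_of_H₃_map_eq {X Y : Type} [TopologicalSpace X] [TopologicalSpace Y]
    (f g : C(X, Y)) (h : H₃.map (TopCat.ofHom f) = H₃.map (TopCat.ofHom g))
    (z : Chains X 3) (hz : bd X 2 z = 0) :
    ∃ y : Chains Y 4, bd Y 3 y = chainMap f 3 z - chainMap g 3 z := by
  set K := singularChains.obj (TopCat.of X) with hK
  set L := singularChains.obj (TopCat.of Y) with hL
  set φ : K ⟶ L := singularChains.map (TopCat.ofHom f) with hφ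
  set ψ : K ⟶ L := singularChains.map (TopCat.ofHom g) with hψ
  have h' : HomologicalComplex.homologyMap φ 3 = HomologicalComplex.homologyMap ψ 3 := h
  let k : ModuleCat.of ℤ ℤ ⟶ K.X 3 := ModuleCat.ofHom (LinearMap.toSpanSingleton ℤ _ z)
  have hk1 : k.hom (1 : ℤ) = z := by
    change LinearMap.toSpanSingleton ℤ _ z 1 = z
    rw [LinearMap.toSpanSingleton_apply]
    exact @MulAction.one_smul ℤ _ _ (K.X 3).isModule.toMulAction z
  have hk : k ≫ K.d 3 2 = 0 := by
    apply ModuleCat.hom_ext
    apply LinearMap.ext_ring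
    rw [ModuleCat.hom_comp, LinearMap.comp_apply, hk1]
    exact hz
  have e : (K.liftCycles k 2 (by simp) hk ≫ K.homologyπ 3) ≫ HomologicalComplex.homologyMap φ 3 =
      (K.liftCycles k 2 (by simp) hk ≫ K.homologyπ 3) ≫ HomologicalComplex.homologyMap ψ 3 := by
    rw [h']
  simp only [Category.assoc, HomologicalComplex.homologyπ_naturality] at e
  rw [← Category.assoc, ← Category.assoc, HomologicalComplex.liftCycles_comp_cyclesMap,
    HomologicalComplex.liftCycles_comp_cyclesMap,
    L.liftCycles_comp_homologyπ_eq_iff_up_to_refinements 4 3 2 (by simp) (by simp)] at e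
  obtain ⟨A', π, hπ, x₁, hx₁⟩ := e
  obtain ⟨a, ha⟩ := (ModuleCat.epi_iff_surjective π).1 hπ (1 : ℤ)
  refine ⟨x₁.hom a, ?_⟩
  have := congrArg (fun m => m.hom a) hx₁
  simp only [ModuleCat.hom_comp, ModuleCat.hom_add, LinearMap.comp_apply, LinearMap.add_apply,
    ha] at this
  have e1 : (φ.f 3).hom (k.hom 1) = chainMap f 3 z := by rw [hk1]; rfl
  have e2 : (ψ.f 3).hom (k.hom 1) = chainMap g 3 z := by rw [hk1]; rfl
  have e3 : (L.d 4 3).hom (x₁.hom a) = bd Y 3 (x₁.hom a) := rfl
  rw [e1, e2, e3] at this
  rw [this]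
  abel

end

end Claimed.Open.R306
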