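import Mathlib

/-!
# A degree one map which collapses the complement of a cap

For a unit vector `p` of a real inner product space and `0 ≤ c < 1`, `capMap p c` is constant (`= -p`) on the
half space `⟪x, p⟫ ≤ c`, it has no zero on the unit sphere, and the segment from `y ≠ 0` to
`capMap p c (y / ‖y‖)` avoids `0`.
-/

set_option autoImplicit false

open scoped RealInnerProductSpace

namespace Claimed.Open.R306

noncomputable section

variable {F : Type} [NormedAddCommGroup F] [InnerProductSpace ℝ F]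

/-- `x ↦ ψ(h) p + κ(h) (x - h p)`, `h = ⟪x, p⟫`, `κ(h) = max 0 (h - c)`, `ψ(h) = -1 + 2 κ(h) / (1 - c)`. -/
def capMap (p : F) (c : ℝ) (x : F) : F :=
  (-1 + 2 * max 0 (⟪x, p⟫ - c) / (1 - c)) • p + max 0 (⟪x, p⟫ - c) • (x - ⟪x, p⟫ • p)

theorem continuous_capMap (p : F) (c : ℝ) : Continuous (capMap p c) := by
  unfold capMap
  fun_prop

theorem capMap_of_le (p : F) (c : ℝ) {x : F} (h : ⟪x, p⟫ ≤ c) : capMap p c x = -p := by
  have : max 0 (⟪x, p⟫ - c) = 0 := max_eq_left (by linarith)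
  simp [capMap, this]

theorem segment_capMap_ne_zero' {p : F} (hp : ‖p‖ = 1) {c : ℝ} (hc0 : 0 ≤ c) (hc1 : c < 1)
    {x : F} (hx : ‖x‖ = 1) {r : ℝ} (hr : 0 < r) {t : ℝ} (ht0 : 0 ≤ t) (ht1 : t ≤ 1) :
    (1 - t) • (r • x) + t • capMap p c x ≠ 0 := by
  intro hv
  set h : ℝ := ⟪x, p⟫ with hh
  set κ : ℝ := max 0 (h - c) with hκ
  have hκ0 : 0 ≤ κ := le_max_left _ _
  have hpp : ⟪p, p⟫ = (1 : ℝ) := by rw [real_inner_self_eq_norm_sq, hp, one_pow]
  have hxx : ⟪x, x⟫ = (1 : ℝ) := by rw [real_inner_self_eq_norm_sq, hx, one_pow]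
  have hpx : ⟪p, x⟫ = h := real_inner_comm _ _
  have A : (1 - t) * r * h + t * (-1 + 2 * κ / (1 - c)) = 0 := by
    have := congrArg (fun u => ⟪u, p⟫) hv
    simp only [capMap, inner_add_left, inner_smul_left, inner_sub_left, inner_zero_left, hpp,
      ← hh, ← hκ, RCLike.conj_to_real] at this
    linarith
  have B : ((1 - t) * r + t * κ) * (1 - h ^ 2) = 0 := by
    have := congrArg (fun u => ⟪u, x - h • p⟫) hv
    simp only [capMap, inner_add_left, inner_smul_left, inner_sub_left, inner_zero_left,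
      inner_sub_right, inner_smul_right, hpp, hxx, hpx, ← hh, ← hκ, RCLike.conj_to_real] at this
    linarith
  have h1t : 0 ≤ (1 - t) * r := mul_nonneg (by linarith) hr.le
  rcases mul_eq_zero.1 B with B | B
  · have e1 : (1 - t) * r = 0 := by nlinarith [mul_nonneg ht0 hκ0]
    have e2 : t * κ = 0 := by linarith
    have ht : t = 1 := by
      rcases mul_eq_zero.1 e1 with h | h
      · linarith
      · exact absurd h hr.ne'
    rw [ht, one_mul] at e2
    rw [e1, ht, e2] at A
    norm_num at A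
  · have hsq : h ^ 2 = 1 := by linarith
    rcases sq_eq_one_iff.1 hsq with h1 | h1
    · have e : κ = 1 - c := by rw [hκ, h1]; exact max_eq_right (by linarith)
      have hne : (1 - c) ≠ 0 := by linarith
      have e' : 2 * (1 - c) / (1 - c) = 2 := by rw [mul_div_assoc, div_self hne, mul_one]
      rw [e, e', h1] at A
      have ht : t = 0 := by linarith
      rw [ht] at A
      norm_num at A
      exact hr.ne' A
    · have e : κ = 0 := by rw [hκ, h1]; exact max_eq_left (by linarith)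
      rw [e, h1] at A
      have ht : t = 0 := by
        have : (1 - t) * r * -1 + t * (-1 + 2 * 0 / (1 - c)) = -((1 - t) * r) - t := by ring
        linarith
      rw [ht] at A
      norm_num at A
      exact hr.ne' A

/-- The segment from `y ≠ 0` to `capMap p c (y / ‖y‖)` avoids the origin. -/
theorem segment_capMap_ne_zero {p : F} (hp : ‖p‖ = 1) {c : ℝ} (hc0 : 0 ≤ c) (hc1 : c < 1)
    {y : F} (hy : y ≠ 0) {t : ℝ} (ht0 : 0 ≤ t) (ht1 : t ≤ 1) :
    (1 - t) • y + t • capMap p c (‖y‖⁻¹ • y) ≠ 0 := by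
  have hr : 0 < ‖y‖ := norm_pos_iff.2 hy
  have hx : ‖‖y‖⁻¹ • y‖ = 1 := by
    rw [norm_smul, norm_inv, norm_norm, inv_mul_cancel₀ hr.ne']
  have := segment_capMap_ne_zero' hp hc0 hc1 hx hr ht0 ht1
  rwa [smul_inv_smul₀ hr.ne'] at this

theorem capMap_ne_zero {p : F} (hp : ‖p‖ = 1) {c : ℝ} (hc0 : 0 ≤ c) (hc1 : c < 1)
    {x : F} (hx : ‖x‖ = 1) : capMap p c x ≠ 0 := by
  have := segment_capMap_ne_zero' hp hc0 hc1 hx one_pos zero_le_one le_rfl
  simpa using this

end

end Claimed.Open.R306
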