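import Claimed.Open.R306.SanityReverseMV

/-!
# A reflection acts nontrivially on the top homology of the punctured space

`exists_cycle_flip`: in `ℝ^{n+1} ∖ 0` there is a singular `n`-cycle `w` such that `ρ_# w - w` is not a boundary,
`ρ` being the reflection which negates the last coordinate.  (So `H_n(ℝ^{n+1} ∖ 0) ≠ 0` and `ρ_* ≠ id`.)

Induction on `n` with the Mayer-Vietoris step `mv_step`, for the cover of `ℝ^{n+2} ∖ 0` by the two slit
spaces of `Claimed/Open/R321/PASphere.lean`.
-/

set_option autoImplicit false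

namespace Claimed.Open.R306

open Claimed.Open.R321 Claimed.Open.R321.PASph

noncomputable section

/-- The punctured space `ℝ^{n+1} ∖ 0`. -/
abbrev Pun (n : ℕ) : Type := ↥({0}ᶜ : Set (Fin (n + 1) → ℝ))

/-- Negate the last coordinate. -/
def flipFun (n : ℕ) (x : Fin (n + 1) → ℝ) : Fin (n + 1) → ℝ :=
  Function.update x (Fin.last n) (-x (Fin.last n))

theorem flipFun_flipFun (n : ℕ) (x : Fin (n + 1) → ℝ) : flipFun n (flipFun n x) = x := by
  simp [flipFun]

theorem flipFun_zero (n : ℕ) : flipFun n 0 = 0 := by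
  simp [flipFun]

theorem flipFun_eq_zero_iff {n : ℕ} {x : Fin (n + 1) → ℝ} : flipFun n x = 0 ↔ x = 0 := by
  constructor
  · intro h
    rw [← flipFun_flipFun n x, h, flipFun_zero]
  · rintro rfl
    exact flipFun_zero n

theorem continuous_flipFun (n : ℕ) : Continuous (flipFun n) :=
  continuous_id.update _ (continuous_apply (Fin.last n)).neg

theorem tail_flipFun (n : ℕ) (x : Fin (n + 2) → ℝ) :
    (Fin.tail (flipFun (n + 1) x) : Fin (n + 1) → ℝ) = flipFun n (Fin.tail x) := by
  unfold flipFun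
  rw [← Fin.succ_last, Fin.tail_update_succ]
  rfl

theorem flipFun_cons (n : ℕ) (t : ℝ) (y : Fin (n + 1) → ℝ) :
    flipFun (n + 1) (Fin.cons t y : Fin (n + 2) → ℝ) = Fin.cons t (flipFun n y) := by
  unfold flipFun
  rw [Fin.cons_update, ← Fin.succ_last, Fin.cons_succ]

theorem flipFun_apply_zero (n : ℕ) (x : Fin (n + 2) → ℝ) : flipFun (n + 1) x 0 = x 0 := by
  unfold flipFun
  rw [Function.update_of_ne]
  exact (Fin.last_pos).ne

/-- The reflection of the punctured space. -/
def flip (n : ℕ) : C(Pun n, Pun n) :=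
  ⟨fun x => ⟨flipFun n x.1, fun h => x.2 (flipFun_eq_zero_iff.1 h)⟩,
    ((continuous_flipFun n).comp continuous_subtype_val).subtype_mk _⟩

/-- The statement proved by induction. -/
def FlipClaim (n : ℕ) : Prop :=
  ∃ w : Chains (Pun n) n, w ∈ (singCx (Pun n)).cycles n ∧
    (∀ (T : Type) [TopologicalSpace T] [ContractibleSpace T] (φ : C(Pun n, T)),
      ∃ a : Chains T (n + 1), bd T n a = chainMap φ n w) ∧
    ¬ ∃ e : Chains (Pun n) (n + 1), bd (Pun n) n e = chainMap (flip n) n w - w

/-! ### The base case: `ℝ ∖ 0` -/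

/-- The point `t ≠ 0` of `ℝ ∖ 0`. -/
def pt0 (t : ℝ) (ht : t ≠ 0) : Pun 0 := ⟨fun _ => t, fun h => ht (congrFun h 0)⟩

theorem Pun.apply_zero_ne (x : Pun 0) : x.1 0 ≠ 0 := by
  intro h
  apply x.2
  funext i
  obtain rfl : i = 0 := Subsingleton.elim (α := Fin 1) i 0
  exact h

instance (m : ℕ) : PreconnectedSpace (stdSimplex ℝ (Fin (m + 1))) :=
  Subtype.preconnectedSpace (convex_stdSimplex ℝ _).isPreconnected

/-- A continuous map from a connected space to `ℝ ∖ 0` has constant sign. -/
theorem pos_iff_pos {S : Type} [TopologicalSpace S] [PreconnectedSpace S] (τ : C(S, Pun 0))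
    (x y : S) : 0 < (τ x).1 0 ↔ 0 < (τ y).1 0 := by
  have hc : Continuous fun s => (τ s).1 0 :=
    (continuous_apply 0).comp (continuous_subtype_val.comp τ.continuous)
  have key : ∀ x y : S, 0 < (τ x).1 0 → 0 < (τ y).1 0 := by
    intro x y hx
    by_contra hy
    obtain ⟨s, hs⟩ := intermediate_value_univ y x hc ⟨not_lt.1 hy, hx.le⟩
    exact Pun.apply_zero_ne (τ s) hs
  exact ⟨key x y, key y x⟩

/-- A point of the `0`-simplex. -/
def vtx : stdSimplex ℝ (Fin 1) := ⟨Pi.single 0 1, single_mem_stdSimplex ℝ 0⟩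

open Classical in
/-- The number of positive points of a `0`-chain. -/
def posCount : Chains (Pun 0) 0 →+ ℤ := chainsLift fun s => if 0 < (s vtx).1 0 then 1 else 0

theorem posCount_bd (e : Chains (Pun 0) 1) : posCount (bd (Pun 0) 0 e) = 0 := by
  have h : posCount.comp (bd (Pun 0) 0) = 0 := by
    apply chains_hom_ext
    intro τ
    rw [AddMonoidHom.comp_apply, bd_gen, Fin.sum_univ_two, map_add, map_zsmul, map_zsmul]
    simp only [posCount, chainsLift_gen, Simplex.face, ContinuousMap.comp_apply,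
      AddMonoidHom.zero_apply]
    rw [if_congr (pos_iff_pos τ (coface 0 0 vtx) (coface 0 1 vtx)) rfl rfl]
    split_ifs <;> simp
  exact congrArg (fun k => k e) h

theorem flipClaim_zero : FlipClaim 0 := by
  classical
  set p : Pun 0 := pt0 1 one_ne_zero with hp
  set q : Pun 0 := pt0 (-1) (by norm_num) with hq
  refine ⟨gen (ContinuousMap.const _ p) - gen (ContinuousMap.const _ q),
    PaCx.mem_cycles_zero _ _, ?_, ?_⟩
  · intro T _ _ φ
    obtain ⟨t₀, H⟩ := (id_nullhomotopic T).comp_left φ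
    obtain ⟨a, ha⟩ := exists_bd_eq_chainMap_sub H 0
      (gen (ContinuousMap.const _ p) - gen (ContinuousMap.const _ q)) (PaCx.mem_cycles_zero _ _)
    refine ⟨-a, ?_⟩
    rw [map_neg, ha, neg_sub, ContinuousMap.id_comp, map_sub (chainMap (ContinuousMap.const _ t₀) 0),
      chainMap_gen, chainMap_gen]
    have : (ContinuousMap.const (Pun 0) t₀).comp
        (ContinuousMap.const (stdSimplex ℝ (Fin (0 + 1))) p) =
        (ContinuousMap.const (Pun 0) t₀).comp (ContinuousMap.const _ q) := rfl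
    rw [this, sub_self, sub_zero]
  · rintro ⟨e, he⟩
    have h0 := posCount_bd e
    have h1 : (flip 0 p).1 0 = -1 := by simp [flip, flipFun, hp, pt0]
    have h2 : (flip 0 q).1 0 = 1 := by simp [flip, flipFun, hq, pt0]
    have h3 : p.1 0 = 1 := rfl
    have h4 : q.1 0 = -1 := rfl
    rw [he] at h0
    simp only [map_sub, chainMap_gen, posCount, chainsLift_gen, ContinuousMap.comp_apply,
      ContinuousMap.const_apply, h1, h2, h3, h4] at h0
    norm_num at h0

/-! ### The induction step -/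

/-- The slit spaces, as subsets of the punctured space. -/
def slitP (n : ℕ) (sg : ℝ) : Set (Pun n) := Subtype.val ⁻¹' slit n sg

theorem isOpen_slitP (n : ℕ) (sg : ℝ) : IsOpen (slitP n sg) :=
  (isOpen_slit sg).preimage continuous_subtype_val

theorem slitP_union (n : ℕ) : slitP n 1 ∪ slitP n (-1) = Set.univ := by
  ext x
  simp only [slitP, Set.mem_union, Set.mem_preimage, Set.mem_univ, iff_true]
  have : x.1 ∈ slit n 1 ∪ slit n (-1) := by
    rw [slit_union]
    exact x.2
  exact this

theorem slit_subset (n : ℕ) (sg : ℝ) : slit n sg ⊆ ({0}ᶜ : Set (Fin (n + 1) → ℝ)) := by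
  rintro x hx rfl
  exact hx ⟨rfl, by simp⟩

theorem contractibleSpace_slitP (n : ℕ) (sg : ℝ) (hsg : sg * sg = 1) :
    ContractibleSpace ↥(slitP n sg) := by
  have := (starConvex_slit (n := n) sg hsg).contractibleSpace (slit_nonempty sg hsg)
  exact (nestedHomeo (slit_subset n sg)).symm.contractibleSpace

theorem mapsTo_flip_slitP (n : ℕ) (sg : ℝ) :
    Set.MapsTo (flip (n + 1)) (slitP (n + 1) sg) (slitP (n + 1) sg) := by
  rintro x hx ⟨h1, h2⟩
  apply hx
  change (Fin.tail (flipFun (n + 1) x.1) : Fin (n + 1) → ℝ) = 0 at h1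
  change sg * flipFun (n + 1) x.1 0 ≤ 0 at h2
  rw [tail_flipFun, flipFun_eq_zero_iff] at h1
  rw [flipFun_apply_zero] at h2
  exact ⟨h1, h2⟩

theorem cons_mem_slit (n : ℕ) (sg : ℝ) (y : Pun n) :
    (Fin.cons 0 y.1 : Fin (n + 2) → ℝ) ∈ slit (n + 1) sg := by
  rintro ⟨h1, -⟩
  rw [Fin.tail_cons] at h1
  exact y.2 h1

/-- The equatorial inclusion `y ↦ (0, y)`. -/
def equator (n : ℕ) : C(Pun n, Pun (n + 1)) :=
  ⟨fun y => ⟨Fin.cons 0 y.1, slit_subset (n + 1) 1 (cons_mem_slit n 1 y)⟩,
    (continuous_cons continuous_const continuous_subtype_val).subtype_mk _⟩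

/-- Corestriction of a continuous map. -/
def corestr {X Y : Type} [TopologicalSpace X] [TopologicalSpace Y] (f : C(X, Y)) (A : Set Y)
    (h : ∀ x, f x ∈ A) : C(X, ↥A) :=
  ⟨fun x => ⟨f x, h x⟩, f.continuous.subtype_mk _⟩

theorem inclSet_comp_corestr {X Y : Type} [TopologicalSpace X] [TopologicalSpace Y] (f : C(X, Y))
    (A : Set Y) (h : ∀ x, f x ∈ A) : (inclSet A).comp (corestr f A h) = f := rfl

theorem equator_mem (n : ℕ) (sg : ℝ) (y : Pun n) : equator n y ∈ slitP (n + 1) sg :=
  cons_mem_slit n sg y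

theorem flip_comp_equator (n : ℕ) :
    (flip (n + 1)).comp (equator n) = (equator n).comp (flip n) := by
  ext y : 2
  exact flipFun_cons n 0 y.1

/-- The projection `x ↦ tail x` from the intersection of the slit spaces. -/
def tailP (n : ℕ) : C(↥(slitP (n + 1) 1 ∩ slitP (n + 1) (-1)), Pun n) :=
  ⟨fun x => ⟨Fin.tail x.1.1, by
      have h : x.1.1 ∈ slit (n + 1) 1 ∩ slit (n + 1) (-1) := x.2
      rw [slit_inter] at h
      exact h⟩,
    (continuous_tail.comp (continuous_subtype_val.comp continuous_subtype_val)).subtype_mk _⟩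

theorem tailP_comp (n : ℕ) :
    (tailP n).comp (corestr (equator n) (slitP (n + 1) 1 ∩ slitP (n + 1) (-1))
      fun y => ⟨equator_mem n 1 y, equator_mem n (-1) y⟩) = ContinuousMap.id _ := by
  ext y : 2
  change (Fin.tail (Fin.cons 0 y.1 : Fin (n + 2) → ℝ) : Fin (n + 1) → ℝ) = y.1
  rw [Fin.tail_cons]

theorem flipClaim_succ (n : ℕ) (ih : FlipClaim n) : FlipClaim (n + 1) := by
  obtain ⟨w, -, hbound, hnot⟩ := ih
  set U := slitP (n + 1) 1 with hU
  set V := slitP (n + 1) (-1) with hV
  have hcU : ContractibleSpace ↥U := contractibleSpace_slitP (n + 1) 1 (by norm_num)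
  have hcV : ContractibleSpace ↥V := contractibleSpace_slitP (n + 1) (-1) (by norm_num)
  obtain ⟨a₀, ha₀⟩ := hbound ↥U (corestr (equator n) U (equator_mem n 1))
  obtain ⟨b₀, hb₀⟩ := hbound ↥V (corestr (equator n) V (equator_mem n (-1)))
  set a := chainMap (inclSet U) (n + 1) a₀ with ha
  set b := chainMap (inclSet V) (n + 1) b₀ with hb
  have hwa : bd (Pun (n + 1)) n a = chainMap (equator n) n w := by
    rw [ha, bd_chainMap, ha₀, ← chainMap_comp, inclSet_comp_corestr]
  have hwb : bd (Pun (n + 1)) n b = chainMap (equator n) n w := by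
    rw [hb, bd_chainMap, hb₀, ← chainMap_comp, inclSet_comp_corestr]
  have hz : bd (Pun (n + 1)) n (a - b) = 0 := by rw [map_sub, hwa, hwb, sub_self]
  refine ⟨a - b, (PaCx.mem_cycles_succ (singCx (Pun (n + 1))) _).2 hz, ?_, ?_⟩
  · intro T _ _ φ
    exact exists_bd_of_contractible _ (by rw [bd_chainMap, hz, map_zero])
  · rintro ⟨y, hy⟩
    obtain ⟨e, he, hbe⟩ := mv_step (U := U) (V := V)
      (by rw [(isOpen_slitP _ _).interior_eq, (isOpen_slitP _ _).interior_eq, slitP_union])
      (flip (n + 1)) (mapsTo_flip_slitP n 1) (mapsTo_flip_slitP n (-1)) (chainMap (equator n) n w)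
      a b (chainMap_inclSet_mem U a₀) (chainMap_inclSet_mem V b₀) hwa y hy
    obtain ⟨e₀, rfl⟩ := mem_smallChains_singleton_iff_exists.1 he
    apply hnot
    refine ⟨chainMap (tailP n) (n + 1) e₀, ?_⟩
    set ιW := corestr (equator n) (U ∩ V) fun y => ⟨equator_mem n 1 y, equator_mem n (-1) y⟩
      with hιW
    have h1 : bd _ n e₀ = chainMap ιW n (chainMap (flip n) n w - w) := by
      apply chainMap_injective (inclSet (U ∩ V)) (inclSet_injective _)
      have h2 : (inclSet (U ∩ V)).comp ιW = equator n := rfl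
      rw [← bd_chainMap, hbe, ← chainMap_comp, flip_comp_equator, ← chainMap_comp, h2, map_sub,
        chainMap_comp]
    rw [bd_chainMap, h1, ← chainMap_comp, tailP_comp, chainMap_id]

/-- In `ℝ^{n+1} ∖ 0` there is an `n`-cycle `w` such that `ρ_# w - w` is not a boundary, where `ρ` negates the last
coordinate. -/
theorem exists_cycle_flip (n : ℕ) :
    ∃ w : Chains (Pun n) n, w ∈ (singCx (Pun n)).cycles n ∧
      ¬ ∃ e : Chains (Pun n) (n + 1), bd (Pun n) n e = chainMap (flip n) n w - w := by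
  have h : FlipClaim n := by
    induction n with
    | zero => exact flipClaim_zero
    | succ n ih => exact flipClaim_succ n ih
  obtain ⟨w, h1, -, h2⟩ := h
  exact ⟨w, h1, h2⟩

end

end Claimed.Open.R306
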