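import Claimed.Open.R306.TubeOpen
import Claimed.Open.R306.SanityReverseBridge
import Claimed.Open.R306.SanityReversePunctured
import Claimed.Open.R306.SanityReverseCap

/-!
# A homeomorphism of fillings which does NOT preserve orientation

`Tube.not_isOrientationPreserving_conj`: let `f₀ : M ≃ₜ S³` be a homeomorphism from a filling `M` of `E_K` which is
compatible with the pinching maps to `S³ / νK` (for the `∞`-filling there is one, `Tube.fillingInfty`).  Then
the conjugate `f₀⁻¹ ∘ ρ ∘ f₀` of the reflection `ρ (x₀, x₁, x₂, x₃) = (x₀, x₁, x₂, -x₃)` of `S³` is not orientation preserving in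
the sense of `Statement.lean`.  So `Tube.IsOrientationPreserving` is a genuine condition.
-/

set_option autoImplicit false

open scoped RealInnerProductSpace

namespace Claimed.Open.R306

open Claimed.Open.R321 (Chains bd chainMap singCx chainMap_comp chainMap_id bd_chainMap
  exists_bd_eq_chainMap_sub chainMap_mem_cycles)

noncomputable section

/-- `ℝ⁴` with the euclidean norm. -/
abbrev Euc4 : Type := EuclideanSpace ℝ (Fin 4)

/-- A point of the punctured space as a euclidean vector. -/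
def toE (y : Pun 3) : Euc4 := WithLp.toLp 2 y.1

theorem toE_ne_zero (y : Pun 3) : toE y ≠ 0 := fun h => y.2 ((WithLp.toLp_eq_zero 2).1 h)

theorem continuous_toE : Continuous toE :=
  (PiLp.continuous_toLp 2 _).comp continuous_subtype_val

/-- A nonzero euclidean vector as a point of the punctured space. -/
def ofE (v : Euc4) (hv : v ≠ 0) : Pun 3 := ⟨WithLp.ofLp v, fun h => hv ((WithLp.ofLp_eq_zero 2).1 h)⟩

theorem nrm_mem (y : Pun 3) : ‖toE y‖⁻¹ • toE y ∈ Metric.sphere (0 : Euc4) 1 := by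
  rw [mem_sphere_zero_iff_norm, norm_smul, norm_inv, norm_norm,
    inv_mul_cancel₀ (norm_ne_zero_iff.2 (toE_ne_zero y))]

/-- The radial projection `ℝ⁴ ∖ 0 → S³`. -/
def nrm : C(Pun 3, S3) :=
  ⟨fun y => ⟨‖toE y‖⁻¹ • toE y, nrm_mem y⟩,
    Continuous.subtype_mk
      ((continuous_toE.norm.inv₀ fun y => norm_ne_zero_iff.2 (toE_ne_zero y)).smul
        continuous_toE) nrm_mem⟩

/-- The reflection `(x₀, x₁, x₂, x₃) ↦ (x₀, x₁, x₂, -x₃)` of `ℝ⁴`. -/
def reflE (v : Euc4) : Euc4 := WithLp.toLp 2 (flipFun 3 (WithLp.ofLp v))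

theorem reflE_reflE (v : Euc4) : reflE (reflE v) = v := by
  simp [reflE, flipFun_flipFun]

theorem flipFun_sq (n : ℕ) (x : Fin (n + 1) → ℝ) (i : Fin (n + 1)) : flipFun n x i ^ 2 = x i ^ 2 := by
  unfold flipFun
  by_cases h : i = Fin.last n
  · subst h
    simp
  · rw [Function.update_of_ne h]

theorem norm_reflE (v : Euc4) : ‖reflE v‖ = ‖v‖ := by
  rw [EuclideanSpace.norm_eq, EuclideanSpace.norm_eq]
  congr 1
  refine Finset.sum_congr rfl fun i _ => ?_
  rw [Real.norm_eq_abs, Real.norm_eq_abs, sq_abs, sq_abs]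
  exact flipFun_sq 3 _ i

theorem flipFun_smul (n : ℕ) (c : ℝ) (x : Fin (n + 1) → ℝ) :
    flipFun n (c • x) = c • flipFun n x := by
  funext i
  unfold flipFun
  by_cases h : i = Fin.last n
  · subst h
    simp
  · simp [Function.update_of_ne h]

theorem continuous_reflE : Continuous reflE :=
  (PiLp.continuous_toLp 2 _).comp ((continuous_flipFun 3).comp (PiLp.continuous_ofLp 2 _))

theorem reflE_mem (x : S3) : reflE x.1 ∈ Metric.sphere (0 : Euc4) 1 := by
  rw [mem_sphere_zero_iff_norm, norm_reflE]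
  exact norm_eq_of_mem_sphere x

/-- The reflection of `S³`. -/
def reflS3 : S3 ≃ₜ S3 where
  toFun x := ⟨reflE x.1, reflE_mem x⟩
  invFun x := ⟨reflE x.1, reflE_mem x⟩
  left_inv x := Subtype.ext (reflE_reflE x.1)
  right_inv x := Subtype.ext (reflE_reflE x.1)
  continuous_toFun := Continuous.subtype_mk (continuous_reflE.comp continuous_subtype_val) reflE_mem
  continuous_invFun := Continuous.subtype_mk (continuous_reflE.comp continuous_subtype_val) reflE_mem

theorem reflS3_nrm (y : Pun 3) : reflS3 (nrm y) = nrm (flip 3 y) := by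
  apply Subtype.ext
  change reflE (‖toE y‖⁻¹ • toE y) = ‖toE (flip 3 y)‖⁻¹ • toE (flip 3 y)
  have h1 : toE (flip 3 y) = reflE (toE y) := rfl
  rw [h1, norm_reflE]
  simp [reflE, flipFun_smul]

namespace Tube

variable {K : Set S3} (N : Tube K)

theorem isCompact_solid : IsCompact N.solid := by
  have h : {x : Circle × ℂ | ‖x.2‖ ≤ 1} = Set.univ ×ˢ Metric.closedBall (0 : ℂ) 1 := by
    ext x
    simp
  rw [solid, h]
  exact (isCompact_univ.prod (isCompact_closedBall 0 1)).image N.continuous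

theorem solid_nonempty : N.solid.Nonempty := ⟨N.toFun (1, 0), (1, 0), by simp, rfl⟩

/-- A point outside the closed tubular neighbourhood. -/
def outPt : S3 := N.toFun (1, 2)

theorem outPt_notMem : N.outPt ∉ N.solid := by
  rintro ⟨x, hx, h⟩
  rw [N.injective h] at hx
  norm_num at hx

/-- The closed tubular neighbourhood misses a cap around `outPt`. -/
theorem exists_cap : ∃ c : ℝ, 0 ≤ c ∧ c < 1 ∧ ∀ x ∈ N.solid, ⟪x.1, N.outPt.1⟫ ≤ c := by
  have hc : ContinuousOn (fun x : S3 => ⟪x.1, N.outPt.1⟫) N.solid :=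
    (continuous_subtype_val.inner continuous_const).continuousOn
  obtain ⟨x₀, hx₀, hmax⟩ := N.isCompact_solid.exists_isMaxOn N.solid_nonempty hc
  have hlt : ⟪x₀.1, N.outPt.1⟫ < 1 := by
    rw [inner_lt_one_iff_real_of_norm_eq_one (norm_eq_of_mem_sphere x₀)
      (norm_eq_of_mem_sphere N.outPt)]
    intro h
    exact N.outPt_notMem (Subtype.ext h ▸ hx₀)
  exact ⟨max ⟪x₀.1, N.outPt.1⟫ 0, le_max_right _ _, max_lt hlt one_pos,
    fun x hx => (hmax hx).trans (le_max_left _ _)⟩

end Tube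

/-! ### The collapse of the complement of a cap, on `S³` and on `ℝ⁴ ∖ 0` -/

section Cap

variable (p : S3) (c : ℝ) (hc0 : 0 ≤ c) (hc1 : c < 1)

include hc0 hc1 in
theorem capS_ne (x : S3) : capMap p.1 c x.1 ≠ 0 :=
  capMap_ne_zero (norm_eq_of_mem_sphere p) hc0 hc1 (norm_eq_of_mem_sphere x)

/-- `capMap` as a map `S³ → ℝ⁴ ∖ 0`. -/
def capS : C(S3, Pun 3) :=
  ⟨fun x => ofE (capMap p.1 c x.1) (capS_ne p c hc0 hc1 x),
    Continuous.subtype_mk ((PiLp.continuous_ofLp 2 _).comp
      ((continuous_capMap p.1 c).comp continuous_subtype_val)) _⟩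

include hc0 hc1 in
theorem capH_ne (x : unitInterval × Pun 3) :
    (1 - (x.1 : ℝ)) • toE x.2 + (x.1 : ℝ) • capMap p.1 c (‖toE x.2‖⁻¹ • toE x.2) ≠ 0 :=
  segment_capMap_ne_zero (norm_eq_of_mem_sphere p) hc0 hc1 (toE_ne_zero x.2) x.1.2.1 x.1.2.2

/-- The composite `ℝ⁴ ∖ 0 → S³ → ℝ⁴ ∖ 0` of the radial projection and `capS` is homotopic to the identity. -/
def capHomotopy :
    ContinuousMap.Homotopy (ContinuousMap.id (Pun 3)) ((capS p c hc0 hc1).comp nrm) where
  toFun x := ofE _ (capH_ne p c hc0 hc1 x)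
  continuous_toFun := by
    refine Continuous.subtype_mk ((PiLp.continuous_ofLp 2 _).comp ?_) _
    have h1 : Continuous fun x : unitInterval × Pun 3 => toE x.2 := continuous_toE.comp continuous_snd
    have h2 : Continuous fun x : unitInterval × Pun 3 => (x.1 : ℝ) :=
      continuous_subtype_val.comp continuous_fst
    have h3 : Continuous fun x : unitInterval × Pun 3 => ‖toE x.2‖⁻¹ • toE x.2 :=
      (h1.norm.inv₀ fun x => norm_ne_zero_iff.2 (toE_ne_zero x.2)).smul h1
    exact ((continuous_const.sub h2).smul h1).add (h2.smul ((continuous_capMap p.1 c).comp h3))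
  map_zero_left y := by
    apply Subtype.ext
    simp [ofE, toE]
  map_one_left y := by
    apply Subtype.ext
    simp [ofE, capS, nrm]

end Cap

/-! ### The reflection does not preserve orientation -/

namespace Tube

variable {K : Set S3} (N : Tube K)

/-- The collapse `capS` factors through `S³ / νK` if the cap misses `νK`. -/
def capQuot (c : ℝ) (hc0 : 0 ≤ c) (hc1 : c < 1)
    (hcap : ∀ x ∈ N.solid, ⟪x.1, N.outPt.1⟫ ≤ c) : C(N.Pinched, Pun 3) :=
  ⟨Quot.lift (capS N.outPt c hc0 hc1) (by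
      rintro x y ⟨hx, hy⟩
      apply Subtype.ext
      change WithLp.ofLp (capMap N.outPt.1 c x.1) = WithLp.ofLp (capMap N.outPt.1 c y.1)
      rw [capMap_of_le _ _ (hcap x hx), capMap_of_le _ _ (hcap y hy)]),
    continuous_quot_lift _ (capS N.outPt c hc0 hc1).continuous⟩

theorem capQuot_comp_pinchSphere (c : ℝ) (hc0 : 0 ≤ c) (hc1 : c < 1)
    (hcap : ∀ x ∈ N.solid, ⟪x.1, N.outPt.1⟫ ≤ c) :
    (N.capQuot c hc0 hc1 hcap).comp N.pinchSphere = capS N.outPt c hc0 hc1 := rfl

/-- **A non-example for `Tube.IsOrientationPreserving`.**  If `f₀ : M ≃ₜ S³` is compatible with the pinching maps,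
then the conjugate of the reflection of `S³` by `f₀` is a self-homeomorphism of the filling `M` which does not
preserve orientation. -/
theorem not_isOrientationPreserving_conj {p q a b : ℤ} (f₀ : N.Filling p q a b ≃ₜ S3)
    (h₀ : N.pinchSphere.comp (toContinuousMap f₀) = N.pinch p q a b) :
    ¬ N.IsOrientationPreserving (f₀.trans (reflS3.trans f₀.symm)) := by
  intro hOP
  unfold IsOrientationPreserving at hOP
  obtain ⟨c, hc0, hc1, hcap⟩ := N.exists_cap
  obtain ⟨w, hw, hnot⟩ := exists_cycle_flip 3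
  have hw' : bd (Pun 3) 2 w = 0 := (Claimed.Open.R321.PaCx.mem_cycles_succ (singCx (Pun 3)) w).1 hw
  set j : C(Pun 3, N.Filling p q a b) := (toContinuousMap f₀.symm).comp nrm with hj
  obtain ⟨y, hy⟩ := exists_bd_of_H₃_map_eq _ _ hOP (chainMap j 3 w)
    (by rw [bd_chainMap, hw', map_zero])
  set d := N.capQuot c hc0 hc1 hcap with hd
  set G : C(Pun 3, Pun 3) := (capS N.outPt c hc0 hc1).comp nrm with hG
  have e1 : (d.comp ((N.pinch p q a b).comp
      (toContinuousMap (f₀.trans (reflS3.trans f₀.symm))))).comp j = G.comp (flip 3) := by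
    rw [← h₀]
    ext x : 1
    change d (N.pinchSphere (f₀ (f₀.symm (reflS3 (f₀ (f₀.symm (nrm x))))))) = _
    rw [f₀.apply_symm_apply, f₀.apply_symm_apply, reflS3_nrm]
    rfl
  have e2 : (d.comp (N.pinch p q a b)).comp j = G := by
    rw [← h₀]
    ext x : 1
    change d (N.pinchSphere (f₀ (f₀.symm (nrm x)))) = _
    rw [f₀.apply_symm_apply]
    rfl
  have hdy : bd (Pun 3) 3 (chainMap d 4 y) = chainMap G 3 (chainMap (flip 3) 3 w) - chainMap G 3 w := by
    rw [bd_chainMap, hy, map_sub, ← chainMap_comp, ← chainMap_comp, ← chainMap_comp,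
      ← chainMap_comp, e1, e2, chainMap_comp]
  have H : (ContinuousMap.id (Pun 3)).Homotopic G := ⟨capHomotopy N.outPt c hc0 hc1⟩
  obtain ⟨u₁, hu₁⟩ := exists_bd_eq_chainMap_sub H 3 w hw
  obtain ⟨u₂, hu₂⟩ := exists_bd_eq_chainMap_sub H 3 (chainMap (flip 3) 3 w)
    (chainMap_mem_cycles _ 3 w hw)
  rw [chainMap_id] at hu₁ hu₂
  apply hnot
  refine ⟨chainMap d 4 y - u₂ + u₁, ?_⟩
  rw [map_add, map_sub, hdy, hu₁, hu₂]
  abel

end Tube

end

end Claimed.Open.R306
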