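import Claimed.Open.R306.Statement

/-!
# A tube is an open embedding; the exterior and the fillings are compact
-/

set_option autoImplicit false

open scoped Manifold ContDiff Topology
open Manifold Set Module

namespace Claimed.Open.R306

noncomputable section

namespace Tube

variable {K : Set S3} (N : Tube K)

lemma injective : Function.Injective N.toFun := N.isSmoothEmbedding.isEmbedding.injective

lemma continuous : Continuous N.toFun := N.isSmoothEmbedding.isEmbedding.continuous

/-- A tube is an open map (the source and the target have the same dimension). -/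
lemma isOpenMap : IsOpenMap N.toFun := by
  rw [isOpenMap_iff_nhds_le]
  intro x
  have h := N.isSmoothEmbedding.isImmersion.isImmersionAt x
  -- the complement is trivial
  have hfin : Module.Finite ℝ ((EuclideanSpace ℝ (Fin 1) × ℂ) × h.complement) :=
    Module.Finite.equiv h.equiv.symm.toLinearEquiv
  have hfinF : Module.Finite ℝ h.complement :=
    Module.Finite.of_surjective (LinearMap.snd ℝ (EuclideanSpace ℝ (Fin 1) × ℂ) h.complement)
      Prod.snd_surjective
  have hrank : finrank ℝ h.complement = 0 := by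
    have h1 := h.equiv.toLinearEquiv.finrank_eq
    rw [Module.finrank_prod, Module.finrank_prod] at h1
    simp [Complex.finrank_real_complex] at h1
    omega
  have hsub : Subsingleton h.complement := Module.finrank_zero_iff.mp hrank
  let _ : Unique h.complement := ⟨⟨0⟩, fun a => Subsingleton.elim a 0⟩
  let L : (EuclideanSpace ℝ (Fin 1) × ℂ) ≃L[ℝ] EuclideanSpace ℝ (Fin 3) :=
    (ContinuousLinearEquiv.prodUnique ℝ _ h.complement).symm.trans h.equiv
  have hL : ∀ u, L u = h.equiv (u, 0) := fun u => by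
    change h.equiv (u, default) = h.equiv (u, 0)
    rw [Subsingleton.elim (default : h.complement) 0]
  have hx : x ∈ h.domChart.source := h.mem_domChart_source
  have key : ∀ y ∈ h.domChart.source,
      (h.codChart.extend (𝓡 3)) (N.toFun y) = L ((h.domChart.extend ((𝓡 1).prod 𝓘(ℝ, ℂ))) y) := by
    intro y hy
    have h1 : (h.domChart.extend ((𝓡 1).prod 𝓘(ℝ, ℂ))) y ∈
        (h.domChart.extend ((𝓡 1).prod 𝓘(ℝ, ℂ))).target :=
      (h.domChart.extend ((𝓡 1).prod 𝓘(ℝ, ℂ))).map_source
        (by rwa [OpenPartialHomeomorph.extend_source])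
    have h2 := h.writtenInCharts h1
    simp only [Function.comp_apply, h.domChart.extend_left_inv hy] at h2
    rw [hL, h2]
  have hev : N.toFun =ᶠ[𝓝 x] (h.codChart.extend (𝓡 3)).symm ∘ L ∘
      (h.domChart.extend ((𝓡 1).prod 𝓘(ℝ, ℂ))) := by
    filter_upwards [h.domChart.open_source.mem_nhds hx] with y hy
    simp only [Function.comp_apply]
    rw [← key y hy, h.codChart.extend_left_inv (h.source_subset_preimage_source hy)]
  rw [Filter.map_congr hev, ← Filter.map_map, ← Filter.map_map,
    h.domChart.map_extend_nhds_of_boundaryless hx]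
  have h5 : Filter.map (⇑L) (𝓝 ((h.domChart.extend ((𝓡 1).prod 𝓘(ℝ, ℂ))) x)) =
      𝓝 (L ((h.domChart.extend ((𝓡 1).prod 𝓘(ℝ, ℂ))) x)) := L.toHomeomorph.map_nhds_eq _
  rw [h5, ← key x hx]
  have h4 := h.codChart.map_extend_symm_nhdsWithin_range (I := 𝓡 3) h.mem_codChart_source
  rw [ModelWithCorners.range_eq_univ, nhdsWithin_univ] at h4
  rw [h4]

lemma torus_coe (x : Circle × Circle) : (N.torus x).1 = N.toFun (x.1, (x.2 : ℂ)) := rfl

lemma isOpen_inner : IsOpen N.inner :=
  N.isOpenMap _ (isOpen_lt (continuous_norm.comp continuous_snd) continuous_const)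

instance instCompactSpaceExterior : CompactSpace N.Exterior :=
  isCompact_iff_compactSpace.mp N.isOpen_inner.isClosed_compl.isCompact

instance instCompactSpaceFilling (p q a b : ℤ) : CompactSpace (N.Filling p q a b) :=
  inferInstanceAs (CompactSpace (Quot _))

instance instNonemptyFilling (p q a b : ℤ) : Nonempty (N.Filling p q a b) :=
  ⟨Quot.mk _ (Sum.inr (rim 1, 1))⟩

/-! ### The filling along the meridian gives back the sphere -/

/-- The map from the `∞`-filling to the sphere: the inclusion on `E_K`, and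
`(x, z) ↦ N (z⁻¹, x)` on the solid torus. -/
def fillingInftyMap : N.Filling 1 0 0 (-1) → S3 :=
  Quot.lift (Sum.elim (fun e => e.1) (fun v => N.toFun (v.2⁻¹, (v.1 : ℂ)))) (by
    rintro _ _ ⟨u, z, rfl, rfl⟩
    simp [torus, rim])

lemma continuous_fillingInftyMap : Continuous N.fillingInftyMap := by
  refine continuous_quot_lift _ (continuous_subtype_val.sumElim ?_)
  exact N.continuous.comp (continuous_snd.inv.prodMk (continuous_subtype_val.comp continuous_fst))

lemma fillingInfty_mixed (e : N.Exterior) (v : SolidTorus)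
    (h : e.1 = N.toFun (v.2⁻¹, (v.1 : ℂ))) :
    Quot.mk (N.Glue 1 0 0 (-1)) (Sum.inr v) = Quot.mk (N.Glue 1 0 0 (-1)) (Sum.inl e) := by
  have h1 : ‖(v.1 : ℂ)‖ = 1 := by
    have hle : ‖(v.1 : ℂ)‖ ≤ 1 := mem_closedBall_zero_iff.mp v.1.2
    refine le_antisymm hle (not_lt.mp fun hlt => e.2 ?_)
    exact ⟨(v.2⁻¹, (v.1 : ℂ)), hlt, h.symm⟩
  obtain ⟨u, hu⟩ : ∃ u : Circle, (u : ℂ) = v.1 := ⟨⟨v.1, mem_sphere_zero_iff_norm.2 h1⟩, rfl⟩
  refine Quot.sound ⟨u, v.2, ?_, ?_⟩
  · exact congrArg Sum.inr (Prod.ext (Subtype.ext hu.symm) rfl)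
  · refine congrArg Sum.inl (Subtype.ext ?_)
    rw [h, torus_coe, ← hu]
    simp

lemma bijective_fillingInftyMap : Function.Bijective N.fillingInftyMap := by
  constructor
  · rintro ⟨x⟩ ⟨y⟩ h
    rcases x with e | v <;> rcases y with e' | v'
    · exact congrArg (fun t => Quot.mk _ (Sum.inl t)) (Subtype.ext h)
    · exact (N.fillingInfty_mixed e v' h).symm
    · exact N.fillingInfty_mixed e' v h.symm
    · have h1 : ((v.2⁻¹, (v.1 : ℂ)) : Circle × ℂ) = (v'.2⁻¹, (v'.1 : ℂ)) := N.injective h
      have h2 : v = v' := Prod.ext (Subtype.ext (congrArg Prod.snd h1))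
        (inv_injective (congrArg Prod.fst h1))
      rw [h2]
  · intro y
    by_cases hy : y ∈ N.inner
    · obtain ⟨⟨z, w⟩, hw, rfl⟩ := hy
      refine ⟨Quot.mk _ (Sum.inr (⟨w, ?_⟩, z⁻¹)), ?_⟩
      · simpa using (le_of_lt hw)
      · simp [fillingInftyMap]
    · exact ⟨Quot.mk _ (Sum.inl ⟨y, hy⟩), rfl⟩

/-- **Filling along the meridian gives back `S³`.** -/
def fillingInfty : N.Filling 1 0 0 (-1) ≃ₜ S3 :=
  N.continuous_fillingInftyMap.homeoOfEquivCompactToT2
    (f := Equiv.ofBijective _ N.bijective_fillingInftyMap)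

/-- the quotient map `S³ → S³ / νK` -/
def pinchSphere : C(S3, N.Pinched) := ⟨Quot.mk _, continuous_quot_mk⟩

/-- The homeomorphism `fillingInfty` is compatible with the pinching maps: it maps the orientation
of the filling to the orientation of `S³`. -/
lemma pinchSphere_comp_fillingInfty :
    N.pinchSphere.comp (toContinuousMap N.fillingInfty) = N.pinch 1 0 0 (-1) := by
  ext x
  induction x using Quot.ind with
  | mk x =>
    rcases x with e | v
    · rfl
    · refine Quot.sound ⟨⟨_, ?_, rfl⟩, ⟨_, ?_, rfl⟩⟩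
      · exact mem_closedBall_zero_iff.mp v.1.2
      · simp

end Tube

end

end Claimed.Open.R306
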