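import Claimed.Open.R306.Unknot
import Claimed.Open.R306.TubeOpen
import Claimed.Open.R306.CircleDegree

/-!
# The fillings do depend on the slope: `S³_0(U)` is not homeomorphic to `S³`

* `exists_lift_S3`: every map `S³ → S¹` lifts to the real line (two stereographic charts; their overlap is connected);
* `Separate.isEmpty_homeomorph`: the filling of the exterior of the standard unknot along the longitude (the `0`-filling, which is
  `S¹ × S²`) is not homeomorphic to `S³`: the map `(a, b) ↦ b / |b|` of the exterior extends to a map from the filling to the circle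
  which is the identity on the core circle of the filling solid torus.
-/

set_option autoImplicit false

open Set Metric Topology Module

namespace Claimed.Open.R306

noncomputable section

/-! ### Maps from the three-sphere to the circle -/

/-- Away from a point `w`, a map `S³ → S¹` lifts to the real line. -/
lemma exists_lift_compl_singleton (f : C(S3, Circle)) (w : S3) :
    ∃ g : S3 → ℝ, ContinuousOn g {w}ᶜ ∧ ∀ x, x ≠ w → Circle.exp (g x) = f x := by
  set e := stereographic (norm_eq_of_mem_sphere w) with he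
  have hs : e.source = {w}ᶜ := stereographic_source _
  have ht : e.target = univ := stereographic_target _
  have hc : Continuous e.symm := by
    rw [← continuousOn_univ, ← ht]
    exact e.continuousOn_symm
  let F : C(↥(ℝ ∙ (w : EuclideanSpace ℝ (Fin 4)))ᗮ, Circle) := ⟨fun y => f (e.symm y), f.continuous.comp hc⟩
  have hF : F.Nullhomotopic := (id_nullhomotopic _).comp_right F
  obtain ⟨G, hG⟩ := exists_lift_of_nullhomotopic hF
  refine ⟨fun x => G (e x), ?_, fun x hx => ?_⟩
  · rw [← hs]
    exact G.continuous.comp_continuousOn e.continuousOn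
  · have hx' : x ∈ e.source := by rw [hs]; exact hx
    rw [hG]
    change f (e.symm (e x)) = f x
    rw [e.left_inv hx']

attribute [local instance] finrank_E4_fact

lemma ne_neg_S3 (v : S3) : v ≠ -v := by
  intro h
  have h1 : (v : EuclideanSpace ℝ (Fin 4)) = -v := congrArg Subtype.val h
  have h2 : (2 : ℝ) • (v : EuclideanSpace ℝ (Fin 4)) = 0 := by
    rw [two_smul]
    nth_rewrite 2 [h1]
    exact add_neg_cancel _
  exact ne_zero_of_mem_unit_sphere v ((smul_eq_zero.1 h2).resolve_left two_ne_zero)

/-- The sphere minus two antipodal points is connected. -/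
lemma isPreconnected_compl_pair (v : S3) : IsPreconnected ({x : S3 | x ≠ v ∧ x ≠ -v}) := by
  set e := stereographic (norm_eq_of_mem_sphere v) with he
  have hs : e.source = {v}ᶜ := stereographic_source _
  have ht : e.target = univ := stereographic_target _
  have hc : Continuous e.symm := by
    rw [← continuousOn_univ, ← ht]
    exact e.continuousOn_symm
  have h0 : e (-v) = 0 := stereographic_apply_neg v
  have hv0 : (v : EuclideanSpace ℝ (Fin 4)) ≠ 0 := ne_zero_of_mem_unit_sphere v
  have hne : -v ≠ v := (ne_neg_S3 v).symm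
  have hrank : 1 < Module.rank ℝ ↥(ℝ ∙ (v : EuclideanSpace ℝ (Fin 4)))ᗮ := by
    have h3 : finrank ℝ ↥(ℝ ∙ (v : EuclideanSpace ℝ (Fin 4)))ᗮ = 3 :=
      Submodule.finrank_orthogonal_span_singleton hv0
    have := Module.lt_rank_of_lt_finrank (R := ℝ)
      (M := ↥(ℝ ∙ (v : EuclideanSpace ℝ (Fin 4)))ᗮ) (n := 1) (by rw [h3]; norm_num)
    simpa using this
  have hpre := (isConnected_compl_singleton_of_one_lt_rank hrank
    (0 : ↥(ℝ ∙ (v : EuclideanSpace ℝ (Fin 4)))ᗮ)).isPreconnected
  have himg : {x : S3 | x ≠ v ∧ x ≠ -v} = e.symm '' {0}ᶜ := by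
    ext x
    constructor
    · rintro ⟨h1, h2⟩
      have hx : x ∈ e.source := by rw [hs]; exact h1
      refine ⟨e x, ?_, e.left_inv hx⟩
      intro h
      apply h2
      have hnv : -v ∈ e.source := by rw [hs]; exact hne
      exact e.injOn hx hnv ((mem_singleton_iff.1 h).trans h0.symm)
    · rintro ⟨y, hy, rfl⟩
      have hy' : y ∈ e.target := by rw [ht]; trivial
      have hm : e.symm y ∈ e.source := e.map_target hy'
      refine ⟨by rw [hs] at hm; exact hm, fun h => hy ?_⟩
      have := e.right_inv hy'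
      rw [h, h0] at this
      exact this.symm
  rw [himg]
  exact hpre.image _ hc.continuousOn

/-- Two lifts on a connected set differ by a constant. -/
lemma exists_int_of_exp_eq {W : Set S3} (hW : IsPreconnected W) {g₁ g₂ : S3 → ℝ}
    (h₁ : ContinuousOn g₁ W) (h₂ : ContinuousOn g₂ W)
    (h : ∀ x ∈ W, Circle.exp (g₁ x) = Circle.exp (g₂ x)) :
    ∃ m : ℤ, ∀ x ∈ W, g₁ x = g₂ x + m * (2 * Real.pi) := by
  have hm : ∀ x : W, ∃ m : ℤ, g₁ x = g₂ x + m * (2 * Real.pi) := fun x =>
    Circle.exp_eq_exp.mp (h x x.2)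
  choose m hm using hm
  have hcont : Continuous m := by
    rw [Int.isClosedEmbedding_coe_real.isEmbedding.continuous_iff]
    have h2 : (fun x : W => ((m x : ℤ) : ℝ)) = fun x : W => (g₁ x - g₂ x) / (2 * Real.pi) := by
      funext x
      rw [hm x]
      field_simp
      ring
    change Continuous (fun x : W => ((m x : ℤ) : ℝ))
    rw [h2]
    exact ((continuousOn_iff_continuous_domRestrict.1 h₁).sub
      (continuousOn_iff_continuous_domRestrict.1 h₂)).div_const _
  rcases W.eq_empty_or_nonempty with rfl | ⟨w, hw⟩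
  · exact ⟨0, fun x hx => absurd hx (notMem_empty x)⟩
  · refine ⟨m ⟨w, hw⟩, fun x hx => ?_⟩
    have : m ⟨x, hx⟩ = m ⟨w, hw⟩ :=
      PreconnectedSpace.constant (Subtype.preconnectedSpace hW) hcont
    rw [← this]
    exact hm ⟨x, hx⟩

/-- **Every map `S³ → S¹` lifts to the real line.** -/
theorem exists_lift_S3 (f : C(S3, Circle)) : ∃ g : C(S3, ℝ), ∀ x, Circle.exp (g x) = f x := by
  obtain ⟨v⟩ : Nonempty S3 := ⟨mkS3 1 0 (by simp)⟩
  have hne : v ≠ -v := ne_neg_S3 v
  obtain ⟨g₁, c₁, e₁⟩ := exists_lift_compl_singleton f v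
  obtain ⟨g₂, c₂, e₂⟩ := exists_lift_compl_singleton f (-v)
  obtain ⟨m, hm⟩ := exists_int_of_exp_eq (isPreconnected_compl_pair v)
    (c₁.mono fun x hx => hx.1) (c₂.mono fun x hx => hx.2)
    (fun x hx => by rw [e₁ x hx.1, e₂ x hx.2])
  classical
  let g : S3 → ℝ := fun x => if x = v then g₂ x + m * (2 * Real.pi) else g₁ x
  have hg2 : ∀ x, x ≠ -v → g x = g₂ x + m * (2 * Real.pi) := by
    intro x hx
    by_cases h : x = v
    · simp [g, h]
    · simp only [g, h, if_false]
      exact hm x ⟨h, hx⟩
  have hg1 : ∀ x, x ≠ v → g x = g₁ x := fun x hx => by simp [g, hx]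
  have hcont : Continuous g := by
    rw [continuous_iff_continuousAt]
    intro x
    by_cases h : x = v
    · have ho : ({-v}ᶜ : Set S3) ∈ 𝓝 x := isOpen_compl_singleton.mem_nhds (by rw [h]; exact hne)
      have h1 : ContinuousAt (fun y => g₂ y + m * (2 * Real.pi)) x :=
        (c₂.continuousAt ho).add continuousAt_const
      exact h1.congr (Filter.eventuallyEq_of_mem ho fun y hy => (hg2 y hy).symm)
    · have ho : ({v}ᶜ : Set S3) ∈ 𝓝 x := isOpen_compl_singleton.mem_nhds h
      exact (c₁.continuousAt ho).congr (Filter.eventuallyEq_of_mem ho fun y hy => (hg1 y hy).symm)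
  refine ⟨⟨g, hcont⟩, fun x => ?_⟩
  change Circle.exp (g x) = f x
  by_cases h : x = v
  · have hx : x ≠ -v := by rw [h]; exact hne
    rw [hg2 x hx, Circle.exp_add, Circle.exp_int_mul_two_pi, mul_one, e₂ x hx]
  · rw [hg1 x h, e₁ x h]

/-- Every map `S³ → S¹` is null-homotopic. -/
theorem nullhomotopic_of_S3 (f : C(S3, Circle)) : f.Nullhomotopic := by
  obtain ⟨g, hg⟩ := exists_lift_S3 f
  have h1 : g.Nullhomotopic := (id_nullhomotopic ℝ).comp_left g
  have h2 : f = (Circle.exp : C(ℝ, Circle)).comp g := by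
    ext x
    simp [hg]
  rw [h2]
  exact h1.comp_right _

/-! ### The filling of the unknot along the longitude -/

namespace Separate

open Unknot

/-- the map from the `0`-filling to the circle -/
def toCircle : C(data.tube.Filling 0 1 1 0, Circle) where
  toFun := Quot.lift (Sum.elim θ (fun v => v.2)) (by
    rintro _ _ ⟨u, z, rfl, rfl⟩
    have h : csnd (data.φ (u ^ (1 : ℤ) * z ^ (0 : ℤ), ((u ^ (0 : ℤ) * z ^ (1 : ℤ) : Circle) : ℂ))) =
        sc ((u ^ (0 : ℤ) * z ^ (1 : ℤ) : Circle) : ℂ) • ((u ^ (0 : ℤ) * z ^ (1 : ℤ) : Circle) : ℂ) :=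
      csnd_φ _
    change z = unitOf (csnd (data.φ (u ^ (1 : ℤ) * z ^ (0 : ℤ),
      ((u ^ (0 : ℤ) * z ^ (1 : ℤ) : Circle) : ℂ))))
    rw [h, unitOf_smul (sc_pos _), unitOf_coe]
    simp)
  continuous_toFun := continuous_quot_lift _ (θ.continuous.sumElim continuous_snd)

/-- the core circle of the filling solid torus -/
def core : C(Circle, data.tube.Filling 0 1 1 0) where
  toFun z := Quot.mk _ (Sum.inr (⟨0, by simp⟩, z))
  continuous_toFun := continuous_quot_mk.comp
    (continuous_inr.comp (continuous_const.prodMk continuous_id))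

lemma toCircle_comp_core : toCircle.comp core = ContinuousMap.id Circle := rfl

/-- **The `0`-filling of the exterior of the unknot is not homeomorphic to `S³`.** -/
theorem isEmpty_homeomorph : IsEmpty (data.tube.Filling 0 1 1 0 ≃ₜ S3) := by
  refine ⟨fun h => ?_⟩
  have h1 : (toCircle.comp (toContinuousMap h.symm)).Nullhomotopic := nullhomotopic_of_S3 _
  have h2 := h1.comp_left ((toContinuousMap h).comp core)
  have h3 : (toCircle.comp (toContinuousMap h.symm)).comp ((toContinuousMap h).comp core) =
      zpowMap 1 := by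
    ext z
    change ((toCircle (h.symm (h (core z))) : Circle) : ℂ) = ((z ^ (1 : ℤ) : Circle) : ℂ)
    rw [Homeomorph.symm_apply_apply, zpow_one]
    rfl
  rw [h3] at h2
  exact one_ne_zero (eq_zero_of_nullhomotopic_zpowMap h2)

end Separate

end

end Claimed.Open.R306
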