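import Claimed.Open.R306.SanityFillingT2

/-!
# The fillings are closed three-manifolds

Let `N` be a tube of a knot `K` and `q a - p b = 1`.  The filling `N.Filling p q a b` (a compact Hausdorff space by `TubeOpen.lean` and
`SanityFillingT2.lean`) is covered by two open subsets:

* `Tube.isOpenEmbedding_openSolid`: an open solid torus `{|x| < 2} × S¹`: the filling solid torus `D² × S¹` together with the collar
  `N (S¹ × {1 ≤ |w| < 2})` of the boundary of the exterior, in polar coordinates;
* `Tube.isOpenEmbedding_openExterior`: the open subset `S³ ∖ νK` of the three-sphere;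
* `Tube.range_openSolid_union`: they cover the filling.

Both are three-manifolds without boundary, so the filling is a closed three-manifold:

* `Tube.locallyEuclidean3_filling`: every point of the filling lies in the domain of a chart with values in `ℝ³`;
* `Tube.nonempty_chartedSpace_filling`: the filling is a `ChartedSpace` over `EuclideanSpace ℝ (Fin 3)`.
-/

set_option autoImplicit false

open Set Metric Topology

namespace Claimed.Open.R306

noncomputable section

namespace Tube

/-- the radial retraction of the plane onto the closed unit disc -/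
def clamp (x : ℂ) : closedBall (0 : ℂ) 1 :=
  ⟨(max 1 ‖x‖)⁻¹ • x, by
    rw [mem_closedBall_zero_iff, norm_smul, norm_inv, Real.norm_eq_abs,
      abs_of_pos (by positivity), inv_mul_le_iff₀ (by positivity), mul_one]
    exact le_max_right _ _⟩

lemma continuous_clamp : Continuous clamp := by
  have h1 : Continuous fun x : ℂ => max 1 ‖x‖ := continuous_const.max continuous_norm
  have h2 : Continuous fun x : ℂ => (max 1 ‖x‖)⁻¹ := h1.inv₀ (fun x => by positivity)
  exact Continuous.subtype_mk (h2.smul continuous_id) _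

lemma clamp_of_le {x : ℂ} (h : ‖x‖ ≤ 1) : (clamp x : ℂ) = x := by
  simp [clamp, max_eq_left h]

lemma continuousOn_unitOf : ContinuousOn unitOf {c | c ≠ 0} :=
  (IsInducing.subtypeVal.continuousOn_iff).2 contDiffOn_coe_unitOf.continuousOn

lemma clamp_eq_rim {x : ℂ} (h : ‖x‖ = 1) : clamp x = rim (unitOf x) := by
  apply Subtype.ext
  have hx : x ≠ 0 := by
    rintro rfl
    simp at h
  rw [clamp_of_le h.le]
  change x = (unitOf x : ℂ)
  rw [coe_unitOf hx, h]
  simp

variable {K : Set S3} (N : Tube K) (p q a b : ℤ)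

lemma norm_max_smul (x : ℂ) (Y : Circle) : ‖(max 1 ‖x‖) • (Y : ℂ)‖ = max 1 ‖x‖ := by
  rw [norm_smul, Circle.norm_coe, mul_one, Real.norm_eq_abs, abs_of_pos (by positivity)]

/-- the collar of the boundary of the exterior, in the polar coordinates of the filling solid torus -/
def outer (y : ℂ × Circle) : N.Exterior :=
  ⟨N.toFun (unitOf y.1 ^ q * y.2 ^ b,
      (max 1 ‖y.1‖) • ((unitOf y.1 ^ p * y.2 ^ a : Circle) : ℂ)), by
    rintro ⟨w, hw, hwy⟩
    rw [N.injective hwy] at hw
    change ‖(max 1 ‖y.1‖) • ((unitOf y.1 ^ p * y.2 ^ a : Circle) : ℂ)‖ < 1 at hw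
    rw [norm_max_smul] at hw
    exact absurd hw (not_lt.mpr (le_max_left _ _))⟩

lemma continuousOn_outer : ContinuousOn (N.outer p q a b) {y | 1 ≤ ‖y.1‖} := by
  have hu : ContinuousOn (fun y : ℂ × Circle => unitOf y.1) {y | 1 ≤ ‖y.1‖} :=
    continuousOn_unitOf.comp continuous_fst.continuousOn (fun y hy h0 => by
      have hy' : 1 ≤ ‖y.1‖ := hy
      rw [h0, norm_zero] at hy'
      exact absurd hy' (by norm_num))
  have hz : ContinuousOn (fun y : ℂ × Circle => y.2) {y | 1 ≤ ‖y.1‖} := continuous_snd.continuousOn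
  have h1 : ContinuousOn (fun y : ℂ × Circle => unitOf y.1 ^ q * y.2 ^ b) {y | 1 ≤ ‖y.1‖} :=
    (hu.zpow q).mul (hz.zpow b)
  have h2 : ContinuousOn (fun y : ℂ × Circle => unitOf y.1 ^ p * y.2 ^ a) {y | 1 ≤ ‖y.1‖} :=
    (hu.zpow p).mul (hz.zpow a)
  have h3 : ContinuousOn (fun y : ℂ × Circle => ((unitOf y.1 ^ p * y.2 ^ a : Circle) : ℂ))
      {y | 1 ≤ ‖y.1‖} := continuous_subtype_val.comp_continuousOn h2
  have h4 : ContinuousOn (fun y : ℂ × Circle => max 1 ‖y.1‖) {y | 1 ≤ ‖y.1‖} :=
    (continuous_const.max (continuous_norm.comp continuous_fst)).continuousOn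
  exact (IsInducing.subtypeVal.continuousOn_iff).2 (N.continuous.comp_continuousOn
    (h1.prodMk (h4.smul h3)))

/-- the map from `ℂ × S¹` to the filling: the filling solid torus on `|x| ≤ 1`, the collar of the exterior on `|x| ≥ 1` -/
def ext2 (y : ℂ × Circle) : N.Filling p q a b :=
  if ‖y.1‖ ≤ 1 then N.solidToFilling p q a b (clamp y.1, y.2)
  else N.exteriorToFilling p q a b (N.outer p q a b y)

lemma solid_clamp_eq (y : ℂ × Circle) (h : ‖y.1‖ = 1) :
    N.solidToFilling p q a b (clamp y.1, y.2) = N.exteriorToFilling p q a b (N.outer p q a b y) := by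
  rw [clamp_eq_rim h, solidToFilling_rim]
  congr 1
  apply Subtype.ext
  change N.toFun _ = N.toFun _
  rw [h, max_self, one_smul]

variable {p q a b} in
lemma ext2_of_le {y : ℂ × Circle} (h : ‖y.1‖ ≤ 1) :
    N.ext2 p q a b y = N.solidToFilling p q a b (clamp y.1, y.2) := if_pos h

variable {p q a b} in
lemma ext2_of_ge {y : ℂ × Circle} (h : 1 ≤ ‖y.1‖) :
    N.ext2 p q a b y = N.exteriorToFilling p q a b (N.outer p q a b y) := by
  rcases h.lt_or_eq with h1 | h1
  · exact if_neg (not_le.mpr h1)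
  · rw [ext2_of_le N h1.ge, solid_clamp_eq _ _ _ _ _ _ h1.symm]

lemma continuous_ext2 : Continuous (N.ext2 p q a b) := by
  refine continuous_if_le (continuous_norm.comp continuous_fst) continuous_const ?_ ?_ ?_
  · exact ((N.solidToFilling p q a b).continuous.comp
      ((continuous_clamp.comp continuous_fst).prodMk continuous_snd)).continuousOn
  · exact (N.exteriorToFilling p q a b).continuous.comp_continuousOn (N.continuousOn_outer p q a b)
  · intro y hy
    exact N.solid_clamp_eq p q a b y hy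

variable {p q a b}

/-- a point of the exterior which lies in the filling solid torus lies on the peripheral torus -/
lemma exists_torus_of_eq (h : q * a - p * b = 1) {e : N.Exterior} {v : SolidTorus}
    (hev : N.solidToFilling p q a b v = N.exteriorToFilling p q a b e) : ∃ t, N.torus t = e := by
  have h1 : N.exteriorToFilling p q a b e ∈
      range (N.exteriorToFilling p q a b) ∩ range (N.solidToFilling p q a b) := ⟨⟨e, rfl⟩, ⟨v, hev⟩⟩
  rw [N.range_exteriorToFilling_inter h] at h1
  obtain ⟨t, ht⟩ := h1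
  exact ⟨t, N.exteriorToFilling_injective p q a b ht⟩

lemma outer_ne_torus {y : ℂ × Circle} (hy : 1 < ‖y.1‖) (t : Circle × Circle) :
    N.torus t ≠ N.outer p q a b y := by
  intro h
  have h1 : ((t.1, (t.2 : ℂ)) : Circle × ℂ) = (unitOf y.1 ^ q * y.2 ^ b,
      (max 1 ‖y.1‖) • ((unitOf y.1 ^ p * y.2 ^ a : Circle) : ℂ)) :=
    N.injective (congrArg Subtype.val h)
  have h2 : (t.2 : ℂ) = (max 1 ‖y.1‖) • ((unitOf y.1 ^ p * y.2 ^ a : Circle) : ℂ) :=
    congrArg Prod.snd h1
  have h3 := congrArg norm h2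
  rw [norm_max_smul, Circle.norm_coe, max_eq_right hy.le] at h3
  exact absurd h3 hy.ne

lemma ext2_injective (h : q * a - p * b = 1) : Function.Injective (N.ext2 p q a b) := by
  rintro ⟨x, z⟩ ⟨x', z'⟩ hxx
  rcases le_or_gt ‖x‖ 1 with hx | hx <;> rcases le_or_gt ‖x'‖ 1 with hx' | hx'
  · rw [N.ext2_of_le (y := (x, z)) hx, N.ext2_of_le (y := (x', z')) hx'] at hxx
    have h0 := N.solidToFilling_injective h hxx
    have h1 : (clamp x : ℂ) = clamp x' := congrArg (fun v : SolidTorus => (v.1 : ℂ)) h0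
    rw [clamp_of_le hx, clamp_of_le hx'] at h1
    have h2 : z = z' := congrArg (fun v : SolidTorus => v.2) h0
    exact Prod.ext h1 h2
  · rw [N.ext2_of_le (y := (x, z)) hx, N.ext2_of_ge (y := (x', z')) hx'.le] at hxx
    obtain ⟨t, ht⟩ := N.exists_torus_of_eq h hxx
    exact absurd ht (N.outer_ne_torus (y := (x', z')) hx' t)
  · rw [N.ext2_of_ge (y := (x, z)) hx.le, N.ext2_of_le (y := (x', z')) hx'] at hxx
    obtain ⟨t, ht⟩ := N.exists_torus_of_eq h hxx.symm
    exact absurd ht (N.outer_ne_torus (y := (x, z)) hx t)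
  · rw [N.ext2_of_ge (y := (x, z)) hx.le, N.ext2_of_ge (y := (x', z')) hx'.le] at hxx
    have h0 := N.exteriorToFilling_injective p q a b hxx
    have h1 : ((unitOf x ^ q * z ^ b, (max 1 ‖x‖) • ((unitOf x ^ p * z ^ a : Circle) : ℂ)) :
        Circle × ℂ) = (unitOf x' ^ q * z' ^ b,
          (max 1 ‖x'‖) • ((unitOf x' ^ p * z' ^ a : Circle) : ℂ)) :=
      N.injective (congrArg Subtype.val h0)
    have hX : unitOf x ^ q * z ^ b = unitOf x' ^ q * z' ^ b := congrArg Prod.fst h1
    have h2 : (max 1 ‖x‖) • ((unitOf x ^ p * z ^ a : Circle) : ℂ) =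
        (max 1 ‖x'‖) • ((unitOf x' ^ p * z' ^ a : Circle) : ℂ) := congrArg Prod.snd h1
    have h3 := congrArg norm h2
    rw [norm_max_smul, norm_max_smul, max_eq_right hx.le, max_eq_right hx'.le] at h3
    rw [max_eq_right hx.le, max_eq_right hx'.le, h3] at h2
    have hr : ‖x'‖ ≠ 0 := by positivity
    have hY : unitOf x ^ p * z ^ a = unitOf x' ^ p * z' ^ a :=
      Subtype.ext (smul_right_injective ℂ hr h2)
    have hu : unitOf x = unitOf x' := by
      rw [← glue_inv_fst h (unitOf x) z, hX, hY, glue_inv_fst h]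
    have hz : z = z' := by rw [← glue_inv_snd h (unitOf x) z, hX, hY, glue_inv_snd h]
    have hx0 : x ≠ 0 := by
      rintro rfl
      simp at hx
      linarith
    have hx0' : x' ≠ 0 := by
      rintro rfl
      simp at hx'
      linarith
    have hxe : x = x' := by rw [← norm_smul_unitOf hx0, ← norm_smul_unitOf hx0', hu, h3]
    exact Prod.ext hxe hz

/-- the inverse of the gluing matrix is a right inverse, first coordinate -/
lemma glue_inv_fst' (h : q * a - p * b = 1) (X Y : Circle) :
    (X ^ a * Y ^ (-b)) ^ q * (X ^ (-p) * Y ^ q) ^ b = X := by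
  have := glue_inv_fst (p := -p) (q := a) (a := q) (b := -b) (by rw [← h]; ring) X Y
  rwa [zpow_neg (X ^ (-p) * Y ^ q) b, inv_inv] at this

/-- the inverse of the gluing matrix is a right inverse, second coordinate -/
lemma glue_inv_snd' (h : q * a - p * b = 1) (X Y : Circle) :
    (X ^ a * Y ^ (-b)) ^ p * (X ^ (-p) * Y ^ q) ^ a = Y := by
  have := glue_inv_snd (p := -p) (q := a) (a := q) (b := -b) (by rw [← h]; ring) X Y
  rwa [zpow_neg (X ^ a * Y ^ (-b)) p, inv_inv] at this

/-- every point of the collar is in the image of `ext2` -/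
lemma exists_ext2_eq (h : q * a - p * b = 1) (e : N.Exterior) (X : Circle) (w : ℂ)
    (hw : e.1 = N.toFun (X, w)) :
    ∃ y : ℂ × Circle, ‖y.1‖ = ‖w‖ ∧ N.ext2 p q a b y = N.exteriorToFilling p q a b e := by
  have h1 : 1 ≤ ‖w‖ := by
    by_contra hlt
    exact e.2 ⟨(X, w), not_le.mp hlt, hw.symm⟩
  have hw0 : w ≠ 0 := by
    rintro rfl
    simp at h1
    linarith
  have hpos : 0 < ‖w‖ := by positivity
  set u : Circle := X ^ a * unitOf w ^ (-b) with hu
  set z : Circle := X ^ (-p) * unitOf w ^ q with hz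
  have hn : ‖‖w‖ • (u : ℂ)‖ = ‖w‖ := by
    rw [norm_smul, Circle.norm_coe, mul_one, Real.norm_eq_abs, abs_of_pos hpos]
  refine ⟨(‖w‖ • (u : ℂ), z), hn, ?_⟩
  rw [N.ext2_of_ge (y := (‖w‖ • (u : ℂ), z)) (by rw [hn]; exact h1)]
  congr 1
  apply Subtype.ext
  rw [hw]
  change N.toFun (unitOf (‖w‖ • (u : ℂ)) ^ q * z ^ b,
    (max 1 ‖‖w‖ • (u : ℂ)‖) • ((unitOf (‖w‖ • (u : ℂ)) ^ p * z ^ a : Circle) : ℂ)) = _
  rw [unitOf_smul hpos, unitOf_coe, hn, max_eq_right h1, hu, hz, glue_inv_fst' h, glue_inv_snd' h,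
    norm_smul_unitOf hw0]

variable (p q a b)

/-- the open solid torus `{|x| < 2} × S¹` in the filling -/
def openSolid (y : ball (0 : ℂ) 2 × Circle) : N.Filling p q a b := N.ext2 p q a b ((y.1 : ℂ), y.2)

/-- the open subset `S³ ∖ νK` of the sphere in the filling -/
def openExterior (e : ↥(N.solid)ᶜ) : N.Filling p q a b :=
  N.exteriorToFilling p q a b ⟨e.1, fun h => e.2 (by
    obtain ⟨y, hy, hye⟩ := h
    have hy' : ‖y.2‖ < 1 := hy
    exact ⟨y, hy'.le, hye⟩)⟩

variable {p q a b}

lemma isEmbedding_openSolid (h : q * a - p * b = 1) : IsEmbedding (N.openSolid p q a b) := by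
  let c : closedBall (0 : ℂ) 2 × Circle → N.Filling p q a b := fun y => N.ext2 p q a b ((y.1 : ℂ), y.2)
  have hc : Continuous c := (N.continuous_ext2 p q a b).comp
    ((continuous_subtype_val.comp continuous_fst).prodMk continuous_snd)
  have hinj : Function.Injective c := by
    rintro ⟨x, z⟩ ⟨x', z'⟩ hxx
    have h1 := N.ext2_injective h hxx
    have h2 : (x : ℂ) = x' := congrArg Prod.fst h1
    have h3 : z = z' := congrArg Prod.snd h1
    exact Prod.ext (Subtype.ext h2) h3
  have h1 : IsEmbedding c := (hc.isClosedEmbedding hinj).isEmbedding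
  have h2 : IsEmbedding (Prod.map (inclusion (ball_subset_closedBall (x := (0 : ℂ)) (ε := 2)))
      (id : Circle → Circle)) := (IsEmbedding.inclusion _).prodMap IsEmbedding.id
  exact h1.comp h2

lemma range_openSolid (h : q * a - p * b = 1) :
    range (N.openSolid p q a b) =
      (N.exteriorToFilling p q a b '' {e | e.1 ∉ N.toFun '' {y | ‖y.2‖ < 2}})ᶜ := by
  ext x
  constructor
  · rintro ⟨⟨⟨x₀, hx₀⟩, z⟩, rfl⟩ ⟨e, he, hex⟩
    have hlt : ‖x₀‖ < 2 := mem_ball_zero_iff.mp hx₀
    change N.exteriorToFilling p q a b e = N.ext2 p q a b (x₀, z) at hex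
    apply he
    rcases le_or_gt ‖x₀‖ 1 with hx | hx
    · rw [N.ext2_of_le (y := (x₀, z)) hx] at hex
      obtain ⟨t, rfl⟩ := N.exists_torus_of_eq h hex.symm
      exact ⟨(t.1, (t.2 : ℂ)), by simp [Circle.norm_coe], rfl⟩
    · rw [N.ext2_of_ge (y := (x₀, z)) hx.le] at hex
      rw [N.exteriorToFilling_injective p q a b hex]
      refine ⟨_, ?_, rfl⟩
      change ‖(max 1 ‖x₀‖) • ((unitOf x₀ ^ p * z ^ a : Circle) : ℂ)‖ < 2
      rw [norm_max_smul, max_eq_right hx.le]
      exact hlt
  · intro hx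
    rcases N.exists_rep p q a b x with ⟨e, rfl⟩ | ⟨v, hv, rfl⟩
    · by_cases he : e.1 ∈ N.toFun '' {y | ‖y.2‖ < 2}
      · obtain ⟨⟨X, w⟩, hw, hXw⟩ := he
        obtain ⟨y, hy, hye⟩ := N.exists_ext2_eq h e X w hXw.symm
        exact ⟨(⟨y.1, mem_ball_zero_iff.mpr (by rw [hy]; exact hw)⟩, y.2), hye⟩
      · exact absurd ⟨e, he, rfl⟩ hx
    · refine ⟨(⟨(v.1 : ℂ), mem_ball_zero_iff.mpr (by linarith)⟩, v.2), ?_⟩
      change N.ext2 p q a b ((v.1 : ℂ), v.2) = _
      rw [N.ext2_of_le (y := ((v.1 : ℂ), v.2)) hv.le]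
      congr 1
      exact Prod.ext (Subtype.ext (clamp_of_le hv.le)) rfl

/-- **The filling solid torus together with a collar of the exterior is an open solid torus in the filling.** -/
theorem isOpenEmbedding_openSolid (h : q * a - p * b = 1) :
    IsOpenEmbedding (N.openSolid p q a b) := by
  refine ⟨N.isEmbedding_openSolid h, ?_⟩
  rw [N.range_openSolid h, isOpen_compl_iff]
  apply (N.isClosedEmbedding_exteriorToFilling p q a b).isClosedMap
  have h1 : IsOpen (N.toFun '' {y | ‖y.2‖ < 2}) :=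
    N.isOpenMap _ (isOpen_lt (continuous_norm.comp continuous_snd) continuous_const)
  exact (h1.preimage continuous_subtype_val).isClosed_compl

lemma range_openExterior (h : q * a - p * b = 1) :
    range (N.openExterior p q a b) = (range (N.solidToFilling p q a b))ᶜ := by
  ext x
  constructor
  · rintro ⟨e, rfl⟩ ⟨v, hv⟩
    obtain ⟨t, ht⟩ := N.exists_torus_of_eq h hv
    apply e.2
    have h1 : N.toFun (t.1, (t.2 : ℂ)) = e.1 := congrArg Subtype.val ht
    exact ⟨(t.1, (t.2 : ℂ)), by simp [Circle.norm_coe], h1⟩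
  · intro hx
    rcases N.exists_rep p q a b x with ⟨e, rfl⟩ | ⟨v, -, rfl⟩
    · refine ⟨⟨e.1, fun he => hx ?_⟩, rfl⟩
      obtain ⟨⟨X, w⟩, hw, hXw⟩ := he
      obtain ⟨y, hy, hye⟩ := N.exists_ext2_eq h e X w hXw.symm
      have hy1 : ‖y.1‖ ≤ 1 := by rw [hy]; exact hw
      rw [N.ext2_of_le hy1] at hye
      exact ⟨_, hye⟩
    · exact absurd ⟨v, rfl⟩ hx

/-- **The open subset `S³ ∖ νK` of the sphere is an open subset of the filling.** -/
theorem isOpenEmbedding_openExterior (h : q * a - p * b = 1) :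
    IsOpenEmbedding (N.openExterior p q a b) := by
  refine ⟨?_, ?_⟩
  · have h1 : (N.solid)ᶜ ⊆ (N.inner)ᶜ := by
      intro x hx hx'
      obtain ⟨y, hy, rfl⟩ := hx'
      have hy' : ‖y.2‖ < 1 := hy
      exact hx ⟨y, hy'.le, rfl⟩
    exact (N.isClosedEmbedding_exteriorToFilling p q a b).isEmbedding.comp (IsEmbedding.inclusion h1)
  · rw [N.range_openExterior h, isOpen_compl_iff]
    exact (isCompact_range (N.solidToFilling p q a b).continuous).isClosed

/-- The two open subsets cover the filling. -/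
theorem range_openSolid_union (h : q * a - p * b = 1) :
    range (N.openSolid p q a b) ∪ range (N.openExterior p q a b) = univ := by
  refine eq_univ_of_forall fun x => ?_
  by_cases hx : x ∈ range (N.solidToFilling p q a b)
  · left
    obtain ⟨v, rfl⟩ := hx
    have hv : ‖(v.1 : ℂ)‖ ≤ 1 := mem_closedBall_zero_iff.mp v.1.2
    refine ⟨(⟨(v.1 : ℂ), mem_ball_zero_iff.mpr (by linarith)⟩, v.2), ?_⟩
    change N.ext2 p q a b ((v.1 : ℂ), v.2) = _
    rw [N.ext2_of_le (y := ((v.1 : ℂ), v.2)) hv]
    congr 1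
    exact Prod.ext (Subtype.ext (clamp_of_le hv)) rfl
  · right
    rw [N.range_openExterior h]
    exact hx

end Tube

/-! ### Charts -/

/-- every point lies in the domain of a chart with values in `ℝ³` -/
def LocallyEuclidean3 (X : Type*) [TopologicalSpace X] : Prop :=
  ∀ x : X, ∃ φ : OpenPartialHomeomorph X (EuclideanSpace ℝ (Fin 3)), x ∈ φ.source

lemma locallyEuclidean3_S3 : LocallyEuclidean3 S3 := fun x =>
  ⟨chartAt (EuclideanSpace ℝ (Fin 3)) x, mem_chart_source _ x⟩

lemma locallyEuclidean3_prod : LocallyEuclidean3 (ℂ × Circle) := by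
  have hfin : Module.finrank ℝ (ℂ × EuclideanSpace ℝ (Fin 1)) =
      Module.finrank ℝ (EuclideanSpace ℝ (Fin 3)) := by
    rw [Module.finrank_prod]
    simp [Complex.finrank_real_complex]
  let L : (ℂ × EuclideanSpace ℝ (Fin 1)) ≃L[ℝ] EuclideanSpace ℝ (Fin 3) :=
    ContinuousLinearEquiv.ofFinrankEq hfin
  intro x
  refine ⟨(chartAt (ModelProd ℂ (EuclideanSpace ℝ (Fin 1))) x).trans
    L.toHomeomorph.toOpenPartialHomeomorph, ?_⟩
  simp

/-- The domain of an open embedding into a locally Euclidean space is locally Euclidean. -/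
lemma LocallyEuclidean3.of_isOpenEmbedding {X Y : Type*} [TopologicalSpace X] [TopologicalSpace Y]
    (hY : LocallyEuclidean3 Y) {c : X → Y} (hc : IsOpenEmbedding c) : LocallyEuclidean3 X := by
  intro x
  have : Nonempty X := ⟨x⟩
  obtain ⟨ψ, hψ⟩ := hY (c x)
  exact ⟨(hc.toOpenPartialHomeomorph c).trans ψ, by simpa using hψ⟩

/-- The points of the range of an open embedding of a locally Euclidean space lie in the domain of a chart. -/
lemma LocallyEuclidean3.exists_chart {X Y : Type*} [TopologicalSpace X] [TopologicalSpace Y]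
    (hX : LocallyEuclidean3 X) {c : X → Y} (hc : IsOpenEmbedding c) (x : X) :
    ∃ φ : OpenPartialHomeomorph Y (EuclideanSpace ℝ (Fin 3)), c x ∈ φ.source := by
  have : Nonempty X := ⟨x⟩
  obtain ⟨ψ, hψ⟩ := hX x
  refine ⟨(hc.toOpenPartialHomeomorph c).symm.trans ψ, ?_⟩
  rw [OpenPartialHomeomorph.trans_source]
  refine ⟨⟨x, mem_univ _, rfl⟩, ?_⟩
  change (hc.toOpenPartialHomeomorph c).symm ((hc.toOpenPartialHomeomorph c) x) ∈ ψ.source
  rw [(hc.toOpenPartialHomeomorph c).left_inv (by simp)]
  exact hψ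

namespace Tube

variable {K : Set S3} (N : Tube K) {p q a b : ℤ}

/-- **Every filling with a gluing matrix of determinant one is locally Euclidean of dimension three.** -/
theorem locallyEuclidean3_filling (h : q * a - p * b = 1) :
    LocallyEuclidean3 (N.Filling p q a b) := by
  have h1 : LocallyEuclidean3 (ball (0 : ℂ) 2 × Circle) :=
    locallyEuclidean3_prod.of_isOpenEmbedding
      (c := Prod.map (Subtype.val : ball (0 : ℂ) 2 → ℂ) (id : Circle → Circle))
      (isOpen_ball.isOpenEmbedding_subtypeVal.prodMap IsOpenEmbedding.id)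
  have hs : IsClosed N.solid := by
    have hc : IsCompact {x : Circle × ℂ | ‖x.2‖ ≤ 1} := by
      have : {x : Circle × ℂ | ‖x.2‖ ≤ 1} = univ ×ˢ closedBall (0 : ℂ) 1 := by
        ext x
        simp
      rw [this]
      exact isCompact_univ.prod (isCompact_closedBall _ _)
    exact (hc.image N.continuous).isClosed
  have h2 : LocallyEuclidean3 ↥(N.solid)ᶜ :=
    locallyEuclidean3_S3.of_isOpenEmbedding hs.isOpen_compl.isOpenEmbedding_subtypeVal
  intro x
  have hx : x ∈ range (N.openSolid p q a b) ∪ range (N.openExterior p q a b) := by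
    rw [N.range_openSolid_union h]
    trivial
  rcases hx with ⟨y, rfl⟩ | ⟨e, rfl⟩
  · exact h1.exists_chart (N.isOpenEmbedding_openSolid h) y
  · exact h2.exists_chart (N.isOpenEmbedding_openExterior h) e

/-- Every filling with a gluing matrix of determinant one is a topological manifold modelled on `ℝ³`, in the sense of Mathlib. -/
theorem nonempty_chartedSpace_filling (h : q * a - p * b = 1) :
    Nonempty (ChartedSpace (EuclideanSpace ℝ (Fin 3)) (N.Filling p q a b)) :=
  ⟨{ atlas := univ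
     chartAt := fun x => (N.locallyEuclidean3_filling h x).choose
     mem_chart_source := fun x => (N.locallyEuclidean3_filling h x).choose_spec
     chart_mem_atlas := fun _ => mem_univ _ }⟩

end Tube

end

end Claimed.Open.R306
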