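import Claimed.Open.R306.SanityLens
import Claimed.Open.R306.SanityFillingManifold

/-!
# For every knot: a simply connected surgery has slope `± 1 / q`

Let `N` be a tube of an arbitrary knot `K` with the preferred longitude.

* `Tube.locallyPathConnectedSpace_filling`: every filling with a gluing matrix of determinant one is locally path connected (it is a manifold);
* `nullhomotopic_of_simplyConnectedSpace`: every map from a simply connected, locally path connected space to the circle is null-homotopic;
* `Tube.eq_one_or_neg_one_of_simplyConnectedSpace`: if the filling along `p μ + q λ`, `p ≠ 0`, is simply connected, then `p = ± 1`: the map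
  to the lens space `S³ / μ_p` of `Tube.exists_lensMap` would lift to `S³`.

This is stronger than `Tube.eq_one_or_neg_one_of_homeomorph`: no homeomorphism with `S³` is asked for.
-/

set_option autoImplicit false

open Set Topology

namespace Claimed.Open.R306

noncomputable section

/-- Every map from a simply connected, locally path connected space to the circle is null-homotopic. -/
theorem nullhomotopic_of_simplyConnectedSpace {X : Type*} [TopologicalSpace X] [SimplyConnectedSpace X]
    [LocallyPathConnectedSpace X] (f : C(X, Circle)) : f.Nullhomotopic := by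
  obtain ⟨x₀⟩ : Nonempty X := inferInstance
  obtain ⟨t, ht⟩ := Circle.exp_surjective (f x₀)
  obtain ⟨g, ⟨-, hg⟩, -⟩ := Circle.isCoveringMap_exp.existsUnique_continuousMap_lifts f x₀ t ht
  exact ZeroInfty.nullhomotopic_of_lift g (fun x => congrFun hg x)

namespace Tube

open Lens

variable {K : Set S3} (N : Tube K)

/-- Every filling with a gluing matrix of determinant one is locally path connected. -/
theorem locallyPathConnectedSpace_filling {p q a b : ℤ} (h : q * a - p * b = 1) :
    LocallyPathConnectedSpace (N.Filling p q a b) := by
  obtain ⟨_⟩ := N.nonempty_chartedSpace_filling h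
  exact ChartedSpace.locallyPathConnectedSpace (EuclideanSpace ℝ (Fin 3)) _

/-- **For every knot and every tube with the preferred longitude: if the filling along `p μ + q λ`, `p ≠ 0`, is simply connected, then
`p = ± 1`.** -/
theorem eq_one_or_neg_one_of_simplyConnectedSpace (h : N.IsPreferred) {p q a b : ℤ} (hp : p ≠ 0)
    (hd : q * a - p * b = 1) [SimplyConnectedSpace (N.Filling p q a b)] : p = 1 ∨ p = -1 := by
  obtain ⟨θ, hμ, hl⟩ := h
  obtain ⟨F, hF⟩ := N.exists_lensMap θ hμ hl hp q a b
  have := N.locallyPathConnectedSpace_filling hd
  obtain ⟨x₀⟩ : Nonempty (N.Filling p q a b) := inferInstance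
  obtain ⟨y₀, hy₀⟩ := QuotientGroup.mk_surjective (F x₀)
  obtain ⟨G, ⟨-, hG⟩, -⟩ := (isCoveringMap_mk hp).existsUnique_continuousMap_lifts F x₀ y₀ hy₀
  exact N.eq_one_or_neg_one_of_lift θ hμ hp q a b F hF G (fun x => congrFun hG x)

end Tube

end

end Claimed.Open.R306
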