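import Claimed.Open.R306.SanityFillingT2

/-!
# For every knot: the slope `0` is separated from all other slopes

Let `N` be a tube of an arbitrary knot `K`.

* `Tube.exists_lift_of_meridian`: a map `E_K → S¹` which lifts to the real line on the meridian lifts to the real line (it extends over the
  `∞`-filling, which is `S³`).  So the homotopy class of a map `E_K → S¹` is determined by its degree on the meridian: this is the part
  "`H¹(E_K; ℤ) → ℤ` is injective" of Alexander duality;
* `Tube.IsPreferred.nullhomotopic_longitude`: if `N` has the preferred longitude, then EVERY map `E_K → S¹` of degree one on the meridian is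
  null-homotopic on the longitude (`Tube.IsPreferred` asks for one such map);
* `Tube.exists_lift_filling`: if `N` has the preferred longitude, `q a - p b = 1` and `p ≠ 0`, then every map from the filling
  `N.Filling p q a b` to the circle lifts to the real line;
* `Tube.isEmpty_filling_zero_homeomorph_filling`: hence the `0`-filling, which has a map to the circle of degree one on the meridian, is not
  homeomorphic to that filling.
-/

set_option autoImplicit false

open Set Metric Topology unitInterval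

namespace Claimed.Open.R306

noncomputable section

namespace ZeroInfty

variable {X : Type*} [TopologicalSpace X]

/-- A map to the circle which lifts to the real line is null-homotopic. -/
lemma nullhomotopic_of_lift {f : C(X, Circle)} (g : C(X, ℝ)) (hg : ∀ x, Circle.exp (g x) = f x) :
    f.Nullhomotopic := by
  have h1 : g.Nullhomotopic := (id_nullhomotopic ℝ).comp_left g
  have h2 : f = (Circle.exp : C(ℝ, Circle)).comp g := by
    ext x
    simp [hg]
  rw [h2]
  exact h1.comp_right _

/-- Homotopic maps to the circle differ by a factor which lifts to the real line. -/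
lemma exists_lift_of_homotopic {f g : C(X, Circle)} (h : f.Homotopic g) :
    ∃ k : C(X, ℝ), ∀ x, f x = g x * Circle.exp (k x) := by
  obtain ⟨H⟩ := h
  let F : C(X, Circle) := ⟨fun x => (g x)⁻¹ * f x, by fun_prop⟩
  have hF : F.Nullhomotopic := by
    refine ⟨1, ⟨{ toFun := fun y => (g y.2)⁻¹ * H y, continuous_toFun := by fun_prop,
                  map_zero_left := fun x => ?_, map_one_left := fun x => ?_ }⟩⟩
    · simp [F]
    · simp
  obtain ⟨k, hk⟩ := exists_lift_of_nullhomotopic hF
  refine ⟨k, fun x => ?_⟩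
  rw [hk]
  change f x = g x * ((g x)⁻¹ * f x)
  rw [mul_inv_cancel_left]

lemma exp_int_mul (k : ℤ) (t : ℝ) : Circle.exp (k * t) = Circle.exp t ^ k := by
  apply Subtype.ext
  rw [Circle.coe_zpow, Circle.coe_exp, Circle.coe_exp, ← Complex.exp_int_mul]
  push_cast
  ring_nf

/-- Every self-map of the circle is a power map, up to a factor which lifts to the real line. -/
theorem exists_degree (f : C(Circle, Circle)) :
    ∃ (d : ℤ) (k : C(Circle, ℝ)), ∀ z, f z = z ^ d * Circle.exp (k z) := by
  let P : C(I, Circle) := ⟨fun t => f (wind (t, 1)).1, by fun_prop⟩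
  have : ContractibleSpace I := (convex_Icc (0 : ℝ) 1).contractibleSpace ⟨0, by simp⟩
  have hP : P.Nullhomotopic := (id_nullhomotopic I).comp_right P
  obtain ⟨g, hg⟩ := exists_lift_of_nullhomotopic hP
  replace hg : ∀ t : I, Circle.exp (g t) = f (wind (t, 1)).1 := hg
  have w0 : ∀ z, wind (0, z) = (1, z) := fun z => by simp [wind]
  have w1 : ∀ z, wind (1, z) = (1, z) := fun z => by simp [wind]
  obtain ⟨d, hd⟩ : ∃ d : ℤ, g 1 = g 0 + d * (2 * Real.pi) := by
    apply Circle.exp_eq_exp.mp
    rw [hg, hg, w0, w1]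
  let Φ : C(I × Circle, ℝ) := ⟨fun y => g y.1 - d * (2 * Real.pi * (y.1 : ℝ)), by fun_prop⟩
  have hfac : Function.FactorsThrough Φ wind := by
    rintro ⟨s, z⟩ ⟨t, w⟩ hst
    obtain ⟨rfl, rfl | ⟨rfl, rfl⟩ | ⟨rfl, rfl⟩⟩ := wind_eq_wind hst
    · rfl
    · change g 0 - d * (2 * Real.pi * ((0 : I) : ℝ)) = g 1 - d * (2 * Real.pi * ((1 : I) : ℝ))
      rw [hd]
      simp
    · change g 1 - d * (2 * Real.pi * ((1 : I) : ℝ)) = g 0 - d * (2 * Real.pi * ((0 : I) : ℝ))
      rw [hd]
      simp
  refine ⟨d, (isQuotientMap_wind.lift Φ hfac).comp ⟨fun z => (z, 1), by fun_prop⟩, fun z => ?_⟩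
  obtain ⟨⟨t, w⟩, hy⟩ := wind_surjective (z, 1)
  have hw : w = 1 := congrArg Prod.snd hy
  subst hw
  have h2 : isQuotientMap_wind.lift Φ hfac (wind (t, 1)) = Φ (t, 1) :=
    congrArg (fun f : C(I × Circle, ℝ) => f (t, 1)) (isQuotientMap_wind.lift_comp Φ hfac)
  change f z = z ^ d * Circle.exp (isQuotientMap_wind.lift Φ hfac (z, 1))
  rw [← hy, h2]
  have hz : z = (wind (t, 1)).1 := by rw [hy]
  change f z = z ^ d * Circle.exp (g t - d * (2 * Real.pi * (t : ℝ)))
  rw [Circle.exp_sub, hg, exp_int_mul, ← hz]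
  have hz' : Circle.exp (2 * Real.pi * (t : ℝ)) = z := hz.symm
  rw [hz', mul_div_cancel]

end ZeroInfty

namespace Tube

open ZeroInfty

variable {K : Set S3} (N : Tube K)

/-- A map from the exterior to the circle which is null-homotopic on the curve `p μ + q λ` extends to the filling along this curve. -/
theorem exists_extension_filling (p q a b : ℤ) (θ : C(N.Exterior, Circle))
    (h : (θ.comp (N.torus.comp ⟨fun u : Circle => (u ^ q, u ^ p), by fun_prop⟩)).Nullhomotopic) :
    ∃ Θ : C(N.Filling p q a b, Circle), ∀ e, Θ (N.exteriorToFilling p q a b e) = θ e := by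
  let τ : C(Circle × Circle, Circle) := θ.comp (N.torus.comp
    ⟨fun y : Circle × Circle => (y.1 ^ q * y.2 ^ b, y.1 ^ p * y.2 ^ a), by fun_prop⟩)
  have hτ : (τ.comp ⟨fun u => (u, 1), by fun_prop⟩ : C(Circle, Circle)) =
      θ.comp (N.torus.comp ⟨fun u : Circle => (u ^ q, u ^ p), by fun_prop⟩) := by
    ext u
    simp [τ]
  obtain ⟨G, hG⟩ := exists_extension τ (by rw [hτ]; exact h)
  exact ⟨N.fillingLift p q a b θ G hG, fun _ => rfl⟩

/-- **A map `E_K → S¹` which lifts to the real line on the meridian lifts to the real line.** -/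
theorem exists_lift_of_meridian (η : C(N.Exterior, Circle)) (k : C(Circle, ℝ))
    (hk : ∀ z, Circle.exp (k z) = η (N.meridian z)) :
    ∃ G : C(N.Exterior, ℝ), ∀ e, Circle.exp (G e) = η e := by
  have h0 : (η.comp N.meridian).Nullhomotopic := nullhomotopic_of_lift k hk
  have h1 : η.comp (N.torus.comp ⟨fun u : Circle => (u ^ (0 : ℤ), u ^ (1 : ℤ)), by fun_prop⟩) =
      η.comp N.meridian := by
    ext u
    simp [meridian]
  obtain ⟨Θ, hΘ⟩ := N.exists_extension_filling 1 0 0 (-1) η (by rw [h1]; exact h0)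
  obtain ⟨g, hg⟩ := exists_lift_S3 (Θ.comp (toContinuousMap N.fillingInfty.symm))
  refine ⟨g.comp ((toContinuousMap N.fillingInfty).comp (N.exteriorToFilling 1 0 0 (-1))),
    fun e => ?_⟩
  change Circle.exp (g (N.fillingInfty (N.exteriorToFilling 1 0 0 (-1) e))) = η e
  rw [hg]
  change Θ (N.fillingInfty.symm (N.fillingInfty (N.exteriorToFilling 1 0 0 (-1) e))) = η e
  rw [Homeomorph.symm_apply_apply, hΘ]

/-- A map `E_K → S¹` which is null-homotopic on the meridian is null-homotopic. -/
theorem nullhomotopic_of_meridian (η : C(N.Exterior, Circle))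
    (h : (η.comp N.meridian).Nullhomotopic) : η.Nullhomotopic := by
  obtain ⟨k, hk⟩ := exists_lift_of_nullhomotopic h
  obtain ⟨G, hG⟩ := N.exists_lift_of_meridian η k hk
  exact nullhomotopic_of_lift G hG

/-- Two maps `E_K → S¹` with the same degree `d` on the meridian differ by a factor which lifts to the real line. -/
theorem exists_lift_of_degree (η θ : C(N.Exterior, Circle)) (d : ℤ) (k k' : C(Circle, ℝ))
    (hη : ∀ z, η (N.meridian z) = z ^ d * Circle.exp (k z))
    (hθ : ∀ z, θ (N.meridian z) = z * Circle.exp (k' z)) :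
    ∃ G : C(N.Exterior, ℝ), ∀ e, η e = θ e ^ d * Circle.exp (G e) := by
  let ζ : C(N.Exterior, Circle) := ⟨fun e => (θ e ^ d)⁻¹ * η e, by fun_prop⟩
  obtain ⟨G, hG⟩ := N.exists_lift_of_meridian ζ ⟨fun z => k z - d * k' z, by fun_prop⟩ (fun z => by
    change Circle.exp (k z - d * k' z) = (θ (N.meridian z) ^ d)⁻¹ * η (N.meridian z)
    rw [hη, hθ, Circle.exp_sub, exp_int_mul, mul_zpow, div_eq_mul_inv, mul_inv, mul_comm (z ^ d)⁻¹,
      mul_assoc, inv_mul_cancel_left, mul_comm])
  refine ⟨G, fun e => ?_⟩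
  rw [hG]
  change η e = θ e ^ d * ((θ e ^ d)⁻¹ * η e)
  rw [mul_inv_cancel_left]

/-- **`Tube.IsPreferred` does not depend on the map `θ`**: if `N` has the preferred longitude, then every map `E_K → S¹` of degree one
on the meridian is null-homotopic on the longitude. -/
theorem IsPreferred.nullhomotopic_longitude {N : Tube K} (h : N.IsPreferred)
    (θ' : C(N.Exterior, Circle)) (h' : (θ'.comp N.meridian).Homotopic (ContinuousMap.id Circle)) :
    (θ'.comp N.longitude).Nullhomotopic := by
  obtain ⟨θ, hμ, hl⟩ := h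
  obtain ⟨k, hk⟩ := exists_lift_of_homotopic hμ
  obtain ⟨k', hk'⟩ := exists_lift_of_homotopic h'
  obtain ⟨l, hl⟩ := exists_lift_of_nullhomotopic hl
  obtain ⟨G, hG⟩ := N.exists_lift_of_degree θ' θ 1 k' k (fun z => by rw [zpow_one]; exact hk' z) hk
  refine nullhomotopic_of_lift (⟨fun z => l z + G (N.longitude z), by fun_prop⟩ : C(Circle, ℝ))
    (fun z => ?_)
  change Circle.exp (l z + G (N.longitude z)) = θ' (N.longitude z)
  rw [hG, Circle.exp_add, hl, zpow_one]
  rfl

/-- the contraction of the solid torus `D² × S¹` onto the circle `1 × S¹` in its boundary -/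
def shrink : C(I × SolidTorus, SolidTorus) :=
  ⟨fun y => (⟨(1 - (y.1 : ℝ)) • (y.2.1 : ℂ) + (y.1 : ℝ) • (1 : ℂ),
      (convex_closedBall (0 : ℂ) 1) y.2.1.2 (by simp) (sub_nonneg.2 y.1.2.2) y.1.2.1 (by ring)⟩,
      y.2.2),
    (Continuous.subtype_mk (by fun_prop) _).prodMk (by fun_prop)⟩

lemma shrink_zero (v : SolidTorus) : shrink (0, v) = v :=
  Prod.ext (Subtype.ext (by simp [shrink])) rfl

lemma shrink_one (v : SolidTorus) : shrink (1, v) = (rim 1, v.2) :=
  Prod.ext (Subtype.ext (by simp [shrink, rim])) rfl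

/-- A map from the solid torus to the circle which lifts to the real line on the circle `1 × S¹` lifts to the real line. -/
theorem exists_lift_solidTorus (Θ : C(SolidTorus, Circle)) (l : C(Circle, ℝ))
    (hl : ∀ z, Circle.exp (l z) = Θ (rim 1, z)) :
    ∃ g : C(SolidTorus, ℝ), ∀ v, Circle.exp (g v) = Θ v := by
  let ρ : C(SolidTorus, Circle) := ⟨fun v => (Θ (rim 1, v.2))⁻¹ * Θ v, by fun_prop⟩
  have hρ : ρ.Nullhomotopic := by
    refine ⟨1, ⟨{ toFun := fun y => (Θ (rim 1, y.2.2))⁻¹ * Θ (shrink y),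
                  continuous_toFun := by fun_prop,
                  map_zero_left := fun v => ?_, map_one_left := fun v => ?_ }⟩⟩
    · change (Θ (rim 1, v.2))⁻¹ * Θ (shrink (0, v)) = (Θ (rim 1, v.2))⁻¹ * Θ v
      rw [shrink_zero]
    · change (Θ (rim 1, v.2))⁻¹ * Θ (shrink (1, v)) = 1
      rw [shrink_one, inv_mul_cancel]
  obtain ⟨r, hr⟩ := exists_lift_of_nullhomotopic hρ
  refine ⟨⟨fun v => l v.2 + r v, by fun_prop⟩, fun v => ?_⟩
  change Circle.exp (l v.2 + r v) = Θ v
  rw [Circle.exp_add, hl, hr]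
  change Θ (rim 1, v.2) * ((Θ (rim 1, v.2))⁻¹ * Θ v) = Θ v
  rw [mul_inv_cancel_left]

/-- A map from a filling to the circle which lifts to the real line on the exterior lifts to the real line. -/
theorem exists_lift_filling_of_exterior (p q a b : ℤ) (Θ : C(N.Filling p q a b, Circle))
    (G : C(N.Exterior, ℝ)) (hG : ∀ e, Circle.exp (G e) = Θ (N.exteriorToFilling p q a b e)) :
    ∃ g : C(N.Filling p q a b, ℝ), ∀ x, Circle.exp (g x) = Θ x := by
  obtain ⟨gV, hV⟩ := exists_lift_solidTorus (Θ.comp (N.solidToFilling p q a b))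
    ⟨fun z => G (N.torus ((1 : Circle) ^ q * z ^ b, (1 : Circle) ^ p * z ^ a)), by fun_prop⟩
    (fun z => by
      change Circle.exp (G (N.torus ((1 : Circle) ^ q * z ^ b, (1 : Circle) ^ p * z ^ a))) =
        Θ (N.solidToFilling p q a b (rim 1, z))
      rw [hG, solidToFilling_rim])
  replace hV : ∀ v, Circle.exp (gV v) = Θ (N.solidToFilling p q a b v) := hV
  obtain ⟨m, hm⟩ := exists_int_of_lifts (gV.comp rimMap)
    (⟨fun y => G (N.torus (y.1 ^ q * y.2 ^ b, y.1 ^ p * y.2 ^ a)), by fun_prop⟩ :
      C(Circle × Circle, ℝ)) (fun y => by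
      change Circle.exp (gV (rim y.1, y.2)) =
        Circle.exp (G (N.torus (y.1 ^ q * y.2 ^ b, y.1 ^ p * y.2 ^ a)))
      rw [hV, hG, solidToFilling_rim])
  refine ⟨N.fillingLift p q a b G ⟨fun v => gV v - m * (2 * Real.pi), by fun_prop⟩
    (fun u z => ?_), fun x => ?_⟩
  · have := hm (u, z)
    change gV (rim u, z) = G (N.torus (u ^ q * z ^ b, u ^ p * z ^ a)) + m * (2 * Real.pi) at this
    change gV (rim u, z) - m * (2 * Real.pi) = G (N.torus (u ^ q * z ^ b, u ^ p * z ^ a))
    rw [this, add_sub_cancel_right]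
  · obtain ⟨y, rfl⟩ := Quot.exists_rep x
    rcases y with e | v
    · exact hG e
    · change Circle.exp (gV v - m * (2 * Real.pi)) = Θ (N.solidToFilling p q a b v)
      rw [Circle.exp_sub, Circle.exp_int_mul_two_pi, div_one, hV]

/-- **If `N` has the preferred longitude and `p ≠ 0`, then every map from the filling along `p μ + q λ` to the circle lifts to the real
line.** -/
theorem exists_lift_filling (h : N.IsPreferred) {p q a b : ℤ} (hp : p ≠ 0)
    (Θ : C(N.Filling p q a b, Circle)) :
    ∃ g : C(N.Filling p q a b, ℝ), ∀ x, Circle.exp (g x) = Θ x := by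
  obtain ⟨θ, hμ, hl⟩ := h
  obtain ⟨k', hk'⟩ := exists_lift_of_homotopic hμ
  replace hk' : ∀ z, θ (N.meridian z) = z * Circle.exp (k' z) := hk'
  obtain ⟨φ, hφ⟩ := exists_lift_torus (θ.comp N.torus) hl
  replace hφ : ∀ X Y, θ (N.torus (X, Y)) = θ (N.meridian Y) * Circle.exp (φ (X, Y)) := hφ
  let η : C(N.Exterior, Circle) := Θ.comp (N.exteriorToFilling p q a b)
  obtain ⟨d, k, hk⟩ := exists_degree (η.comp N.meridian)
  obtain ⟨G, hG⟩ := N.exists_lift_of_degree η θ d k k' hk hk'
  -- the curve `p μ + q λ` bounds a disc in the filling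
  have : ContractibleSpace (closedBall (0 : ℂ) 1) :=
    (convex_closedBall (0 : ℂ) 1).contractibleSpace ⟨0, by simp⟩
  let D : C(closedBall (0 : ℂ) 1, Circle) :=
    Θ.comp ((N.solidToFilling p q a b).comp ⟨fun x => (x, 1), by fun_prop⟩)
  have hD : D.Nullhomotopic := (id_nullhomotopic _).comp_right D
  obtain ⟨m, hm⟩ := exists_lift_of_nullhomotopic hD
  have hm' : ∀ u : Circle, Circle.exp (m (rim u)) = η (N.torus (u ^ q, u ^ p)) := by
    intro u
    rw [hm]
    change Θ (N.solidToFilling p q a b (rim u, 1)) = _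
    rw [solidToFilling_rim]
    simp [η]
  have hrim : Continuous rim := Continuous.subtype_mk continuous_subtype_val _
  -- hence the degree of `η` on the meridian vanishes
  have hd : d = 0 := by
    have h1 : (zpowMap (p * d)).Nullhomotopic := by
      refine nullhomotopic_of_lift (⟨fun u => m (rim u) - (d * (k' (u ^ p) + φ (u ^ q, u ^ p)) +
        G (N.torus (u ^ q, u ^ p))), by fun_prop⟩ : C(Circle, ℝ)) (fun u => ?_)
      change Circle.exp (m (rim u) - (d * (k' (u ^ p) + φ (u ^ q, u ^ p)) +
        G (N.torus (u ^ q, u ^ p)))) = u ^ (p * d)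
      rw [Circle.exp_sub, hm', hG, hφ, hk', Circle.exp_add, exp_int_mul, Circle.exp_add, mul_assoc,
        mul_zpow, mul_assoc, mul_div_cancel_right, zpow_mul]
    exact (mul_eq_zero.mp (eq_zero_of_nullhomotopic_zpowMap h1)).resolve_left hp
  subst hd
  exact N.exists_lift_filling_of_exterior p q a b Θ G (fun e => by
    have := hG e
    rw [zpow_zero, one_mul] at this
    exact this.symm)

/-- **For every knot and every tube with the preferred longitude, the `0`-filling is not homeomorphic to the filling along `p μ + q λ`,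
`p ≠ 0`.** -/
theorem isEmpty_filling_zero_homeomorph_filling (h : N.IsPreferred) {p q a b : ℤ} (hp : p ≠ 0) :
    IsEmpty (N.Filling 0 1 1 0 ≃ₜ N.Filling p q a b) := by
  refine ⟨fun f => ?_⟩
  obtain ⟨θ, hμ, hl⟩ := id h
  obtain ⟨Θ, hΘ⟩ := N.exists_extension_filling_zero θ hl
  obtain ⟨g, hg⟩ := N.exists_lift_filling h hp (Θ.comp (toContinuousMap f.symm))
  have h2 : (θ.comp N.meridian).Nullhomotopic := by
    refine nullhomotopic_of_lift (g.comp ((toContinuousMap f).comp
      ((N.exteriorToFilling 0 1 1 0).comp N.meridian))) (fun z => ?_)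
    change Circle.exp (g (f (N.exteriorToFilling 0 1 1 0 (N.meridian z)))) = θ (N.meridian z)
    rw [hg, ← hΘ]
    change Θ (f.symm (f (N.exteriorToFilling 0 1 1 0 (N.meridian z)))) = _
    rw [Homeomorph.symm_apply_apply]
    rfl
  obtain ⟨c, hc⟩ := h2
  have h4 : (zpowMap 1).Nullhomotopic := by
    refine ⟨c, ?_⟩
    have h5 : zpowMap 1 = ContinuousMap.id Circle := by
      ext z
      simp
    rw [h5]
    exact hμ.symm.trans hc
  exact one_ne_zero (eq_zero_of_nullhomotopic_zpowMap h4)

/-- The `0`-filling of a tube with the preferred longitude has a map to the circle which is not null-homotopic. -/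
theorem exists_not_nullhomotopic_filling_zero (h : N.IsPreferred) :
    ∃ Θ : C(N.Filling 0 1 1 0, Circle), ¬ Θ.Nullhomotopic := by
  obtain ⟨θ, hμ, hl⟩ := h
  obtain ⟨Θ, hΘ⟩ := N.exists_extension_filling_zero θ hl
  refine ⟨Θ, fun h1 => ?_⟩
  have h2 := h1.comp_left ((N.exteriorToFilling 0 1 1 0).comp N.meridian)
  rw [← ContinuousMap.comp_assoc, hΘ] at h2
  obtain ⟨c, hc⟩ := h2
  have h4 : (zpowMap 1).Nullhomotopic := by
    refine ⟨c, ?_⟩
    have h5 : zpowMap 1 = ContinuousMap.id Circle := by
      ext z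
      simp
    rw [h5]
    exact hμ.symm.trans hc
  exact one_ne_zero (eq_zero_of_nullhomotopic_zpowMap h4)

/-- **In a tube with the preferred longitude the parallel curve `z ↦ N (z, z ^ k)`, the longitude of the framing `k`, has linking number
`k` with the knot**: a map `E_K → S¹` of degree one on the meridian is null-homotopic on this curve only for `k = 0`. -/
theorem IsPreferred.nullhomotopic_parallel_iff {N : Tube K} (h : N.IsPreferred)
    (θ' : C(N.Exterior, Circle)) (h' : (θ'.comp N.meridian).Homotopic (ContinuousMap.id Circle))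
    (k : ℤ) :
    (θ'.comp (N.torus.comp ⟨fun z : Circle => (z, z ^ k), by fun_prop⟩)).Nullhomotopic ↔ k = 0 := by
  have hl := h.nullhomotopic_longitude θ' h'
  constructor
  · intro hk
    obtain ⟨k', hk'⟩ := exists_lift_of_homotopic h'
    replace hk' : ∀ z, θ' (N.meridian z) = z * Circle.exp (k' z) := hk'
    obtain ⟨φ, hφ⟩ := exists_lift_torus (θ'.comp N.torus) hl
    replace hφ : ∀ X Y, θ' (N.torus (X, Y)) = θ' (N.meridian Y) * Circle.exp (φ (X, Y)) := hφ
    obtain ⟨l, hl'⟩ := exists_lift_of_nullhomotopic hk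
    replace hl' : ∀ z : Circle, Circle.exp (l z) = θ' (N.torus (z, z ^ k)) := hl'
    apply eq_zero_of_nullhomotopic_zpowMap
    refine nullhomotopic_of_lift (⟨fun z => l z - (k' (z ^ k) + φ (z, z ^ k)), by fun_prop⟩ :
      C(Circle, ℝ)) (fun z => ?_)
    change Circle.exp (l z - (k' (z ^ k) + φ (z, z ^ k))) = z ^ k
    rw [Circle.exp_sub, hl', hφ, hk', Circle.exp_add, mul_assoc, mul_div_cancel_right]
  · rintro rfl
    have h1 : N.torus.comp ⟨fun z : Circle => (z, z ^ (0 : ℤ)), by fun_prop⟩ = N.longitude := by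
      ext z
      simp [longitude]
    rw [h1]
    exact hl

end Tube

end

end Claimed.Open.R306
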