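import Mathlib

/-!
# The three-sheeted covering by the roots of a cubic

The map `(A, x) ↦ (A, (3 A x - x ^ 3) / 2)` of `ℂ²` is the projection of the surface
`x ^ 3 - 3 A x + 2 B = 0` to the `(A, B)`-plane.  Over the complement of the discriminant curve
`A ^ 3 = B ^ 2` it is a covering map.
-/

set_option autoImplicit false

open scoped Topology
open Set Filter

namespace Claimed.Open.R306

noncomputable section

/-- `(A, x) ↦ (A, B)` with `x ^ 3 - 3 A x + 2 B = 0`. -/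
def cubicMap (q : ℂ × ℂ) : ℂ × ℂ := (q.1, (3 * q.1 * q.2 - q.2 ^ 3) / 2)

/-- The complement of the discriminant curve `A ^ 3 = B ^ 2`. -/
def cubicReg : Set (ℂ × ℂ) := {q | q.1 ^ 3 ≠ q.2 ^ 2}

lemma continuous_cubicMap : Continuous cubicMap := by
  unfold cubicMap
  fun_prop

/-- Over the complement of the discriminant curve all roots are simple. -/
lemma ne_sq_of_cubicMap_mem {q : ℂ × ℂ} (h : cubicMap q ∈ cubicReg) : q.1 - q.2 ^ 2 ≠ 0 := by
  intro h0
  apply h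
  have : q.1 = q.2 ^ 2 := sub_eq_zero.mp h0
  simp only [cubicMap, this]
  ring

/-- The derivative of `cubicMap`. -/
def cubicDeriv (q : ℂ × ℂ) : (ℂ × ℂ) →L[ℂ] (ℂ × ℂ) :=
  (ContinuousLinearMap.fst ℂ ℂ ℂ).prod
    ((3 * q.2 / 2) • ContinuousLinearMap.fst ℂ ℂ ℂ +
      (3 * (q.1 - q.2 ^ 2) / 2) • ContinuousLinearMap.snd ℂ ℂ ℂ)

lemma hasStrictFDerivAt_cubicMap (q : ℂ × ℂ) : HasStrictFDerivAt cubicMap (cubicDeriv q) q := by
  have h1 : HasStrictFDerivAt (fun q : ℂ × ℂ => q.1) (ContinuousLinearMap.fst ℂ ℂ ℂ) q :=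
    hasStrictFDerivAt_fst
  have h2 : HasStrictFDerivAt (fun q : ℂ × ℂ => q.2) (ContinuousLinearMap.snd ℂ ℂ ℂ) q :=
    hasStrictFDerivAt_snd
  have h3 := ((((h1.const_mul 3).mul h2).sub (h2.pow 3)).const_mul (1 / 2 : ℂ))
  have h4 : HasStrictFDerivAt (fun q : ℂ × ℂ => (3 * q.1 * q.2 - q.2 ^ 3) / 2)
      ((3 * q.2 / 2) • ContinuousLinearMap.fst ℂ ℂ ℂ +
      (3 * (q.1 - q.2 ^ 2) / 2) • ContinuousLinearMap.snd ℂ ℂ ℂ) q := by
    refine (h3.congr_fderiv ?_).congr_of_eventuallyEq (Eventually.of_forall fun y => ?_)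
    · ext <;> simp <;> ring
    · simp
      ring
  exact HasStrictFDerivAt.prodMk h1 h4

/-- The inverse of the derivative at a point where `x` is a simple root. -/
def cubicDerivInv (q : ℂ × ℂ) : (ℂ × ℂ) →L[ℂ] (ℂ × ℂ) :=
  (ContinuousLinearMap.fst ℂ ℂ ℂ).prod
    ((3 * (q.1 - q.2 ^ 2) / 2)⁻¹ • (ContinuousLinearMap.snd ℂ ℂ ℂ -
      (3 * q.2 / 2) • ContinuousLinearMap.fst ℂ ℂ ℂ))

/-- The derivative as a linear equivalence. -/
def cubicDerivEquiv (q : ℂ × ℂ) (h : q.1 - q.2 ^ 2 ≠ 0) : (ℂ × ℂ) ≃L[ℂ] (ℂ × ℂ) :=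
  ContinuousLinearEquiv.equivOfInverse (cubicDeriv q) (cubicDerivInv q)
    (by
      intro v
      ext
      · simp [cubicDeriv, cubicDerivInv]
      · simp only [cubicDeriv, cubicDerivInv, ContinuousLinearMap.prod_apply,
          ContinuousLinearMap.coe_fst', add_apply,
          smul_apply, ContinuousLinearMap.coe_snd', smul_eq_mul,
          sub_apply]
        field_simp
        ring)
    (by
      intro v
      ext
      · simp [cubicDeriv, cubicDerivInv]
      · simp only [cubicDeriv, cubicDerivInv, ContinuousLinearMap.prod_apply,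
          ContinuousLinearMap.coe_fst', add_apply,
          smul_apply, ContinuousLinearMap.coe_snd', smul_eq_mul,
          sub_apply]
        field_simp
        ring)

lemma isLocalHomeomorphOn_cubicMap : IsLocalHomeomorphOn cubicMap (cubicMap ⁻¹' cubicReg) := by
  intro q hq
  have h : HasStrictFDerivAt cubicMap
      ((cubicDerivEquiv q (ne_sq_of_cubicMap_mem hq) : (ℂ × ℂ) ≃L[ℂ] (ℂ × ℂ)) :
        (ℂ × ℂ) →L[ℂ] (ℂ × ℂ)) q := hasStrictFDerivAt_cubicMap q
  exact ⟨h.toOpenPartialHomeomorph cubicMap, h.mem_toOpenPartialHomeomorph_source, rfl⟩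

/-- The roots of a cubic are bounded in terms of the coefficients. -/
lemma norm_le_of_norm_cubicMap_le {q : ℂ × ℂ} {R : ℝ} (h : ‖cubicMap q‖ ≤ R) :
    ‖q‖ ≤ 5 * R + 1 := by
  have hR : 0 ≤ R := (norm_nonneg _).trans h
  have h1 : ‖q.1‖ ≤ R := (norm_fst_le (cubicMap q)).trans h
  have h2 : ‖(3 * q.1 * q.2 - q.2 ^ 3) / 2‖ ≤ R := (norm_snd_le (cubicMap q)).trans h
  have h3 : ‖q.2‖ ^ 3 ≤ 3 * ‖q.1‖ * ‖q.2‖ + 2 * ‖(3 * q.1 * q.2 - q.2 ^ 3) / 2‖ := by
    have e : q.2 ^ 3 = 3 * q.1 * q.2 - 2 * ((3 * q.1 * q.2 - q.2 ^ 3) / 2) := by ring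
    calc ‖q.2‖ ^ 3 = ‖q.2 ^ 3‖ := (norm_pow _ _).symm
      _ = ‖3 * q.1 * q.2 - 2 * ((3 * q.1 * q.2 - q.2 ^ 3) / 2)‖ := by rw [← e]
      _ ≤ ‖3 * q.1 * q.2‖ + ‖2 * ((3 * q.1 * q.2 - q.2 ^ 3) / 2)‖ := norm_sub_le _ _
      _ = _ := by simp
  have h4 : ‖q.2‖ ≤ 5 * R + 1 := by
    by_contra hc
    push Not at hc
    have hb : 0 ≤ ‖q.2‖ := norm_nonneg _
    have ha : 0 ≤ ‖q.1‖ := norm_nonneg _
    have h5 : ‖q.2‖ ^ 3 ≤ 3 * R * ‖q.2‖ + 2 * R := by nlinarith
    have h6 : 1 < ‖q.2‖ := by linarith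
    nlinarith [mul_pos (by linarith : 0 < ‖q.2‖) (by linarith : 0 < ‖q.2‖ - 1)]
  rw [Prod.norm_def]
  exact max_le (by linarith) h4

lemma isProperMap_cubicMap : IsProperMap cubicMap := by
  rw [isProperMap_iff_isCompact_preimage]
  refine ⟨continuous_cubicMap, fun K hK => ?_⟩
  obtain ⟨R, hR⟩ := hK.isBounded.exists_norm_le
  refine Metric.isCompact_of_isClosed_isBounded (hK.isClosed.preimage continuous_cubicMap) ?_
  exact isBounded_iff_forall_norm_le.mpr ⟨5 * R + 1, fun q hq =>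
    norm_le_of_norm_cubicMap_le (hR _ hq)⟩

/-- The root covering: `cubicMap` is a covering map over the complement of the discriminant. -/
theorem isCoveringMapOn_cubicMap : IsCoveringMapOn cubicMap cubicReg := by
  refine isProperMap_cubicMap.isClosedMap.isCoveringMapOn_of_isLocalHomeomorphOn (fun y hy => ?_)
    isLocalHomeomorphOn_cubicMap
  refine (isProperMap_cubicMap.isCompact_preimage isCompact_singleton).finite
    (IsDiscrete.of_openPartialHomeomorph cubicMap subset_rfl fun e he => ?_)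
  have he' : e ∈ cubicMap ⁻¹' cubicReg := by
    have : cubicMap e = y := he
    simpa [this] using hy
  obtain ⟨φ, h1, h2⟩ := isLocalHomeomorphOn_cubicMap e he'
  exact ⟨φ, h1, h2.symm⟩

/-- The root covering as a covering map between subtypes. -/
theorem isCoveringMap_cubicMap : IsCoveringMap (cubicReg.restrictPreimage cubicMap) :=
  isCoveringMapOn_cubicMap.isCoveringMap_restrictPreimage

end

end Claimed.Open.R306
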