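import Claimed.Open.R306.SanityTrefoilZero
import Claimed.Open.R306.SanityUnknotCompl
import Claimed.Open.R306.SanityCubicCover

/-!
# The trefoil knot is not trivial

The complement of the trefoil maps to the complement of the discriminant curve of the cubics
`x ^ 3 - 3 A x + 2 B`, by `(z, w) ↦ (A, B) = (5 z / 3, 5 w / 4)`.  The loop `(0, i e^{2 π i s})` permutes
the three roots cyclically, the loop `(e^{2 π i s}, 0)` fixes one root and exchanges the two others.
So the monodromy of the root covering is not commutative, while loops in the complement of a trivial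
knot commute.
-/

set_option autoImplicit false


open Set Complex

namespace Claimed.Open.R306

noncomputable section

/-- The complement of the trefoil knot. -/
abbrev TrefoilCompl : Type := ↥(trefoilᶜ : Set S3)

/-- A point of the complement of the trefoil, in complex coordinates. -/
def mkCompl (z w : ℂ) (h1 : ‖z‖ ^ 2 + ‖w‖ ^ 2 = 1) (h2 : (5 / 3 * z) ^ 3 ≠ (5 / 4 * w) ^ 2) :
    TrefoilCompl :=
  ⟨⟨ofC z w, mem_sphere_zero_iff_norm.mpr (by
      have h : ‖ofC z w‖ ^ 2 = 1 ^ 2 := by rw [norm_ofC_sq, h1, one_pow]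
      exact (pow_left_inj₀ (norm_nonneg _) zero_le_one (by norm_num)).mp h)⟩, by
    intro h
    apply h2
    simpa using eq_of_mem_trefoil h⟩

lemma continuous_mkCompl {X : Type*} [TopologicalSpace X] {z w : X → ℂ} (hz : Continuous z)
    (hw : Continuous w) (h1 : ∀ x, ‖z x‖ ^ 2 + ‖w x‖ ^ 2 = 1)
    (h2 : ∀ x, (5 / 3 * z x) ^ 3 ≠ (5 / 4 * w x) ^ 2) :
    Continuous (fun x => mkCompl (z x) (w x) (h1 x) (h2 x)) :=
  Continuous.subtype_mk (Continuous.subtype_mk (continuous_ofC.comp (hz.prodMk hw)) _) _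

/-- The map from the complement of the trefoil to the complement of the discriminant curve. -/
def toCubicReg : C(TrefoilCompl, ↥cubicReg) where
  toFun p := ⟨(5 / 3 * zc p.1.1, 5 / 4 * wc p.1.1), fun h => p.2 (mem_trefoil_of_eq h)⟩
  continuous_toFun := by
    have hw : Continuous (fun p : TrefoilCompl => wc p.1.1) :=
      continuous_wc.comp (continuous_subtype_val.comp continuous_subtype_val)
    have hz : Continuous (fun p : TrefoilCompl => zc p.1.1) :=
      continuous_zc.comp (continuous_subtype_val.comp continuous_subtype_val)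
    exact Continuous.subtype_mk ((continuous_const.mul hz).prodMk (continuous_const.mul hw)) _

@[simp] lemma coe_toCubicReg_mkCompl (z w : ℂ) (h1 h2) :
    (toCubicReg (mkCompl z w h1 h2) : ℂ × ℂ) = (5 / 3 * z, 5 / 4 * w) := by
  simp [toCubicReg, mkCompl]

/-- `e^{2 π i s}` -/
def eTwoPi (s : ℝ) : ℂ := Complex.exp (2 * Real.pi * s * I)

lemma continuous_eTwoPi : Continuous eTwoPi := by
  unfold eTwoPi
  fun_prop

@[simp] lemma eTwoPi_zero : eTwoPi 0 = 1 := by simp [eTwoPi]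

@[simp] lemma eTwoPi_one : eTwoPi 1 = 1 := by
  simp [eTwoPi, Complex.exp_two_pi_mul_I]

@[simp] lemma norm_eTwoPi (s : ℝ) : ‖eTwoPi s‖ = 1 := by
  have : (2 * Real.pi * s * I : ℂ) = ((2 * Real.pi * s : ℝ) : ℂ) * I := by push_cast; ring
  rw [eTwoPi, this, Complex.norm_exp_ofReal_mul_I]

lemma eTwoPi_ne_zero (s : ℝ) : eTwoPi s ≠ 0 := Complex.exp_ne_zero _

/-- The base point `(0, i)`. -/
def ptA : TrefoilCompl := mkCompl 0 I (by simp) (by
  have : (5 / 4 * I) ^ 2 = (-(25 / 16) : ℂ) := by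
    rw [mul_pow, Complex.I_sq]; norm_num
  rw [this]
  norm_num)

/-- The base point `(1, 0)`. -/
def ptB : TrefoilCompl := mkCompl 1 0 (by simp) (by norm_num)

lemma loopA_aux1 (s : ℝ) : ‖(0 : ℂ)‖ ^ 2 + ‖I * eTwoPi s‖ ^ 2 = 1 := by simp

lemma loopA_aux2 (s : ℝ) : (5 / 3 * (0 : ℂ)) ^ 3 ≠ (5 / 4 * (I * eTwoPi s)) ^ 2 := by
  have h : (5 / 4 * (I * eTwoPi s)) ^ 2 ≠ 0 :=
    pow_ne_zero 2 (mul_ne_zero (by norm_num) (mul_ne_zero Complex.I_ne_zero (eTwoPi_ne_zero _)))
  simpa using h.symm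

/-- The loop `(0, i e^{2 π i s})`. -/
def loopA : Path ptA ptA where
  toFun s := mkCompl 0 (I * eTwoPi s) (loopA_aux1 s) (loopA_aux2 s)
  continuous_toFun := continuous_mkCompl (z := fun _ : unitInterval => (0 : ℂ))
    (w := fun s : unitInterval => I * eTwoPi s) continuous_const
    (continuous_const.mul (continuous_eTwoPi.comp continuous_subtype_val))
    (fun s => loopA_aux1 s) (fun s => loopA_aux2 s)
  source' := by simp [ptA]
  target' := by simp [ptA]

lemma loopB_aux1 (s : ℝ) : ‖eTwoPi s‖ ^ 2 + ‖(0 : ℂ)‖ ^ 2 = 1 := by simp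

lemma loopB_aux2 (s : ℝ) : (5 / 3 * eTwoPi s) ^ 3 ≠ (5 / 4 * (0 : ℂ)) ^ 2 := by
  have h : (5 / 3 * eTwoPi s) ^ 3 ≠ 0 :=
    pow_ne_zero 3 (mul_ne_zero (by norm_num) (eTwoPi_ne_zero _))
  simpa using h

/-- The loop `(e^{2 π i s}, 0)`. -/
def loopB : Path ptB ptB where
  toFun s := mkCompl (eTwoPi s) 0 (loopB_aux1 s) (loopB_aux2 s)
  continuous_toFun := continuous_mkCompl (z := fun s : unitInterval => eTwoPi s)
    (w := fun _ : unitInterval => (0 : ℂ)) (continuous_eTwoPi.comp continuous_subtype_val)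
    continuous_const (fun s => loopB_aux1 s) (fun s => loopB_aux2 s)
  source' := by simp [ptB]
  target' := by simp [ptB]

lemma arcAB_aux1 (s : unitInterval) :
    ‖((s : ℝ) : ℂ)‖ ^ 2 + ‖I * (Real.sqrt (1 - (s : ℝ) ^ 2) : ℝ)‖ ^ 2 = 1 := by
  have h0 : 0 ≤ 1 - (s : ℝ) ^ 2 := by nlinarith [s.2.1, s.2.2]
  simp only [norm_mul, Complex.norm_I, one_mul, Complex.norm_real, Real.norm_eq_abs, sq_abs]
  rw [Real.sq_sqrt h0]
  ring

lemma arcAB_aux2 (s : unitInterval) :
    (5 / 3 * ((s : ℝ) : ℂ)) ^ 3 ≠ (5 / 4 * (I * (Real.sqrt (1 - (s : ℝ) ^ 2) : ℝ))) ^ 2 := by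
  have h0 : 0 ≤ 1 - (s : ℝ) ^ 2 := by nlinarith [s.2.1, s.2.2]
  intro h
  have h1 : (5 / 4 * (I * (Real.sqrt (1 - (s : ℝ) ^ 2) : ℝ))) ^ 2 =
      ((-(25 / 16) * (1 - (s : ℝ) ^ 2) : ℝ) : ℂ) := by
    rw [mul_pow, mul_pow, Complex.I_sq, ← Complex.ofReal_pow, Real.sq_sqrt h0]
    push_cast
    ring
  have h2 : (5 / 3 * ((s : ℝ) : ℂ)) ^ 3 = (((5 / 3 * (s : ℝ)) ^ 3 : ℝ) : ℂ) := by
    push_cast
    ring
  rw [h1, h2] at h
  have h3 : (5 / 3 * (s : ℝ)) ^ 3 = -(25 / 16) * (1 - (s : ℝ) ^ 2) := by exact_mod_cast h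
  have h4 : 0 ≤ (5 / 3 * (s : ℝ)) ^ 3 := by have := s.2.1; positivity
  have h5 : (s : ℝ) ^ 2 = 1 := by nlinarith
  have h6 : (s : ℝ) = 1 := by nlinarith [s.2.1, s.2.2]
  rw [h6] at h3
  norm_num at h3

/-- The arc `(s, i √(1 - s²))` from `(0, i)` to `(1, 0)`. -/
def arcAB : Path ptA ptB where
  toFun s := mkCompl (s : ℝ) (I * (Real.sqrt (1 - (s : ℝ) ^ 2) : ℝ)) (arcAB_aux1 s) (arcAB_aux2 s)
  continuous_toFun := continuous_mkCompl (z := fun s : unitInterval => ((s : ℝ) : ℂ))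
    (w := fun s : unitInterval => I * (Real.sqrt (1 - (s : ℝ) ^ 2) : ℝ)) (by fun_prop)
    (by fun_prop) arcAB_aux1 arcAB_aux2
  source' := by simp [ptA]
  target' := by simp [ptB]

/-! ### Lifts to the root covering -/

lemma eTwoPi_div_three_pow (s : ℝ) : eTwoPi (s / 3) ^ 3 = eTwoPi s := by
  rw [eTwoPi, eTwoPi, ← Complex.exp_nat_mul]
  congr 1
  push_cast
  ring

lemma eTwoPi_div_two_pow (s : ℝ) : eTwoPi (s / 2) ^ 2 = eTwoPi s := by
  rw [eTwoPi, eTwoPi, ← Complex.exp_nat_mul]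
  congr 1
  push_cast
  ring

lemma eTwoPi_half : eTwoPi (1 / 2) = -1 := by
  rw [eTwoPi, ← Complex.exp_pi_mul_I]
  congr 1
  push_cast
  ring

lemma eTwoPi_third_ne_one : eTwoPi (1 / 3) ≠ 1 := by
  intro h
  rw [eTwoPi, Complex.exp_eq_one_iff] at h
  obtain ⟨n, hn⟩ := h
  have h0 : (2 * Real.pi * I : ℂ) ≠ 0 :=
    mul_ne_zero (mul_ne_zero two_ne_zero (by exact_mod_cast Real.pi_ne_zero)) Complex.I_ne_zero
  have h1 : (1 : ℂ) = 3 * n := by
    have h2 : (2 * Real.pi * I : ℂ) * 1 = (2 * Real.pi * I : ℂ) * (3 * n) := by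
      push_cast at hn
      linear_combination 3 * hn
    exact mul_left_cancel₀ h0 h2
  have h3 : (1 : ℤ) = 3 * n := by exact_mod_cast h1
  omega

/-- The monodromy of the root covering along a path, computed with an explicit family of roots. -/
lemma cubic_monodromy_eq {x y : ↥cubicReg} (γ : Path x y)
    (e : ↥((cubicReg.restrictPreimage cubicMap) ⁻¹' {x})) (g : unitInterval → ℂ × ℂ)
    (hg : Continuous g) (h : ∀ s, cubicMap (g s) = (γ s : ℂ × ℂ)) (h0 : g 0 = (e.1 : ℂ × ℂ)) :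
    ((isCoveringMap_cubicMap.monodromy (Path.Homotopic.Quotient.mk γ) e).1 : ℂ × ℂ) = g 1 := by
  have hmem : ∀ s, g s ∈ cubicMap ⁻¹' cubicReg := by
    intro s
    show cubicMap (g s) ∈ cubicReg
    rw [h]
    exact (γ s).2
  have := monodromy_mk_eq isCoveringMap_cubicMap γ e
    ⟨fun s => ⟨g s, hmem s⟩, Continuous.subtype_mk hg _⟩ (fun s => Subtype.ext (h s))
    (Subtype.ext h0)
  rw [this]
  rfl

lemma cubic_fibre_eq {x : ↥cubicReg} (e : ↥((cubicReg.restrictPreimage cubicMap) ⁻¹' {x})) :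
    cubicMap (e.1 : ℂ × ℂ) = (x : ℂ × ℂ) :=
  congrArg Subtype.val e.2

lemma coe_map_loopA (s : unitInterval) :
    ((loopA.map toCubicReg.continuous) s : ℂ × ℂ) = (0, 5 / 4 * (I * eTwoPi s)) := by
  show (toCubicReg (mkCompl 0 (I * eTwoPi s) (loopA_aux1 s) (loopA_aux2 s)) : ℂ × ℂ) = _
  simp

lemma coe_map_loopB (s : unitInterval) :
    ((loopB.map toCubicReg.continuous) s : ℂ × ℂ) = (5 / 3 * eTwoPi s, 0) := by
  show (toCubicReg (mkCompl (eTwoPi s) 0 (loopB_aux1 s) (loopB_aux2 s)) : ℂ × ℂ) = _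
  simp

/-- The loop `(0, i e^{2 π i s})` moves every root. -/
lemma monodromy_loopA_ne (e : ↥((cubicReg.restrictPreimage cubicMap) ⁻¹' {toCubicReg ptA})) :
    isCoveringMap_cubicMap.monodromy
      (Path.Homotopic.Quotient.mk (loopA.map toCubicReg.continuous)) e ≠ e := by
  intro he
  have hf := cubic_fibre_eq e
  obtain ⟨⟨⟨A, x⟩, hmem⟩, hfib⟩ := e
  simp only [cubicMap, ptA, coe_toCubicReg_mkCompl, mul_zero, Prod.mk.injEq] at hf
  obtain ⟨hA, hx⟩ := hf
  subst hA
  have hm := cubic_monodromy_eq (loopA.map toCubicReg.continuous) ⟨⟨(0, x), hmem⟩, hfib⟩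
    (fun s => (0, x * eTwoPi ((s : ℝ) / 3)))
    (continuous_const.prodMk (continuous_const.mul (continuous_eTwoPi.comp (by fun_prop))))
    (fun s => by
      rw [coe_map_loopA]
      simp only [cubicMap, Prod.mk.injEq, true_and]
      rw [mul_pow, eTwoPi_div_three_pow]
      linear_combination (eTwoPi s) * hx)
    (by simp)
  rw [he] at hm
  simp only [Prod.mk.injEq, true_and, Set.Icc.coe_one] at hm
  have hx0 : x ≠ 0 := by
    rintro rfl
    simp at hx
  exact eTwoPi_third_ne_one (mul_left_cancel₀ hx0 (by rw [mul_one]; exact hm.symm))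

/-- The root `0` over the point `(A, B) = (5 / 3, 0)`. -/
def rootZero : ↥((cubicReg.restrictPreimage cubicMap) ⁻¹' {toCubicReg ptB}) :=
  ⟨⟨(5 / 3, 0), by
    show cubicMap (5 / 3, 0) ∈ cubicReg
    simp [cubicMap, cubicReg]⟩, by
    apply Subtype.ext
    show cubicMap (5 / 3, 0) = (toCubicReg ptB : ℂ × ℂ)
    simp [cubicMap, ptB]⟩

/-- The loop `(e^{2 π i s}, 0)` fixes the root `0`. -/
lemma monodromy_loopB_rootZero :
    isCoveringMap_cubicMap.monodromy
      (Path.Homotopic.Quotient.mk (loopB.map toCubicReg.continuous)) rootZero = rootZero := by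
  have hm := cubic_monodromy_eq (loopB.map toCubicReg.continuous) rootZero
    (fun s => (5 / 3 * eTwoPi (s : ℝ), 0))
    ((continuous_const.mul (continuous_eTwoPi.comp continuous_subtype_val)).prodMk
      continuous_const)
    (fun s => by
      rw [coe_map_loopB]
      simp [cubicMap])
    (by simp [rootZero])
  apply Subtype.ext
  apply Subtype.ext
  rw [hm]
  simp [rootZero]

/-- The loop `(e^{2 π i s}, 0)` fixes no other root. -/
lemma eq_rootZero_of_monodromy_loopB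
    (e : ↥((cubicReg.restrictPreimage cubicMap) ⁻¹' {toCubicReg ptB}))
    (he : isCoveringMap_cubicMap.monodromy
      (Path.Homotopic.Quotient.mk (loopB.map toCubicReg.continuous)) e = e) : e = rootZero := by
  have hf := cubic_fibre_eq e
  obtain ⟨⟨⟨A, x⟩, hmem⟩, hfib⟩ := e
  simp only [cubicMap, ptB, coe_toCubicReg_mkCompl, mul_zero, mul_one, Prod.mk.injEq] at hf
  obtain ⟨hA, hx⟩ := hf
  subst hA
  have hm := cubic_monodromy_eq (loopB.map toCubicReg.continuous) ⟨⟨(5 / 3, x), hmem⟩, hfib⟩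
    (fun s => (5 / 3 * eTwoPi (s : ℝ), x * eTwoPi ((s : ℝ) / 2)))
    ((continuous_const.mul (continuous_eTwoPi.comp continuous_subtype_val)).prodMk
      (continuous_const.mul (continuous_eTwoPi.comp (by fun_prop))))
    (fun s => by
      rw [coe_map_loopB]
      simp only [cubicMap, Prod.mk.injEq, true_and]
      have h2 := eTwoPi_div_two_pow s
      linear_combination (eTwoPi ((s : ℝ) / 2) ^ 3) * hx -
        (5 / 2 * x * eTwoPi ((s : ℝ) / 2)) * h2)
    (by simp)
  rw [he] at hm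
  simp only [Prod.mk.injEq, Set.Icc.coe_one, eTwoPi_half] at hm
  have hx0 : x = 0 := by
    have := hm.2
    linear_combination (1 / 2) * this
  subst hx0
  rfl

/-- **The trefoil knot is not trivial.** -/
theorem not_isTrivialKnot_trefoil : ¬ IsTrivialKnot trefoil := fun h =>
  not_loopsCommute_of_monodromy toCubicReg isCoveringMap_cubicMap loopA arcAB loopB
    monodromy_loopA_ne rootZero monodromy_loopB_rootZero eq_rootZero_of_monodromy_loopB
    h.loopsCommute_compl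

end

end Claimed.Open.R306
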