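import Claimed.Open.R306.Unknot
import Claimed.Open.R306.SanityTrefoilKnotted

/-!
# `IsTrivialKnot` with diffeomorphisms other than the identity

`IsTrivialKnot K` asks for a diffeomorphism of `S³` which carries `K` onto the standard unknot.  The only positive example of the
other files is the standard unknot itself, with the identity.  Here:

* `isoDiffeo e`: every linear isometry `e` of `ℝ⁴` restricts to a diffeomorphism of `S³`;
* `isTrivialKnot_image_iff`: `g '' K` is trivial if and only if `K` is, for every diffeomorphism `g` of `S³`;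
* `isTrivialKnot_greatCircle`, `greatCircle_ne_unknot`: the great circle `x₀ = x₁ = 0` is a trivial knot, and it is not the set `unknot`
  (the two circles are disjoint: `disjoint_greatCircle_unknot`);
* `isTrivialKnot_isoDiffeo_unknot`: all the great circles `e (unknot)` are trivial knots;
* `not_isTrivialKnot_image_trefoil`: no diffeomorphic image of the trefoil knot is trivial; `not_isTrivialKnot_mirror_trefoil`: in
  particular its mirror image under the reflection `x₃ ↦ - x₃` is not trivial.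
-/

set_option autoImplicit false

open scoped Manifold ContDiff
open Manifold Set

namespace Claimed.Open.R306

noncomputable section

attribute [local instance] finrank_E4_fact

/-- The map of `S³` induced by a linear isometry of `ℝ⁴`. -/
def isoFun (e : EuclideanSpace ℝ (Fin 4) ≃ₗᵢ[ℝ] EuclideanSpace ℝ (Fin 4)) (x : S3) : S3 :=
  ⟨e x.1, by
    have h : ‖x.1‖ = 1 := mem_sphere_zero_iff_norm.mp x.2
    exact mem_sphere_zero_iff_norm.mpr (by rw [e.norm_map, h])⟩

@[simp] lemma isoFun_coe (e : EuclideanSpace ℝ (Fin 4) ≃ₗᵢ[ℝ] EuclideanSpace ℝ (Fin 4)) (x : S3) :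
    (isoFun e x).1 = e x.1 := rfl

lemma contMDiff_isoFun (e : EuclideanSpace ℝ (Fin 4) ≃ₗᵢ[ℝ] EuclideanSpace ℝ (Fin 4)) :
    ContMDiff (𝓡 3) (𝓡 3) ∞ (isoFun e) := by
  have h1 : ContMDiff (𝓡 3) 𝓘(ℝ, EuclideanSpace ℝ (Fin 4)) ∞
      (fun x : S3 => e x.1) :=
    (e.toContinuousLinearEquiv.contDiff.contMDiff).comp contMDiff_coe_sphere
  exact h1.codRestrict_sphere (fun x => (isoFun e x).2)

/-- **Every linear isometry of `ℝ⁴` restricts to a diffeomorphism of `S³`.** -/
def isoDiffeo (e : EuclideanSpace ℝ (Fin 4) ≃ₗᵢ[ℝ] EuclideanSpace ℝ (Fin 4)) :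
    S3 ≃ₘ⟮𝓡 3, 𝓡 3⟯ S3 where
  toFun := isoFun e
  invFun := isoFun e.symm
  left_inv x := Subtype.ext (by simp)
  right_inv x := Subtype.ext (by simp)
  contMDiff_toFun := contMDiff_isoFun e
  contMDiff_invFun := contMDiff_isoFun e.symm

@[simp] lemma isoDiffeo_coe (e : EuclideanSpace ℝ (Fin 4) ≃ₗᵢ[ℝ] EuclideanSpace ℝ (Fin 4)) (x : S3) :
    (isoDiffeo e x).1 = e x.1 := rfl

/-- A diffeomorphic image of a trivial knot is trivial. -/
theorem IsTrivialKnot.image {K : Set S3} (hK : IsTrivialKnot K) (g : S3 ≃ₘ⟮𝓡 3, 𝓡 3⟯ S3) :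
    IsTrivialKnot (g '' K) := by
  obtain ⟨h, hh⟩ := hK
  refine ⟨g.symm.trans h, ?_⟩
  rw [← hh, Set.image_image]
  refine Set.image_congr' fun x => ?_
  simp

/-- **Triviality of a knot is invariant under the diffeomorphisms of `S³`.** -/
theorem isTrivialKnot_image_iff {K : Set S3} (g : S3 ≃ₘ⟮𝓡 3, 𝓡 3⟯ S3) :
    IsTrivialKnot (g '' K) ↔ IsTrivialKnot K := by
  refine ⟨fun h => ?_, fun h => h.image g⟩
  have h2 := h.image g.symm
  rwa [Set.image_image, Set.image_congr' (g := id) (fun x => by simp), Set.image_id] at h2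

/-- All the great circles `e (unknot)`, `e` a linear isometry, are trivial knots. -/
theorem isTrivialKnot_isoDiffeo_unknot
    (e : EuclideanSpace ℝ (Fin 4) ≃ₗᵢ[ℝ] EuclideanSpace ℝ (Fin 4)) :
    IsTrivialKnot (isoDiffeo e '' unknot) :=
  Unknot.isTrivialKnot_unknot.image _

/-- The great circle `x₀ = x₁ = 0`. -/
def greatCircle : Set S3 := {x | x.1 0 = 0 ∧ x.1 1 = 0}

/-- The isometry `(x₀, x₁, x₂, x₃) ↦ (x₂, x₃, x₀, x₁)` of `ℝ⁴`. -/
def swapIso : EuclideanSpace ℝ (Fin 4) ≃ₗᵢ[ℝ] EuclideanSpace ℝ (Fin 4) :=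
  LinearIsometryEquiv.piLpCongrLeft 2 ℝ ℝ (Equiv.addRight (2 : Fin 4))

lemma swapIso_apply (v : EuclideanSpace ℝ (Fin 4)) (i : Fin 4) : swapIso v i = v (i - 2) := by
  simp [swapIso, LinearIsometryEquiv.piLpCongrLeft_apply, Equiv.piCongrLeft', sub_eq_add_neg]

/-- **The great circle `x₀ = x₁ = 0` is a trivial knot** (by a diffeomorphism which is not the identity). -/
theorem isTrivialKnot_greatCircle : IsTrivialKnot greatCircle := by
  refine ⟨isoDiffeo swapIso, ?_⟩
  ext y
  constructor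
  · rintro ⟨x, ⟨h0, h1⟩, rfl⟩
    refine ⟨?_, ?_⟩
    · rw [isoDiffeo_coe, swapIso_apply]; exact h0
    · rw [isoDiffeo_coe, swapIso_apply]; exact h1
  · rintro ⟨h2, h3⟩
    refine ⟨(isoDiffeo swapIso).symm y, ⟨?_, ?_⟩, by simp⟩
    · have : ((isoDiffeo swapIso).symm y).1 0 = (isoDiffeo swapIso ((isoDiffeo swapIso).symm y)).1 2 := by
        rw [isoDiffeo_coe, swapIso_apply]; rfl
      rw [this]; simpa using h2
    · have : ((isoDiffeo swapIso).symm y).1 1 = (isoDiffeo swapIso ((isoDiffeo swapIso).symm y)).1 3 := by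
        rw [isoDiffeo_coe, swapIso_apply]; rfl
      rw [this]; simpa using h3

/-- The two great circles are disjoint. -/
theorem disjoint_greatCircle_unknot : Disjoint greatCircle unknot := by
  rw [Set.disjoint_left]
  rintro x ⟨h0, h1⟩ ⟨h2, h3⟩
  have hx : ‖x.1‖ = 1 := mem_sphere_zero_iff_norm.mp x.2
  have : x.1 = 0 := by
    ext i
    fin_cases i <;> simp_all
  rw [this, norm_zero] at hx
  exact zero_ne_one hx

/-- The trivial knot `greatCircle` is not the set `unknot`. -/
theorem greatCircle_ne_unknot : greatCircle ≠ unknot := by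
  intro h
  have hd := disjoint_greatCircle_unknot
  rw [h, disjoint_self] at hd
  obtain ⟨γ, -, hγ⟩ := Unknot.isSmoothKnot_unknot
  have : γ 1 ∈ unknot := hγ ▸ Set.mem_range_self _
  rw [hd] at this
  exact this

/-- **No diffeomorphic image of the trefoil knot is trivial.** -/
theorem not_isTrivialKnot_image_trefoil (g : S3 ≃ₘ⟮𝓡 3, 𝓡 3⟯ S3) : ¬ IsTrivialKnot (g '' trefoil) :=
  fun h => not_isTrivialKnot_trefoil ((isTrivialKnot_image_iff g).mp h)

/-- The reflection `x₃ ↦ - x₃` of `ℝ⁴`. -/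
def mirrorIso : EuclideanSpace ℝ (Fin 4) ≃ₗᵢ[ℝ] EuclideanSpace ℝ (Fin 4) :=
  LinearIsometryEquiv.piLpCongrRight 2
    (fun i : Fin 4 => if i = 3 then LinearIsometryEquiv.neg ℝ else LinearIsometryEquiv.refl ℝ ℝ)

lemma mirrorIso_apply (v : EuclideanSpace ℝ (Fin 4)) (i : Fin 4) :
    mirrorIso v i = if i = 3 then - v i else v i := by
  by_cases h : i = 3 <;> simp [mirrorIso, h]

/-- **The mirror image of the trefoil knot is not trivial.** -/
theorem not_isTrivialKnot_mirror_trefoil : ¬ IsTrivialKnot (isoDiffeo mirrorIso '' trefoil) :=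
  not_isTrivialKnot_image_trefoil _

end

end Claimed.Open.R306
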