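import Claimed.Open.R306.SanityUnknotTwist

/-!
# The mirror of the unknot: `S³_r(U) ≃ₜ S³_{-r}(U)`

`Statement` is about ORIENTATION-PRESERVING homeomorphisms (purely cosmetic surgeries).  For an amphichiral knot `S³_r(K)` and `S³_{-r}(K)` are always
homeomorphic, by an orientation-reversing homeomorphism (chirally cosmetic surgeries).  Here this is checked for the standard unknot `U`: the reflection
`(a, b) ↦ (conj a, b)` of `S³` preserves the standard tube, it acts on the peripheral torus by `(x, y) ↦ (x⁻¹, y)` (it fixes `μ` and reverses `λ`), so it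
extends over the filling solid tori:

* `UnknotMirror.fillingMirror`: `E_U(p μ + q λ) ≃ₜ E_U(p μ - q λ)`;
* `UnknotMirror.nonempty_surgery_neg`: `S³_r(U) ≃ₜ S³_{-r}(U)` for every rational slope `r`, in the notation of `Statement.lean`.

Only homeomorphisms are constructed: nothing is claimed on orientations.
-/

set_option autoImplicit false

open Set Metric Topology

namespace Claimed.Open.R306

noncomputable section

namespace UnknotMirror

open Unknot Cosmetic UnknotTwist

/-- the reflection `(a, b) ↦ (conj a, b)` of `S³` -/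
def mir (x : S3) : S3 :=
  mkS3 ((starRingEnd ℂ) (cfst x)) (csnd x) (by
    rw [RCLike.norm_conj]
    exact norm_sq_add_norm_sq x)

@[simp] lemma cfst_mir (x : S3) : cfst (mir x) = (starRingEnd ℂ) (cfst x) := cfst_mkS3 _ _ _

@[simp] lemma csnd_mir (x : S3) : csnd (mir x) = csnd x := csnd_mkS3 _ _ _

lemma mir_mir (x : S3) : mir (mir x) = x := S3.ext_c (by simp) (by simp)

lemma continuous_mir : Continuous mir :=
  continuous_mkS3 (Complex.continuous_conj.comp continuous_cfst) continuous_csnd _

lemma mir_mem_inner_iff (x : S3) : mir x ∈ data.tube.inner ↔ x ∈ data.tube.inner := by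
  rw [mem_inner_iff, mem_inner_iff, cfst_mir, csnd_mir, RCLike.norm_conj]

/-- the reflection, as a homeomorphism of the exterior of the unknot -/
def mirE : data.tube.Exterior ≃ₜ data.tube.Exterior where
  toFun e := ⟨mir e.1, fun h => e.2 ((mir_mem_inner_iff _).1 h)⟩
  invFun e := ⟨mir e.1, fun h => e.2 ((mir_mem_inner_iff _).1 h)⟩
  left_inv e := Subtype.ext (mir_mir e.1)
  right_inv e := Subtype.ext (mir_mir e.1)
  continuous_toFun := Continuous.subtype_mk (continuous_mir.comp continuous_subtype_val) _
  continuous_invFun := Continuous.subtype_mk (continuous_mir.comp continuous_subtype_val) _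

lemma mir_φ (x y : Circle) : mir (data.φ (x, (y : ℂ))) = data.φ (x⁻¹, (y : ℂ)) := by
  refine S3.ext_c ?_ ?_
  · rw [cfst_mir, cfst_φ, cfst_φ, Circle.coe_inv_eq_conj]
    simp [Complex.real_smul]
  · rw [csnd_mir, csnd_φ, csnd_φ]

/-- On the peripheral torus the reflection is `(x, y) ↦ (x⁻¹, y)`: it fixes `μ` and reverses `λ`. -/
lemma mirE_torus (x y : Circle) : mirE (data.tube.torus (x, y)) = data.tube.torus (x⁻¹, y) :=
  Subtype.ext (mir_φ x y)

lemma mirE_symm_torus (x y : Circle) :
    mirE.symm (data.tube.torus (x, y)) = data.tube.torus (x⁻¹, y) :=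
  Subtype.ext (mir_φ x y)

/-- **The reflection extends over the fillings**: `E_U(p μ + q λ) ≃ₜ E_U(p μ - q λ)`. -/
def fillingMirror (p q a b : ℤ) : data.tube.Filling p q a b ≃ₜ data.tube.Filling p (-q) a (-b) :=
  quotHomeomorph (mirE.sumCongr (Homeomorph.refl Tube.SolidTorus))
    (by
      rintro _ _ ⟨u, z, rfl, rfl⟩
      refine ⟨u, z, rfl, ?_⟩
      change Sum.inl (mirE (data.tube.torus _)) = _
      rw [mirE_torus]
      refine congrArg (fun x => Sum.inl (data.tube.torus x)) (Prod.ext ?_ rfl)
      simp [mul_comm])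
    (by
      rintro _ _ ⟨u, z, rfl, rfl⟩
      refine ⟨u, z, rfl, ?_⟩
      change Sum.inl (mirE.symm (data.tube.torus _)) = _
      rw [mirE_symm_torus]
      refine congrArg (fun x => Sum.inl (data.tube.torus x)) (Prod.ext ?_ rfl)
      simp [mul_comm])

/-- the reflection, between fillings with arbitrary completions of determinant one -/
theorem nonempty_filling_neg {p q a b p' q' a' b' : ℤ} (hp : p' = -p) (hq : q' = q)
    (h : q * a - p * b = 1) (h' : q' * a' - p' * b' = 1) :
    Nonempty (data.tube.Filling p q a b ≃ₜ data.tube.Filling p' q' a' b') := by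
  subst hp hq
  obtain ⟨f, -⟩ := data.tube.exists_homeomorph_of_det_eq_one (p := -p) (q := q') (a := a)
    (b := -b) (a' := a') (b' := b') (by linear_combination h) h'
  have g := (fillingMirror p q' a b).trans (data.tube.fillingNeg p (-q') a (-b)).symm
  rw [neg_neg] at g
  exact ⟨g.trans f.symm⟩

/-- **`S³_r(U) ≃ₜ S³_{-r}(U)` for every rational slope `r`**: without the condition on the orientation the conclusion `r = s` of `Statement` fails for
the unknot and every pair `(r, -r)`, `r ≠ 0`. -/
theorem nonempty_surgery_neg (r : ℚ) :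
    Nonempty (data.tube.Surgery (r : OnePoint ℚ) ≃ₜ data.tube.Surgery ((-r : ℚ) : OnePoint ℚ)) :=
  nonempty_filling_neg (Rat.num_neg_eq_neg_num r) (congrArg (Nat.cast : ℕ → ℤ) (Rat.den_neg_eq_den r))
    (slope_det (r : OnePoint ℚ)) (slope_det ((-r : ℚ) : OnePoint ℚ))

end UnknotMirror

end

end Claimed.Open.R306
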