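import Claimed.Open.R306.SanityCosmetic
import Claimed.Open.R306.SanityLens

/-!
# All the powers of the twist of the exterior of the unknot

The exterior of the standard unknot `U` is a solid torus; the `k`-fold twist `(a, b) ↦ ((b / |b|) ^ k a, b)` along its meridian disc is a
homeomorphism of `E_U` which maps `μ` to `μ + k λ` and fixes `λ`.  Hence it extends over the filling solid tori:

* `UnknotTwist.fillingTw`: `E_U(p μ + q λ) ≃ₜ E_U(p μ + (q + k p) λ)`, for all `p q a b k`;
* `UnknotTwist.nonempty_surgery_homeomorph`: `S³_{p/q}(U) ≃ₜ S³_{p/(q + k p)}(U)`, in the notation of `Statement.lean` (both signs of `q + k p`);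
* `UnknotTwist.nonempty_surgery_homeomorph_sphere_iff`: `S³_r(U) ≃ₜ S³` **if and only if** the numerator of `r` is `± 1`, that is `r = ∞` or `r = 1 / n`.

So the conclusion `r = s` of `Statement` fails for the unknot for infinitely many pairs of slopes, if the condition on the orientation is dropped.
Only homeomorphisms are constructed here: nothing is claimed on orientations (for the pair `(∞, 1)` see `SanityCosmetic.lean`).
-/

set_option autoImplicit false

open Set Metric Topology

namespace Claimed.Open.R306

noncomputable section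

namespace UnknotTwist

open Unknot Cosmetic

/-- the `k`-fold twist `(a, b) ↦ ((b / |b|) ^ k a, b)` -/
def twk (k : ℤ) (x : S3) : S3 := rot (unitOf (csnd x) ^ k) x

lemma twk_twk (k l : ℤ) (x : S3) : twk k (twk l x) = twk (k + l) x := by
  rw [twk, twk, csnd_rot, rot_rot, ← zpow_add]
  rfl

lemma twk_zero (x : S3) : twk 0 x = x := by
  rw [twk, zpow_zero, rot_one]

/-- the `k`-fold twist, as a homeomorphism of the exterior of the unknot -/
def twkE (k : ℤ) : data.tube.Exterior ≃ₜ data.tube.Exterior where
  toFun e := ⟨twk k e.1, fun h => e.2 ((rot_mem_inner_iff _ _).1 h)⟩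
  invFun e := ⟨twk (-k) e.1, fun h => e.2 ((rot_mem_inner_iff _ _).1 h)⟩
  left_inv e := Subtype.ext (by
    change twk (-k) (twk k e.1) = e.1
    rw [twk_twk, neg_add_cancel, twk_zero])
  right_inv e := Subtype.ext (by
    change twk k (twk (-k) e.1) = e.1
    rw [twk_twk, add_neg_cancel, twk_zero])
  continuous_toFun := Continuous.subtype_mk
    (continuous_rot' (continuous_unitOf_csnd.zpow k) continuous_subtype_val) _
  continuous_invFun := Continuous.subtype_mk
    (continuous_rot' (continuous_unitOf_csnd.zpow (-k)) continuous_subtype_val) _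

lemma twk_φ (k : ℤ) (x y : Circle) : twk k (data.φ (x, (y : ℂ))) = data.φ (y ^ k * x, (y : ℂ)) := by
  have h : unitOf (csnd (data.φ (x, (y : ℂ)))) = y := by
    rw [csnd_φ, unitOf_smul (sc_pos _), unitOf_coe]
  rw [twk, h]
  refine S3.ext_c ?_ ?_
  · rw [cfst_rot, cfst_φ, cfst_φ]
    simp only [Circle.coe_mul, mul_smul_comm]
  · rw [csnd_rot, csnd_φ, csnd_φ]

/-- On the peripheral torus the twist is `(x, y) ↦ (y ^ k x, y)`: it maps `μ` to `μ + k λ` and fixes `λ`. -/
lemma twkE_torus (k : ℤ) (x y : Circle) :
    twkE k (data.tube.torus (x, y)) = data.tube.torus (y ^ k * x, y) :=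
  Subtype.ext (twk_φ k x y)

lemma twkE_symm_torus (k : ℤ) (x y : Circle) :
    (twkE k).symm (data.tube.torus (x, y)) = data.tube.torus (y ^ (-k) * x, y) :=
  Subtype.ext (twk_φ (-k) x y)

lemma zpow_aux (u z : Circle) (p q a b k : ℤ) :
    (u ^ p * z ^ a) ^ k * (u ^ q * z ^ b) = u ^ (q + k * p) * z ^ (b + k * a) := by
  rw [mul_zpow, ← zpow_mul, ← zpow_mul, zpow_add, zpow_add, mul_comm k p, mul_comm k a]
  exact mul_mul_mul_comm _ _ _ _ |>.trans (by rw [mul_comm (u ^ (p * k)), mul_comm (z ^ (a * k))])

/-- **The twist extends over the fillings**: `E_U(p μ + q λ) ≃ₜ E_U(p μ + (q + k p) λ)`. -/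
def fillingTw (p q a b k : ℤ) :
    data.tube.Filling p q a b ≃ₜ data.tube.Filling p (q + k * p) a (b + k * a) :=
  quotHomeomorph ((twkE k).sumCongr (Homeomorph.refl Tube.SolidTorus))
    (by
      rintro _ _ ⟨u, z, rfl, rfl⟩
      refine ⟨u, z, rfl, ?_⟩
      change Sum.inl (twkE k (data.tube.torus _)) = _
      rw [twkE_torus, zpow_aux])
    (by
      rintro _ _ ⟨u, z, rfl, rfl⟩
      refine ⟨u, z, rfl, ?_⟩
      change Sum.inl ((twkE k).symm (data.tube.torus _)) = _
      rw [twkE_symm_torus, zpow_aux]
      refine congrArg (fun x => Sum.inl (data.tube.torus x)) (Prod.ext ?_ rfl)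
      change u ^ (q + k * p + -k * p) * z ^ (b + k * a + -k * a) = u ^ q * z ^ b
      rw [show q + k * p + -k * p = q by ring, show b + k * a + -k * a = b by ring])

/-- the reflection `(x, z) ↦ (x, z⁻¹)` of the solid torus -/
def flipCore : Tube.SolidTorus ≃ₜ Tube.SolidTorus :=
  (Homeomorph.refl _).prodCongr (Homeomorph.inv Circle)

/-- The completions `(a, b)` and `(-a, -b)` give the same filling, for every tube. -/
def fillingFlip {K : Set S3} (N : Tube K) (p q a b : ℤ) : N.Filling p q (-a) (-b) ≃ₜ N.Filling p q a b :=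
  quotHomeomorph ((Homeomorph.refl N.Exterior).sumCongr flipCore)
    (by
      rintro _ _ ⟨u, z, rfl, rfl⟩
      refine ⟨u, z⁻¹, rfl, ?_⟩
      refine congrArg (fun x => Sum.inl (N.torus x)) (Prod.ext ?_ ?_) <;> simp)
    (by
      rintro _ _ ⟨u, z, rfl, rfl⟩
      refine ⟨u, z⁻¹, rfl, ?_⟩
      refine congrArg (fun x => Sum.inl (N.torus x)) (Prod.ext ?_ ?_) <;> simp)

/-- the twist, between fillings with arbitrary completions of determinant one -/
theorem nonempty_filling_homeomorph {p q a b p' q' a' b' : ℤ} (k : ℤ) (hp : p' = p)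
    (hq : q' = q + k * p) (h : q * a - p * b = 1) (h' : q' * a' - p' * b' = 1) :
    Nonempty (data.tube.Filling p q a b ≃ₜ data.tube.Filling p' q' a' b') := by
  subst hp hq
  obtain ⟨f, -⟩ := data.tube.exists_homeomorph_of_det_eq_one (p := p') (q := q + k * p') (a := a)
    (b := b + k * a) (a' := a') (b' := b') (by linear_combination h) h'
  exact ⟨(fillingTw p' q a b k).trans f.symm⟩

/-- the same if `q + k p` is negative: the slope is then written `(-p) / (-(q + k p))` -/
theorem nonempty_filling_homeomorph_neg {p q a b p' q' a' b' : ℤ} (k : ℤ) (hp : p' = -p)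
    (hq : q' = -(q + k * p)) (h : q * a - p * b = 1) (h' : q' * a' - p' * b' = 1) :
    Nonempty (data.tube.Filling p q a b ≃ₜ data.tube.Filling p' q' a' b') := by
  subst hp hq
  obtain ⟨f⟩ := nonempty_filling_homeomorph (p := p) (q := q) (a := a) (b := b) (a' := -a')
    (b' := -b') k rfl rfl h (by linear_combination h')
  exact ⟨(f.trans (fillingFlip data.tube p (q + k * p) a' b')).trans
    (data.tube.fillingNeg p (q + k * p) a' b').symm⟩

/-- the gluing matrix of `Tube.Surgery` has determinant one -/
lemma slope_det (r : Slope) :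
    r.den * Int.gcdB r.num r.den - r.num * (-Int.gcdA r.num r.den) = 1 := by
  have h := Int.gcd_eq_gcd_ab r.num r.den
  have h1 : Int.gcd r.num r.den = 1 := by
    induction r using OnePoint.rec with
    | infty => rfl
    | coe x => exact x.reduced
  rw [h1] at h
  push_cast at h
  linarith

/-- **`S³_{p/q}(U) ≃ₜ S³_{p/(q + k p)}(U)`**, for the standard unknot, its standard tube, and all slopes `r = p / q`, `s = p / (q + k p)` (the second
alternative is the case `q + k p < 0`, in which `s` has the numerator `-p` and the denominator `-(q + k p)`). -/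
theorem nonempty_surgery_homeomorph (r s : Slope) (k : ℤ)
    (h : (s.num = r.num ∧ s.den = r.den + k * r.num) ∨
      (s.num = -r.num ∧ s.den = -(r.den + k * r.num))) :
    Nonempty (data.tube.Surgery r ≃ₜ data.tube.Surgery s) := by
  rcases h with ⟨h1, h2⟩ | ⟨h1, h2⟩
  · exact nonempty_filling_homeomorph k h1 h2 (slope_det r) (slope_det s)
  · exact nonempty_filling_homeomorph_neg k h1 h2 (slope_det r) (slope_det s)

/-- **`S³_r(U)` is homeomorphic to `S³` if and only if the numerator of `r` is `± 1`** (that is, `r = ∞` or `r = 1 / n`, `n ≠ 0`). -/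
theorem nonempty_surgery_homeomorph_sphere_iff (r : Slope) :
    Nonempty (data.tube.Surgery r ≃ₜ S3) ↔ r.num = 1 ∨ r.num = -1 := by
  constructor
  · rintro ⟨f⟩
    by_cases hp : r.num = 0
    · exfalso
      have hd : r.den = 1 := by
        have h := slope_det r
        have h1 : Int.gcd r.num r.den = 1 := by
          induction r using OnePoint.rec with
          | infty => rfl
          | coe x => exact x.reduced
        rw [hp, Int.gcd_zero_left] at h1
        have h2 : 0 ≤ r.den := by
          induction r using OnePoint.rec with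
          | infty => exact le_rfl
          | coe x => exact Int.natCast_nonneg _
        omega
      obtain ⟨g, -⟩ := data.tube.exists_homeomorph_of_det_eq_one (p := r.num) (q := r.den) (a := 1)
        (b := 0) (by rw [hd]; norm_num) (slope_det r)
      have key : ∀ p q : ℤ, p = 0 → q = 1 → IsEmpty (data.tube.Filling p q 1 0 ≃ₜ S3) := by
        rintro p q rfl rfl
        exact data.tube.isEmpty_filling_zero_homeomorph isPreferred
      exact (key _ _ hp hd).false (g.symm.trans f)
    · exact data.tube.eq_one_or_neg_one_of_homeomorph isPreferred hp f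
  · rintro (h | h)
    · obtain ⟨f⟩ := nonempty_filling_homeomorph (p := 1) (q := 0) (a := 0) (b := -1) r.den h
        (by ring) (by norm_num) (slope_det r)
      exact ⟨f.symm.trans data.tube.fillingInfty⟩
    · obtain ⟨f⟩ := nonempty_filling_homeomorph_neg (p := 1) (q := 0) (a := 0) (b := -1) (-r.den) h
        (by ring) (by norm_num) (slope_det r)
      exact ⟨f.symm.trans data.tube.fillingInfty⟩

/-- `S³_{1/n}(U) ≃ₜ S³` for every `n ≥ 1`. -/
theorem nonempty_surgery_inv_homeomorph_sphere (n : ℕ) (hn : 0 < n) :
    Nonempty (data.tube.Surgery (((n : ℚ)⁻¹ : ℚ) : OnePoint ℚ) ≃ₜ S3) :=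
  (nonempty_surgery_homeomorph_sphere_iff _).2 (Or.inl (Rat.inv_natCast_num_of_pos hn))

/-- **The conclusion of `Statement` fails for the unknot for infinitely many pairs of slopes, if orientations are ignored**: the surgeries
`S³_{1/n}(U)`, `n ≥ 1`, are pairwise homeomorphic, and the slopes `1 / n` are pairwise different. -/
theorem nonempty_surgery_inv_homeomorph (m n : ℕ) (hm : 0 < m) (hn : 0 < n) :
    Nonempty (data.tube.Surgery (((m : ℚ)⁻¹ : ℚ) : OnePoint ℚ) ≃ₜ
      data.tube.Surgery (((n : ℚ)⁻¹ : ℚ) : OnePoint ℚ)) := by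
  obtain ⟨f⟩ := nonempty_surgery_inv_homeomorph_sphere m hm
  obtain ⟨g⟩ := nonempty_surgery_inv_homeomorph_sphere n hn
  exact ⟨f.trans g.symm⟩

end UnknotTwist

end

end Claimed.Open.R306
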