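import Claimed.Open.R306.SanityCosmeticGeom

/-!
# The `0`-surgery on the unknot is `S¹ × S²`

For the standard unknot `U` and its standard tube (positive, preferred):

* `ZeroUnknot.fillingZero : data.tube.Filling 0 1 1 0 ≃ₜ Circle × S2`, an explicit homeomorphism from the filling along the longitude to
  `S¹ × S²` (`S2` is the unit sphere of `ℝ³`): the exterior `|a| ≤ |b|` is mapped by `(a, b) ↦ (b/|b|, (y, √(1 - |y|²)))`, `y = a/|b|`, onto
  `S¹ ×` the upper hemisphere, and the filling solid torus by `(x, z) ↦ (z, (x, -√(1 - |x|²)))` onto `S¹ ×` the lower hemisphere;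
* `ZeroUnknot.nonempty_surgery_zero_homeomorph`: `S³_0(U) ≅ S¹ × S²` for `Tube.Surgery` at the slope `0` of `Statement.lean`.
-/

set_option autoImplicit false

open Set Metric Topology

namespace Claimed.Open.R306

noncomputable section

namespace ZeroUnknot

open Unknot Cosmetic

/-- `ℝ³` -/
abbrev E3 : Type := EuclideanSpace ℝ (Fin 3)

/-- The two-sphere: the unit sphere of `ℝ³`. -/
abbrev S2 : Type := sphere (0 : E3) 1

/-- `ℂ × ℝ → ℝ³` -/
def toE3 : ℂ × ℝ →L[ℝ] E3 :=
  LinearMap.toContinuousLinearMap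
    { toFun := fun x => !₂[x.1.re, x.1.im, x.2]
      map_add' := by
        intro x y; ext i; fin_cases i <;> simp
      map_smul' := by
        intro c x; ext i; fin_cases i <;> simp }

lemma toE3_apply (x : ℂ × ℝ) : toE3 x = !₂[x.1.re, x.1.im, x.2] := rfl

lemma norm_toE3_sq (x : ℂ × ℝ) : ‖toE3 x‖ ^ 2 = ‖x.1‖ ^ 2 + x.2 ^ 2 := by
  rw [EuclideanSpace.real_norm_sq_eq, Fin.sum_univ_three, Complex.sq_norm, Complex.normSq_apply]
  simp [toE3_apply]
  ring

lemma toE3_injective : Function.Injective toE3 := by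
  intro x y h
  have h0 := congrArg (fun p : E3 => p 0) h
  have h1 := congrArg (fun p : E3 => p 1) h
  have h2 := congrArg (fun p : E3 => p 2) h
  simp [toE3_apply] at h0 h1 h2
  exact Prod.ext (Complex.ext h0 h1) h2

lemma toE3_surjective (p : E3) : ∃ x, toE3 x = p :=
  ⟨(⟨p 0, p 1⟩, p 2), by ext i; fin_cases i <;> simp [toE3_apply]⟩

/-- the graphs of `± √(1 - |x|²)` -/
def cap (s : ℝ) (x : ℂ) : E3 := toE3 (x, s * Real.sqrt (1 - ‖x‖ ^ 2))

lemma continuous_cap (s : ℝ) : Continuous (cap s) :=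
  toE3.continuous.comp (continuous_id.prodMk (continuous_const.mul
    (Real.continuous_sqrt.comp (continuous_const.sub (continuous_norm.pow 2)))))

lemma cap_mem {s : ℝ} (hs : s ^ 2 = 1) {x : ℂ} (hx : ‖x‖ ≤ 1) : cap s x ∈ sphere (0 : E3) 1 := by
  rw [mem_sphere_zero_iff_norm]
  have h1 : 0 ≤ 1 - ‖x‖ ^ 2 := by nlinarith [norm_nonneg x]
  have h := norm_toE3_sq (x, s * Real.sqrt (1 - ‖x‖ ^ 2))
  simp only [mul_pow, hs, Real.sq_sqrt h1] at h
  have h2 : ‖cap s x‖ ^ 2 = 1 := by
    rw [cap, h]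
    ring
  exact (pow_eq_one_iff_of_nonneg (norm_nonneg _) two_ne_zero).mp h2

lemma cap_injective {s : ℝ} {x x' : ℂ} (h : cap s x = cap s x') : x = x' :=
  congrArg Prod.fst (toE3_injective h)

lemma cap_coe (s : ℝ) (u : Circle) : cap s (u : ℂ) = toE3 ((u : ℂ), 0) := by
  simp [cap, Circle.norm_coe]

/-- if the two hemispheres meet, the point is on the equator -/
lemma norm_eq_one_of_cap_eq {x x' : ℂ} (hx : ‖x‖ ≤ 1) (h : cap 1 x = cap (-1) x') : x = x' ∧ ‖x‖ = 1 := by
  have h1 := toE3_injective h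
  have h2 : x = x' := congrArg Prod.fst h1
  have h3 : 1 * Real.sqrt (1 - ‖x‖ ^ 2) = -1 * Real.sqrt (1 - ‖x'‖ ^ 2) := congrArg Prod.snd h1
  rw [← h2] at h3
  have h4 : Real.sqrt (1 - ‖x‖ ^ 2) = 0 := by linarith
  have h5 : 0 ≤ 1 - ‖x‖ ^ 2 := by nlinarith [norm_nonneg x]
  have h6 : 1 - ‖x‖ ^ 2 = 0 := (Real.sqrt_eq_zero h5).1 h4
  refine ⟨h2, ?_⟩
  have h7 : ‖x‖ ^ 2 = 1 := by linarith
  exact (pow_eq_one_iff_of_nonneg (norm_nonneg _) two_ne_zero).mp h7

/-! ### the exterior -/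

/-- the coordinate `a / |b|` on the exterior -/
def yE (e : data.tube.Exterior) : ℂ := (‖csnd e.1‖⁻¹ : ℝ) • cfst e.1

lemma par_yE (e : data.tube.Exterior) : par (θ e) (yE e) = e.1 :=
  par_of_csnd_ne_zero e.1 (csnd_ne_zero e)

lemma par_mem_inner_iff (β : Circle) (v : ℂ) : par β v ∈ data.tube.inner ↔ 1 < ‖v‖ := by
  rw [mem_inner_iff, cfst_par, csnd_par, norm_smul, norm_smul, Circle.norm_coe, mul_one]
  have h1 : 0 < ‖sc v‖ := norm_pos_iff.2 (sc_pos _).ne'
  constructor
  · intro h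
    by_contra h2
    rw [not_lt] at h2
    nlinarith
  · intro h
    nlinarith

lemma norm_yE_le (e : data.tube.Exterior) : ‖yE e‖ ≤ 1 := by
  by_contra h
  rw [not_le] at h
  refine e.2 ?_
  rw [← par_yE e]
  exact (par_mem_inner_iff _ _).2 h

lemma continuous_yE : Continuous yE := by
  have h1 : Continuous fun e : data.tube.Exterior => ‖csnd e.1‖ :=
    (continuous_csnd.comp continuous_subtype_val).norm
  exact (h1.inv₀ (fun e => norm_ne_zero_iff.2 (csnd_ne_zero e))).smul
    (continuous_cfst.comp continuous_subtype_val)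

/-- the point of the exterior with coordinates `(β, v)`, `|v| ≤ 1` -/
def parE (β : Circle) (v : ℂ) (hv : ‖v‖ ≤ 1) : data.tube.Exterior :=
  ⟨par β v, fun h => absurd ((par_mem_inner_iff β v).1 h) (not_lt.2 hv)⟩

lemma θ_parE (β : Circle) (v : ℂ) (hv : ‖v‖ ≤ 1) : θ (parE β v hv) = β :=
  (par_injective (par_yE (parE β v hv))).1

lemma yE_parE (β : Circle) (v : ℂ) (hv : ‖v‖ ≤ 1) : yE (parE β v hv) = v :=
  (par_injective (par_yE (parE β v hv))).2

lemma torus_eq_parE (u z : Circle) :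
    data.tube.torus (u, z) = parE z (u : ℂ) (by simp [Circle.norm_coe]) := by
  refine Subtype.ext (S3.ext_c ?_ ?_)
  · change cfst (data.φ (u, (z : ℂ))) = cfst (par z (u : ℂ))
    rw [cfst_φ, cfst_par, sc_coe, sc_coe]
  · change csnd (data.φ (u, (z : ℂ))) = csnd (par z (u : ℂ))
    rw [csnd_φ, csnd_par, sc_coe, sc_coe]

/-! ### the map -/

/-- the map on the exterior -/
def mapE (e : data.tube.Exterior) : Circle × S2 :=
  (θ e, ⟨cap 1 (yE e), cap_mem (by norm_num) (norm_yE_le e)⟩)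

/-- the map on the filling solid torus -/
def mapV (v : Tube.SolidTorus) : Circle × S2 :=
  (v.2, ⟨cap (-1) (v.1 : ℂ), cap_mem (by norm_num) (mem_closedBall_zero_iff.mp v.1.2)⟩)

lemma continuous_mapE : Continuous mapE :=
  θ.continuous.prodMk (((continuous_cap 1).comp continuous_yE).subtype_mk _)

lemma continuous_mapV : Continuous mapV :=
  continuous_snd.prodMk
    (((continuous_cap (-1)).comp (continuous_subtype_val.comp continuous_fst)).subtype_mk _)

lemma mapE_injective : Function.Injective mapE := by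
  intro e e' h
  have h1 : θ e = θ e' := congrArg Prod.fst h
  have h2 : yE e = yE e' := cap_injective (congrArg (fun p : Circle × S2 => p.2.1) h)
  refine Subtype.ext ?_
  rw [← par_yE e, ← par_yE e', h1, h2]

lemma mapV_injective : Function.Injective mapV := by
  intro v v' h
  have h1 : v.2 = v'.2 := congrArg Prod.fst h
  have h2 : (v.1 : ℂ) = v'.1 := cap_injective (congrArg (fun p : Circle × S2 => p.2.1) h)
  exact Prod.ext (Subtype.ext h2) h1

lemma mapV_rim (u z : Circle) : mapV (Tube.rim u, z) = mapE (data.tube.torus (u, z)) := by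
  rw [torus_eq_parE]
  refine Prod.ext (θ_parE _ _ _).symm (Subtype.ext ?_)
  change cap (-1) (u : ℂ) = cap 1 (yE (parE z (u : ℂ) _))
  rw [yE_parE, cap_coe, cap_coe]

/-- the map from the `0`-filling to `S¹ × S²` -/
def toProd : data.tube.Filling 0 1 1 0 → Circle × S2 :=
  Quot.lift (Sum.elim mapE mapV) (by
    rintro _ _ ⟨u, z, rfl, rfl⟩
    simp only [Sum.elim_inr, Sum.elim_inl, zpow_one, zpow_zero, mul_one, one_mul]
    exact mapV_rim u z)

lemma continuous_toProd : Continuous toProd :=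
  continuous_quot_lift _ (continuous_mapE.sumElim continuous_mapV)

lemma toProd_mixed (e : data.tube.Exterior) (v : Tube.SolidTorus) (h : mapE e = mapV v) :
    (Quot.mk _ (Sum.inl e) : data.tube.Filling 0 1 1 0) = Quot.mk _ (Sum.inr v) := by
  obtain ⟨h1, h2⟩ := norm_eq_one_of_cap_eq (norm_yE_le e) (congrArg (fun p : Circle × S2 => p.2.1) h)
  obtain ⟨w, z⟩ := v
  have hw : ‖(w : ℂ)‖ = 1 := by rw [← h1]; exact h2
  obtain ⟨u, hu⟩ : ∃ u : Circle, Tube.rim u = w :=
    ⟨⟨(w : ℂ), mem_sphere_zero_iff_norm.mpr hw⟩, Subtype.ext rfl⟩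
  subst hu
  have h3 : e = data.tube.torus (u, z) := mapE_injective (h.trans (mapV_rim u z))
  rw [h3]
  refine (Quot.sound ⟨u, z, rfl, ?_⟩).symm
  simp only [zpow_one, zpow_zero, mul_one, one_mul]

lemma bijective_toProd : Function.Bijective toProd := by
  constructor
  · rintro ⟨x⟩ ⟨y⟩ h
    rcases x with e | v <;> rcases y with e' | v'
    · exact congrArg (fun t => Quot.mk _ (Sum.inl t)) (mapE_injective h)
    · exact toProd_mixed e v' h
    · exact (toProd_mixed e' v h.symm).symm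
    · exact congrArg (fun t => Quot.mk _ (Sum.inr t)) (mapV_injective h)
  · rintro ⟨z, p⟩
    obtain ⟨⟨x, t⟩, hxt⟩ := toE3_surjective p.1
    have hn : ‖x‖ ^ 2 + t ^ 2 = 1 := by
      have h1 := norm_toE3_sq (x, t)
      rw [hxt, norm_eq_of_mem_sphere p] at h1
      simpa using h1.symm
    have hx : ‖x‖ ≤ 1 := by nlinarith [norm_nonneg x, sq_nonneg t]
    have hs : 1 - ‖x‖ ^ 2 = t ^ 2 := by linarith
    rcases le_total 0 t with ht | ht
    · refine ⟨Quot.mk _ (Sum.inl (parE z x hx)), ?_⟩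
      refine Prod.ext (θ_parE _ _ _) (Subtype.ext ?_)
      change cap 1 (yE (parE z x hx)) = p.1
      rw [yE_parE, cap, hs, Real.sqrt_sq ht, one_mul, hxt]
    · refine ⟨Quot.mk _ (Sum.inr (⟨x, mem_closedBall_zero_iff.mpr hx⟩, z)), ?_⟩
      refine Prod.ext rfl (Subtype.ext ?_)
      change cap (-1) x = p.1
      rw [cap, hs, Real.sqrt_sq_eq_abs, abs_of_nonpos ht, neg_one_mul, neg_neg, hxt]

/-- **The filling of the exterior of the unknot along the longitude is `S¹ × S²`.** -/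
def fillingZero : data.tube.Filling 0 1 1 0 ≃ₜ Circle × S2 :=
  continuous_toProd.homeoOfEquivCompactToT2 (f := Equiv.ofBijective _ bijective_toProd)

/-- the homeomorphism on the exterior: `(a, b) ↦ (b/|b|, (y, √(1 - |y|²)))`, `y = a/|b|` -/
lemma fillingZero_exterior (e : data.tube.Exterior) :
    fillingZero (Quot.mk _ (Sum.inl e)) = mapE e := rfl

/-- the homeomorphism on the solid torus: `(x, z) ↦ (z, (x, -√(1 - |x|²)))` -/
lemma fillingZero_solid (v : Tube.SolidTorus) :
    fillingZero (Quot.mk _ (Sum.inr v)) = mapV v := rfl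

/-- **`S³_0(U) ≅ S¹ × S²`**, for the surgery of `Statement.lean` at the slope `0`. -/
theorem nonempty_surgery_zero_homeomorph :
    Nonempty (data.tube.Surgery ((0 : ℚ) : OnePoint ℚ) ≃ₜ Circle × S2) := by
  have hdet : Slope.den ((0 : ℚ) : OnePoint ℚ) *
        Int.gcdB (Slope.num ((0 : ℚ) : OnePoint ℚ)) (Slope.den ((0 : ℚ) : OnePoint ℚ)) -
      Slope.num ((0 : ℚ) : OnePoint ℚ) *
        (-Int.gcdA (Slope.num ((0 : ℚ) : OnePoint ℚ)) (Slope.den ((0 : ℚ) : OnePoint ℚ))) = 1 := by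
    have h := Int.gcd_eq_gcd_ab (Slope.num ((0 : ℚ) : OnePoint ℚ)) (Slope.den ((0 : ℚ) : OnePoint ℚ))
    have hg : Int.gcd (Slope.num ((0 : ℚ) : OnePoint ℚ)) (Slope.den ((0 : ℚ) : OnePoint ℚ)) = 1 := by
      simp [Slope.num, Slope.den]
    rw [hg] at h
    push_cast at h
    linarith
  obtain ⟨f, -⟩ := data.tube.exists_homeomorph_of_det_eq_one hdet
    (a' := 1) (b' := 0) (by simp [Slope.num, Slope.den])
  exact ⟨f.symm.trans fillingZero⟩

end ZeroUnknot

end

end Claimed.Open.R306
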