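import Claimed.Open.R306.SanitySeparate

/-!
# For every knot: `S³_0(K)` is not homeomorphic to `S³`

Let `N` be a tube of an arbitrary knot `K` whose longitude is the preferred one (`Tube.IsPreferred`).  The map `θ : E_K → S¹` of
`Tube.IsPreferred` is null-homotopic on the longitude, which bounds the meridian discs of the solid torus of the `0`-filling.

* `ZeroInfty.exists_lift_torus`: a map `τ : S¹ × S¹ → S¹` which is null-homotopic on `S¹ × 1` has the form
  `τ (u, z) = τ (1, z) · exp (i φ (u, z))` with a continuous real function `φ` on the torus (homotopy lifting in the direction of `u`;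
  the lift closes up);
* `ZeroInfty.exists_extension`: hence `τ` extends to `D² × S¹` (Tietze's theorem for `φ`);
* `Tube.exists_extension_filling_zero`: hence `θ` extends to a map from the `0`-filling to the circle;
* `Tube.isEmpty_filling_zero_homeomorph`: this map has degree one on the meridian of `K`, so that it is not null-homotopic, whereas every
  map `S³ → S¹` is null-homotopic: the `0`-filling is not homeomorphic to `S³`.
-/

set_option autoImplicit false

open Set Metric Topology unitInterval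

namespace Claimed.Open.R306

noncomputable section

namespace ZeroInfty

/-- Two lifts on a connected space differ by a constant. -/
lemma exists_int_of_lifts {X : Type*} [TopologicalSpace X] [PreconnectedSpace X] (g₁ g₂ : C(X, ℝ))
    (h : ∀ x, Circle.exp (g₁ x) = Circle.exp (g₂ x)) :
    ∃ m : ℤ, ∀ x, g₁ x = g₂ x + m * (2 * Real.pi) := by
  have hm : ∀ x : X, ∃ m : ℤ, g₁ x = g₂ x + m * (2 * Real.pi) := fun x =>
    Circle.exp_eq_exp.mp (h x)
  choose m hm using hm
  have hcont : Continuous m := by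
    rw [Int.isClosedEmbedding_coe_real.isEmbedding.continuous_iff]
    have h2 : (fun x : X => ((m x : ℤ) : ℝ)) = fun x : X => (g₁ x - g₂ x) / (2 * Real.pi) := by
      funext x
      rw [hm x]
      field_simp
      ring
    change Continuous (fun x : X => ((m x : ℤ) : ℝ))
    rw [h2]
    fun_prop
  rcases isEmpty_or_nonempty X with hX | ⟨⟨w⟩⟩
  · exact ⟨0, fun x => (hX.false x).elim⟩
  · refine ⟨m w, fun x => ?_⟩
    have : m x = m w := PreconnectedSpace.constant inferInstance hcont
    rw [← this]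
    exact hm x

/-- the map `[0, 1] × S¹ → S¹ × S¹` which winds the interval once around the first circle -/
def wind : C(I × Circle, Circle × Circle) :=
  ⟨fun y => (Circle.exp (2 * Real.pi * (y.1 : ℝ)), y.2), by fun_prop⟩

lemma wind_surjective : Function.Surjective wind := by
  rintro ⟨u, z⟩
  obtain ⟨t, rfl⟩ := Circle.exp_surjective u
  refine ⟨(⟨Int.fract (t / (2 * Real.pi)), Int.fract_nonneg _, (Int.fract_lt_one _).le⟩, z), ?_⟩
  refine Prod.ext ?_ rfl
  change Circle.exp (2 * Real.pi * Int.fract (t / (2 * Real.pi))) = Circle.exp t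
  refine Circle.exp_eq_exp.mpr ⟨-⌊t / (2 * Real.pi)⌋, ?_⟩
  rw [← Int.self_sub_floor]
  push_cast
  field_simp
  ring

lemma isQuotientMap_wind : IsQuotientMap wind :=
  (wind.continuous.isClosedMap).isQuotientMap wind.continuous wind_surjective

/-- the fibres of `wind` -/
lemma wind_eq_wind {s t : I} {z w : Circle} (h : wind (s, z) = wind (t, w)) :
    z = w ∧ (s = t ∨ (s = 0 ∧ t = 1) ∨ (s = 1 ∧ t = 0)) := by
  have h1 : Circle.exp (2 * Real.pi * (s : ℝ)) = Circle.exp (2 * Real.pi * (t : ℝ)) :=
    congrArg Prod.fst h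
  have h2 : z = w := congrArg Prod.snd h
  refine ⟨h2, ?_⟩
  obtain ⟨m, hm⟩ := Circle.exp_eq_exp.mp h1
  have hpi : (0 : ℝ) < 2 * Real.pi := by positivity
  have h3 : (s : ℝ) = t + m := by
    have : 2 * Real.pi * ((s : ℝ) - (t + m)) = 0 := by rw [mul_sub, hm]; ring
    rcases mul_eq_zero.mp this with h | h
    · exact absurd h hpi.ne'
    · linarith
  have hs0 := s.2.1
  have hs1 := s.2.2
  have ht0 := t.2.1
  have ht1 := t.2.2
  have hm1 : (m : ℝ) ≤ 1 := by linarith
  have hm2 : (-1 : ℝ) ≤ m := by linarith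
  have hm1' : m ≤ 1 := by exact_mod_cast hm1
  have hm2' : -1 ≤ m := by exact_mod_cast hm2
  have : m = -1 ∨ m = 0 ∨ m = 1 := by omega
  rcases this with rfl | rfl | rfl
  · right; left
    push_cast at h3
    exact ⟨Subtype.ext (by change (s : ℝ) = 0; linarith), Subtype.ext (by change (t : ℝ) = 1; linarith)⟩
  · left
    push_cast at h3
    exact Subtype.ext (by linarith)
  · right; right
    push_cast at h3
    exact ⟨Subtype.ext (by change (s : ℝ) = 1; linarith), Subtype.ext (by change (t : ℝ) = 0; linarith)⟩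

/-- A map from the torus to the circle which is null-homotopic on the circle `S¹ × 1` is, up to a factor which lifts to the
real line, a function of the second coordinate. -/
theorem exists_lift_torus (τ : C(Circle × Circle, Circle))
    (h : (τ.comp ⟨fun u => (u, 1), by fun_prop⟩ : C(Circle, Circle)).Nullhomotopic) :
    ∃ φ : C(Circle × Circle, ℝ), ∀ u z, τ (u, z) = τ (1, z) * Circle.exp (φ (u, z)) := by
  obtain ⟨ψ, hψ⟩ := exists_lift_of_nullhomotopic h
  replace hψ : ∀ u, Circle.exp (ψ u) = τ (u, 1) := hψ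
  let H : C(I × Circle, Circle) := ⟨fun y => (τ (1, y.2))⁻¹ * τ (wind y), by fun_prop⟩
  have w0 : ∀ z, wind (0, z) = (1, z) := fun z => by simp [wind]
  have w1 : ∀ z, wind (1, z) = (1, z) := fun z => by simp [wind]
  have H_0 : ∀ a, H (0, a) = Circle.exp ((ContinuousMap.const Circle (0 : ℝ)) a) := by
    intro a
    simp [H, w0]
  obtain ⟨Φ, hlift, hzero⟩ : ∃ Φ : C(I × Circle, ℝ), (∀ y, Circle.exp (Φ y) = H y) ∧
      ∀ z, Φ (0, z) = 0 :=
    ⟨Circle.isCoveringMap_exp.liftHomotopy H (ContinuousMap.const Circle 0) H_0,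
      fun y => congrFun (Circle.isCoveringMap_exp.liftHomotopy_lifts H _ H_0) y,
      fun z => Circle.isCoveringMap_exp.liftHomotopy_zero H _ H_0 z⟩
  -- the lift closes up over the base point
  have h11 : Φ (1, 1) = 0 := by
    obtain ⟨m, hm⟩ := exists_int_of_lifts
      (Φ.comp ⟨fun t : I => (t, (1 : Circle)), by fun_prop⟩)
      (⟨fun t : I => ψ (wind (t, 1)).1 - ψ 1, by fun_prop⟩ : C(I, ℝ)) (fun t => by
        change Circle.exp (Φ (t, 1)) = Circle.exp (ψ (wind (t, 1)).1 - ψ 1)
        rw [hlift, Circle.exp_sub, hψ, hψ, div_eq_inv_mul]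
        rfl)
    have e0 := hm 0
    have e1 := hm 1
    change Φ (0, 1) = ψ (wind (0, 1)).1 - ψ 1 + m * (2 * Real.pi) at e0
    change Φ (1, 1) = ψ (wind (1, 1)).1 - ψ 1 + m * (2 * Real.pi) at e1
    rw [w0, hzero] at e0
    rw [w1] at e1
    rw [e1, ← e0]
  -- hence over every point
  have h1 : ∀ z, Φ (1, z) = 0 := by
    obtain ⟨m, hm⟩ := exists_int_of_lifts
      (Φ.comp ⟨fun z : Circle => ((1 : I), z), by fun_prop⟩) (ContinuousMap.const Circle 0)
      (fun z => by
        change Circle.exp (Φ (1, z)) = Circle.exp 0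
        rw [hlift]
        simp [H, w1])
    intro z
    have e1 := hm 1
    have ez := hm z
    change Φ (1, 1) = 0 + m * (2 * Real.pi) at e1
    change Φ (1, z) = 0 + m * (2 * Real.pi) at ez
    rw [ez, ← e1, h11]
  have hfac : Function.FactorsThrough Φ wind := by
    rintro ⟨s, z⟩ ⟨t, w⟩ hst
    obtain ⟨rfl, rfl | ⟨rfl, rfl⟩ | ⟨rfl, rfl⟩⟩ := wind_eq_wind hst
    · rfl
    · rw [hzero, h1]
    · rw [hzero, h1]
  refine ⟨isQuotientMap_wind.lift Φ hfac, fun u z => ?_⟩
  obtain ⟨⟨t, w⟩, hy⟩ := wind_surjective (u, z)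
  have hw : w = z := congrArg Prod.snd hy
  subst hw
  have h2 : isQuotientMap_wind.lift Φ hfac (wind (t, w)) = Φ (t, w) :=
    congrArg (fun f : C(I × Circle, ℝ) => f (t, w)) (isQuotientMap_wind.lift_comp Φ hfac)
  rw [← hy, h2, hlift]
  change τ (wind (t, w)) = τ (1, w) * ((τ (1, w))⁻¹ * τ (wind (t, w)))
  rw [mul_inv_cancel_left]

/-- the inclusion `S¹ × S¹ = ∂D² × S¹ → D² × S¹` -/
def rimMap : C(Circle × Circle, Tube.SolidTorus) :=
  ⟨fun y => (Tube.rim y.1, y.2),
    (Continuous.subtype_mk (continuous_subtype_val.comp continuous_fst) _).prodMk continuous_snd⟩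

lemma isClosedEmbedding_rimMap : IsClosedEmbedding rimMap := by
  refine rimMap.continuous.isClosedEmbedding ?_
  rintro ⟨u, z⟩ ⟨u', z'⟩ h
  have h1 : (u : ℂ) = u' := congrArg (fun y : Tube.SolidTorus => (y.1 : ℂ)) h
  have h2 : z = z' := congrArg Prod.snd h
  exact Prod.ext (Subtype.ext h1) h2

/-- A map from the torus `∂D² × S¹` to the circle which is null-homotopic on the boundary `∂D² × 1` of a meridian disc extends to
the solid torus `D² × S¹`. -/
theorem exists_extension (τ : C(Circle × Circle, Circle))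
    (h : (τ.comp ⟨fun u => (u, 1), by fun_prop⟩ : C(Circle, Circle)).Nullhomotopic) :
    ∃ G : C(Tube.SolidTorus, Circle), ∀ u z, G (Tube.rim u, z) = τ (u, z) := by
  obtain ⟨φ, hφ⟩ := exists_lift_torus τ h
  obtain ⟨Φ, hΦ⟩ := ContinuousMap.exists_extension isClosedEmbedding_rimMap φ
  refine ⟨⟨fun y => τ (1, y.2) * Circle.exp (Φ y), by fun_prop⟩, fun u z => ?_⟩
  have h1 : Φ (Tube.rim u, z) = φ (u, z) := congrArg (fun f : C(Circle × Circle, ℝ) => f (u, z)) hΦ
  change τ (1, z) * Circle.exp (Φ (Tube.rim u, z)) = τ (u, z)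
  rw [h1, ← hφ]

end ZeroInfty

namespace Tube

variable {K : Set S3} (N : Tube K)

/-- the inclusion of the exterior into a filling -/
def exteriorToFilling (p q a b : ℤ) : C(N.Exterior, N.Filling p q a b) :=
  ⟨fun e => Quot.mk _ (Sum.inl e), continuous_quot_mk.comp continuous_inl⟩

/-- A map from the exterior to the circle which is null-homotopic on the longitude extends to the `0`-filling. -/
theorem exists_extension_filling_zero (θ : C(N.Exterior, Circle))
    (h : (θ.comp N.longitude).Nullhomotopic) :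
    ∃ Θ : C(N.Filling 0 1 1 0, Circle), Θ.comp (N.exteriorToFilling 0 1 1 0) = θ := by
  obtain ⟨G, hG⟩ := ZeroInfty.exists_extension (θ.comp N.torus) h
  refine ⟨⟨Quot.lift (Sum.elim θ G) ?_, continuous_quot_lift _ (θ.continuous.sumElim G.continuous)⟩,
    rfl⟩
  rintro _ _ ⟨u, z, rfl, rfl⟩
  change G (rim u, z) = θ (N.torus (u ^ (1 : ℤ) * z ^ (0 : ℤ), u ^ (0 : ℤ) * z ^ (1 : ℤ)))
  rw [hG]
  simp

/-- **For every knot and every tube with the preferred longitude the `0`-filling is not homeomorphic to `S³`.** -/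
theorem isEmpty_filling_zero_homeomorph (h : N.IsPreferred) : IsEmpty (N.Filling 0 1 1 0 ≃ₜ S3) := by
  obtain ⟨θ, hμ, hl⟩ := h
  obtain ⟨Θ, hΘ⟩ := N.exists_extension_filling_zero θ hl
  refine ⟨fun f => ?_⟩
  have h1 : (Θ.comp (toContinuousMap f.symm)).Nullhomotopic := nullhomotopic_of_S3 _
  have h2 := h1.comp_left ((toContinuousMap f).comp ((N.exteriorToFilling 0 1 1 0).comp N.meridian))
  have h3 : (Θ.comp (toContinuousMap f.symm)).comp
      ((toContinuousMap f).comp ((N.exteriorToFilling 0 1 1 0).comp N.meridian)) =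
      θ.comp N.meridian := by
    rw [← hΘ]
    ext z
    change ((Θ (f.symm (f (N.exteriorToFilling 0 1 1 0 (N.meridian z)))) : Circle) : ℂ) = _
    rw [Homeomorph.symm_apply_apply]
    rfl
  rw [h3] at h2
  obtain ⟨c, hc⟩ := h2
  have h4 : (zpowMap 1).Nullhomotopic := by
    refine ⟨c, ?_⟩
    have h5 : zpowMap 1 = ContinuousMap.id Circle := by
      ext z
      simp
    rw [h5]
    exact hμ.symm.trans hc
  exact one_ne_zero (eq_zero_of_nullhomotopic_zpowMap h4)

end Tube

end

end Claimed.Open.R306
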