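import Mathlib

/-!
# A criterion for smooth embeddings

Mathlib's `Manifold.IsImmersion` asks for charts in which the map is `u ↦ (u, 0)`.  The criterion
"smooth with a smooth inverse on an open set" is not yet in Mathlib; we prove the version that the
examples of tubular neighbourhoods need.
-/

set_option autoImplicit false

open scoped Manifold ContDiff Topology
open Manifold Set Metric Module

namespace Claimed.Open.R306

noncomputable section

section General

variable {E : Type*} [NormedAddCommGroup E] [NormedSpace ℝ E]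
  {E'' : Type*} [NormedAddCommGroup E''] [NormedSpace ℝ E'']
  {H : Type*} [TopologicalSpace H] {I : ModelWithCorners ℝ E H} [I.Boundaryless]
  {M : Type*} [TopologicalSpace M] [ChartedSpace H M]
  {N : Type*} [TopologicalSpace N] [ChartedSpace E'' N]
  {n : WithTop ℕ∞}

/-- A map `f : M → N` with an inverse `g` defined on the open set `U`, both of class `C^n`. -/
structure OpenEmbData (I : ModelWithCorners ℝ E H) (M : Type*) [TopologicalSpace M]
    [ChartedSpace H M] (N : Type*) [TopologicalSpace N] [ChartedSpace E'' N] (n : WithTop ℕ∞) where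
  /-- the map -/
  f : M → N
  /-- its inverse -/
  g : N → M
  /-- the image -/
  U : Set N
  isOpen_U : IsOpen U
  contMDiff_f : ContMDiff I 𝓘(ℝ, E'') n f
  contMDiffOn_g : ContMDiffOn 𝓘(ℝ, E'') I n g U
  f_mem : ∀ x, f x ∈ U
  g_f : ∀ x, g (f x) = x
  f_g : ∀ y ∈ U, f (g y) = y

namespace OpenEmbData

variable (D : OpenEmbData (E'' := E'') I M N n)

/-- The open partial homeomorphism of the data. -/
def toOPH : OpenPartialHomeomorph M N where
  toFun := D.f
  invFun := D.g
  source := univ
  target := D.U
  map_source' := fun x _ => D.f_mem x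
  map_target' := fun _ _ => mem_univ _
  left_inv' := fun x _ => D.g_f x
  right_inv' := fun y hy => D.f_g y hy
  open_source := isOpen_univ
  open_target := D.isOpen_U
  continuousOn_toFun := D.contMDiff_f.continuous.continuousOn
  continuousOn_invFun := D.contMDiffOn_g.continuousOn

omit [I.Boundaryless] in
lemma isOpenEmbedding : Topology.IsOpenEmbedding D.f :=
  D.toOPH.isOpenEmbedding rfl

/-- The chart of `N` near `f x` obtained by transporting the chart of `M` at `x`. -/
def codChart (e : E ≃L[ℝ] E'') (x : M) : OpenPartialHomeomorph N E'' :=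
  (D.toOPH.symm.trans (chartAt H x)).transHomeomorph (I.toHomeomorph.trans e.toHomeomorph)

lemma codChart_apply (e : E ≃L[ℝ] E'') (x : M) (y : N) :
    D.codChart e x y = e (I (chartAt H x (D.g y))) := rfl

lemma codChart_source (e : E ≃L[ℝ] E'') (x : M) :
    (D.codChart e x).source = D.U ∩ D.g ⁻¹' (chartAt H x).source := rfl

lemma codChart_symm_apply (e : E ≃L[ℝ] E'') (x : M) (y : E'') :
    (D.codChart e x).symm y = D.f ((chartAt H x).symm (I.symm (e.symm y))) := rfl

lemma codChart_mem_maximalAtlas [IsManifold I n M] [IsManifold 𝓘(ℝ, E'') n N]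
    (e : E ≃L[ℝ] E'') (x : M) :
    D.codChart e x ∈ IsManifold.maximalAtlas 𝓘(ℝ, E'') n N := by
  apply OpenPartialHomeomorph.mem_maximalAtlas_of_contMDiffOn
  · have h1 : ContMDiffOn 𝓘(ℝ, E'') I n (fun y => chartAt H x (D.g y)) (D.codChart e x).source :=
      (contMDiffOn_chart (I := I) (n := n) (x := x)).comp
        (D.contMDiffOn_g.mono (by rw [codChart_source]; exact inter_subset_left))
        (by rw [codChart_source]; exact inter_subset_right)
    have h2 : ContMDiff I 𝓘(ℝ, E'') n (fun h : H => e (I h)) :=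
      e.contDiff.contMDiff.comp I.contMDiff
    exact h2.comp_contMDiffOn h1
  · have h1 : ContMDiff 𝓘(ℝ, E'') I n (fun y : E'' => I.symm (e.symm y)) := by
      have := (I.contMDiffOn_symm (n := n))
      rw [I.range_eq_univ] at this
      exact (contMDiffOn_univ.1 this).comp e.symm.contDiff.contMDiff
    have h2 : ContMDiffOn 𝓘(ℝ, E'') I n (fun y : E'' => (chartAt H x).symm (I.symm (e.symm y)))
        (D.codChart e x).target :=
      (contMDiffOn_chart_symm (I := I) (n := n) (x := x)).comp h1.contMDiffOn (by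
        intro y hy
        exact hy.1)
    exact D.contMDiff_f.comp_contMDiffOn h2

/-- A `C^n` map with a `C^n` inverse on an open set is a `C^n` embedding. -/
theorem isSmoothEmbedding [IsManifold I n M] [IsManifold 𝓘(ℝ, E'') n N] (e : E ≃L[ℝ] E'') :
    IsSmoothEmbedding I 𝓘(ℝ, E'') n D.f := by
  refine ⟨IsImmersionOfComplement.isImmersion (F := PUnit) fun x => ?_,
    D.isOpenEmbedding.isEmbedding⟩
  apply IsImmersionAtOfComplement.mk_of_continuousAt D.contMDiff_f.continuous.continuousAt
    ((ContinuousLinearEquiv.prodUnique ℝ E PUnit).trans e)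
    (chartAt H x) (D.codChart e x) (mem_chart_source H x)
    (by rw [codChart_source]; exact ⟨D.f_mem x, by simp [D.g_f]⟩)
    (IsManifold.chart_mem_maximalAtlas x) (D.codChart_mem_maximalAtlas e x)
  intro y hy
  have : I ((chartAt H x) ((chartAt H x).symm (I.symm y))) = y := by
    rw [(chartAt H x).right_inv (by simp_all), I.right_inv (by simp_all)]
  simp [codChart_apply, D.g_f, this]

end OpenEmbData

end General

section Core

variable {E₁ : Type*} [NormedAddCommGroup E₁] [NormedSpace ℝ E₁]
  {F : Type*} [NormedAddCommGroup F] [NormedSpace ℝ F]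
  {E'' : Type*} [NormedAddCommGroup E''] [NormedSpace ℝ E'']
  {H₁ : Type*} [TopologicalSpace H₁] {I₁ : ModelWithCorners ℝ E₁ H₁} [I₁.Boundaryless]
  {M₁ : Type*} [TopologicalSpace M₁] [ChartedSpace H₁ M₁]
  {N : Type*} [TopologicalSpace N] [ChartedSpace E'' N]
  {n : WithTop ℕ∞}

/-- If `f : M₁ × F → N` is a `C^n` map with a `C^n` inverse on an open set, then its restriction to
the zero section `M₁ × 0` is a `C^n` embedding. -/
theorem OpenEmbData.isSmoothEmbedding_core
    (D : OpenEmbData (E'' := E'') (I₁.prod 𝓘(ℝ, F)) (M₁ × F) N n)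
    [IsManifold I₁ n M₁] [IsManifold 𝓘(ℝ, E'') n N] (e : (E₁ × F) ≃L[ℝ] E'') :
    IsSmoothEmbedding I₁ 𝓘(ℝ, E'') n (fun z : M₁ => D.f (z, 0)) := by
  have hcont : Continuous (fun z : M₁ => D.f (z, 0)) :=
    D.contMDiff_f.continuous.comp (by fun_prop)
  refine ⟨IsImmersionOfComplement.isImmersion (F := F) fun x => ?_,
    D.isOpenEmbedding.isEmbedding.comp (Topology.IsEmbedding.of_comp (by fun_prop)
      continuous_fst Topology.IsEmbedding.id)⟩
  apply IsImmersionAtOfComplement.mk_of_continuousAt hcont.continuousAt e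
    (chartAt H₁ x) (D.codChart e (x, 0)) (mem_chart_source H₁ x)
    (by rw [codChart_source]; exact ⟨D.f_mem _, by simp [D.g_f]⟩)
    (IsManifold.chart_mem_maximalAtlas x) (D.codChart_mem_maximalAtlas e (x, 0))
  intro y hy
  have : I₁ ((chartAt H₁ x) ((chartAt H₁ x).symm (I₁.symm y))) = y := by
    rw [(chartAt H₁ x).right_inv (by simp_all), I₁.right_inv (by simp_all)]
  simp only [Function.comp_apply, OpenPartialHomeomorph.extend_coe, modelWithCornersSelf_coe, id,
    OpenPartialHomeomorph.extend_coe_symm, codChart_apply, D.g_f]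
  exact congrArg e (Prod.ext this rfl)

end Core

/-! ### Maps into spheres which are smooth on a subset -/

section Sphere

variable {E : Type*} [NormedAddCommGroup E] [InnerProductSpace ℝ E]
variable {m : WithTop ℕ∞} {F : Type*} [NormedAddCommGroup F] [NormedSpace ℝ F]
variable {H : Type*} [TopologicalSpace H] {I : ModelWithCorners ℝ F H}
variable {M : Type*} [TopologicalSpace M] [ChartedSpace H M] [IsManifold I m M]

/-- The `ContMDiffOn` version of Mathlib's `ContMDiff.codRestrict_sphere` (same proof). -/
theorem contMDiffOn_codRestrict_sphere {n : ℕ} [Fact (finrank ℝ E = n + 1)] {f : M → E} {s : Set M}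
    (hf : ContMDiffOn I 𝓘(ℝ, E) m f s) (hf' : ∀ x, f x ∈ sphere (0 : E) 1) :
    ContMDiffOn I (𝓡 n) m (Set.codRestrict _ _ hf' : M → sphere (0 : E) 1) s := by
  rw [contMDiffOn_iff_target]
  refine ⟨continuousOn_iff_continuous_domRestrict.2
    (continuous_induced_rng.2 hf.continuousOn.domRestrict), ?_⟩
  intro v
  let U : _ ≃ₗᵢ[ℝ] _ :=
    (OrthonormalBasis.fromOrthogonalSpanSingleton
        n (ne_zero_of_mem_unit_sphere (-v))).repr
  have h : ContDiffOn ℝ ω _ Set.univ := U.contDiff.contDiffOn
  have H₁ := (h.comp_inter contDiffOn_stereoToFun).contMDiffOn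
  convert! (H₁.of_le le_top).comp' hf using 1
  ext x
  have hfxv : f x = -↑v ↔ inner ℝ (f x) (-↑v : E) = 1 := by
    have hfx : ‖f x‖ = 1 := by simpa using hf' x
    rw [inner_eq_one_iff_of_norm_eq_one hfx]
    exact norm_eq_of_mem_sphere (-v)
  simp [chartAt, ChartedSpace.chartAt, Subtype.ext_iff, hfxv, real_inner_comm]

/-- A map into a sphere is `C^m` on `s` if it is so as a map into the ambient space. -/
theorem contMDiffOn_sphere_of_coe {n : ℕ} [Fact (finrank ℝ E = n + 1)]
    {f : M → sphere (0 : E) 1} {s : Set M}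
    (hf : ContMDiffOn I 𝓘(ℝ, E) m (fun x => (f x : E)) s) : ContMDiffOn I (𝓡 n) m f s :=
  contMDiffOn_codRestrict_sphere hf (fun x => (f x).2)

/-- A map into the circle is `C^m` on `s` if it is so as a map into `ℂ`. -/
theorem contMDiffOn_circle_of_coe {f : M → Circle} {s : Set M}
    (hf : ContMDiffOn I 𝓘(ℝ, ℂ) m (fun x => (f x : ℂ)) s) : ContMDiffOn I (𝓡 1) m f s :=
  haveI := finrank_real_complex_fact'
  contMDiffOn_sphere_of_coe (E := ℂ) (n := 1) (f := f) hf

/-- The inclusion of the circle into `ℂ` is smooth. -/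
theorem contMDiff_coe_circle : ContMDiff (𝓡 1) 𝓘(ℝ, ℂ) m (fun z : Circle => (z : ℂ)) :=
  haveI := finrank_real_complex_fact'
  contMDiff_coe_sphere (E := ℂ) (n := 1)

end Sphere

end

end Claimed.Open.R306
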