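import Claimed.Open.R306.SanityTrefoilDef
import Claimed.Open.R306.SanityEmbed

/-!
# A tubular neighbourhood of the trefoil knot

`trefoilTube : Tube trefoil` is an explicit trivialised tubular neighbourhood of the trefoil knot
`trefoil = {(3/5 t², 4/5 t³) : |t| = 1} ⊂ S³`.
-/

set_option autoImplicit false

open scoped Manifold ContDiff ComplexConjugate
open Manifold Set Complex

namespace Claimed.Open.R306

noncomputable section

/-! ### Smoothness of the building blocks -/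

section FunProp

variable {E : Type*} [NormedAddCommGroup E] [NormedSpace ℝ E] {n : WithTop ℕ∞} {x : E}

@[fun_prop] lemma contDiffAt_ofReal {f : E → ℝ} (hf : ContDiffAt ℝ n f x) :
    ContDiffAt ℝ n (fun y => (f y : ℂ)) x := Complex.ofRealCLM.contDiff.contDiffAt.comp x hf

@[fun_prop] lemma contDiffAt_re {f : E → ℂ} (hf : ContDiffAt ℝ n f x) :
    ContDiffAt ℝ n (fun y => (f y).re) x := Complex.reCLM.contDiff.contDiffAt.comp x hf

@[fun_prop] lemma contDiffAt_im {f : E → ℂ} (hf : ContDiffAt ℝ n f x) :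
    ContDiffAt ℝ n (fun y => (f y).im) x := Complex.imCLM.contDiff.contDiffAt.comp x hf

@[fun_prop] lemma contDiffAt_conj {f : E → ℂ} (hf : ContDiffAt ℝ n f x) :
    ContDiffAt ℝ n (fun y => conj (f y)) x := Complex.conjCLE.contDiff.contDiffAt.comp x hf

@[fun_prop] lemma contDiffAt_norm' {F : Type*} [NormedAddCommGroup F] [InnerProductSpace ℝ F]
    {f : E → F} (hf : ContDiffAt ℝ n f x) (h0 : f x ≠ 0) :
    ContDiffAt ℝ n (fun y => ‖f y‖) x := hf.norm ℝ h0

@[fun_prop] lemma contDiffAt_mk {f g : E → ℝ} (hf : ContDiffAt ℝ n f x) (hg : ContDiffAt ℝ n g x) :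
    ContDiffAt ℝ n (fun y => (⟨f y, g y⟩ : ℂ)) x := by
  have : (fun y => (⟨f y, g y⟩ : ℂ)) = fun y => (f y : ℂ) + (g y : ℂ) * I := by
    funext y
    apply Complex.ext <;> simp
  rw [this]
  fun_prop

@[fun_prop] lemma contDiffAt_zc {f : E → R4} (hf : ContDiffAt ℝ n f x) :
    ContDiffAt ℝ n (fun y => zc (f y)) x := by
  have h := contDiffAt_euclidean.1 hf
  exact contDiffAt_mk (h 0) (h 1)

@[fun_prop] lemma contDiffAt_wc {f : E → R4} (hf : ContDiffAt ℝ n f x) :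
    ContDiffAt ℝ n (fun y => wc (f y)) x := by
  have h := contDiffAt_euclidean.1 hf
  exact contDiffAt_mk (h 2) (h 3)

@[fun_prop] lemma contDiffAt_ofC {f g : E → ℂ} (hf : ContDiffAt ℝ n f x)
    (hg : ContDiffAt ℝ n g x) : ContDiffAt ℝ n (fun y => ofC (f y) (g y)) x := by
  rw [contDiffAt_euclidean]
  intro i
  fin_cases i <;> simp [ofC] <;> fun_prop

end FunProp

/-- The tube map in the ambient coordinates. -/
def tubeAmb (q : ℂ × ℂ) : R4 := tn q.1 (conj q.1 ^ 6 * q.2)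

lemma contDiffAt_tubeAmb {n : WithTop ℕ∞} {q : ℂ × ℂ} (hq : q.1 ≠ 0) :
    ContDiffAt ℝ n tubeAmb q := by
  have h0 : tq q.1 (conj q.1 ^ 6 * q.2) ≠ 0 := tq_ne_zero hq _
  have h1 : ‖tq q.1 (conj q.1 ^ 6 * q.2)‖ ≠ 0 := norm_ne_zero_iff.mpr h0
  have h2 : ContDiffAt ℝ n (fun q : ℂ × ℂ => tq q.1 (conj q.1 ^ 6 * q.2)) q := by
    unfold tq
    fun_prop
  unfold tubeAmb tn
  exact (ContDiffAt.inv (contDiffAt_norm' h2 h0) h1).smul h2

/-- The first component of the inverse in the ambient coordinates. -/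
def invAmb₁ (p : R4) : ℂ := gt p / ‖gt p‖

/-- The second component of the inverse in the ambient coordinates. -/
def invAmb₂ (p : R4) : ℂ := invAmb₁ p ^ 6 * gv p

lemma zc_ne_zero_of_gc {p : R4} (hc : 0 < (gc p).re) : zc p ≠ 0 := by
  intro h
  simp [gc, h] at hc

lemma wc_ne_zero_of_gc {p : R4} (hc : 0 < (gc p).re) : wc p ≠ 0 := by
  intro h
  simp [gc, h] at hc

lemma gt_ne_zero_of_gc {p : R4} (hc : 0 < (gc p).re) : gt p ≠ 0 :=
  mul_ne_zero (wc_ne_zero_of_gc hc) ((map_ne_zero _).mpr (zc_ne_zero_of_gc hc))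

lemma contDiffAt_invAmb₁ {n : WithTop ℕ∞} {p : R4} (hc : 0 < (gc p).re) :
    ContDiffAt ℝ n invAmb₁ p := by
  have h0 : gt p ≠ 0 := gt_ne_zero_of_gc hc
  have h1 : ((‖gt p‖ : ℝ) : ℂ) ≠ 0 := by exact_mod_cast norm_ne_zero_iff.mpr h0
  have h2 : ContDiffAt ℝ n gt p := by
    unfold gt
    fun_prop
  have h3 : ContDiffAt ℝ n (fun p => ((‖gt p‖ : ℝ) : ℂ)) p :=
    contDiffAt_ofReal (contDiffAt_norm' h2 h0)
  have h4 : invAmb₁ = fun p => gt p * ((‖gt p‖ : ℝ) : ℂ)⁻¹ := by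
    funext p
    simp [invAmb₁, div_eq_mul_inv]
  rw [h4]
  exact h2.mul (h3.inv h1)

lemma contDiffAt_gv {n : WithTop ℕ∞} {p : R4} (hc : 0 < (gc p).re) :
    ContDiffAt ℝ n gv p := by
  have hz := zc_ne_zero_of_gc hc
  have hw := wc_ne_zero_of_gc hc
  have h1 : 3 * ‖wc p‖ ≠ 0 := by positivity
  have h2 : 4 * ‖zc p‖ / (3 * ‖wc p‖) ≠ 0 := by positivity
  have h3 : (zc p ^ 3 * conj (wc p) ^ 2).re ≠ 0 := hc.ne'
  unfold gv gc
  fun_prop (disch := assumption)

lemma contDiffAt_invAmb₂ {n : WithTop ℕ∞} {p : R4} (hc : 0 < (gc p).re) :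
    ContDiffAt ℝ n invAmb₂ p :=
  ((contDiffAt_invAmb₁ hc).pow 6).mul (contDiffAt_gv hc)

/-! ### The tube -/

/-- `ℝ⁴` has dimension `3 + 1`. -/
theorem fact_finrank_R4 : Fact (Module.finrank ℝ (EuclideanSpace ℝ (Fin 4)) = 3 + 1) :=
  ⟨finrank_euclideanSpace_fin⟩

attribute [local instance] fact_finrank_R4

/-- The tube map `S¹ × ℂ → S³`. -/
def trefoilFun (x : Circle × ℂ) : S3 :=
  ⟨tubeAmb ((x.1 : ℂ), x.2), mem_sphere_zero_iff_norm.mpr (norm_tn (Circle.coe_ne_zero _) _)⟩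

/-- The inverse of the tube map. -/
def trefoilInv (p : S3) : Circle × ℂ := (circ (gt p.1), (circ (gt p.1) : ℂ) ^ 6 * gv p.1)

/-- The image of the tube map. -/
def trefoilU : Set S3 := {p | 0 < (gc p.1).re}

lemma continuous_gc : Continuous gc := by
  have h : ∀ p, ContDiffAt ℝ 0 gc p := by
    intro p
    unfold gc
    fun_prop
  exact continuous_iff_continuousAt.mpr fun p => (h p).continuousAt

lemma isOpen_trefoilU : IsOpen trefoilU :=
  isOpen_lt continuous_const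
    (Complex.continuous_re.comp (continuous_gc.comp continuous_subtype_val))

lemma contMDiff_trefoilFun : ContMDiff ((𝓡 1).prod 𝓘(ℝ, ℂ)) (𝓡 3) ∞ trefoilFun := by
  have h : ContMDiff ((𝓡 1).prod 𝓘(ℝ, ℂ)) 𝓘(ℝ, R4) ∞
      (fun x : Circle × ℂ => tubeAmb ((x.1 : ℂ), x.2)) := by
    intro x
    have h1 : ContMDiffAt ((𝓡 1).prod 𝓘(ℝ, ℂ)) 𝓘(ℝ, ℂ × ℂ) ∞
        (fun x : Circle × ℂ => ((x.1 : ℂ), x.2)) x :=
      ((contMDiff_coe_circle.comp contMDiff_fst).prodMk_space contMDiff_snd) x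
    exact ContMDiffAt.comp (g := tubeAmb) x
      (contDiffAt_tubeAmb (q := ((x.1 : ℂ), x.2)) (Circle.coe_ne_zero _)).contMDiffAt h1
  exact h.codRestrict_sphere (fun x => (trefoilFun x).2)

/-- A function which is smooth near a subset of `S³ ⊂ ℝ⁴` restricts to a smooth function. -/
lemma contMDiffOn_S3_of_contDiffAt {F : Type*} [NormedAddCommGroup F] [NormedSpace ℝ F]
    {Φ : R4 → F} {s : Set S3} (h : ∀ p ∈ s, ContDiffAt ℝ ∞ Φ (p : R4)) :
    ContMDiffOn (𝓡 3) 𝓘(ℝ, F) ∞ (fun p : S3 => Φ p.1) s := by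
  intro p hp
  have h1 : ContMDiffAt (𝓡 3) 𝓘(ℝ, R4) ∞ (fun p : S3 => (p : R4)) p := contMDiff_coe_sphere p
  exact ((h p hp).contMDiffAt.comp p h1).contMDiffWithinAt

lemma coe_circ_gt {p : R4} (hc : 0 < (gc p).re) : (circ (gt p) : ℂ) = invAmb₁ p :=
  coe_circ (gt_ne_zero_of_gc hc)

lemma contMDiffOn_trefoilInv :
    ContMDiffOn (𝓡 3) ((𝓡 1).prod 𝓘(ℝ, ℂ)) ∞ trefoilInv trefoilU := by
  apply ContMDiffOn.prodMk
  · apply contMDiffOn_circle_of_coe
    refine (contMDiffOn_S3_of_contDiffAt (Φ := invAmb₁) (s := trefoilU)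
      fun p hp => contDiffAt_invAmb₁ hp).congr fun p hp => coe_circ_gt hp
  · refine (contMDiffOn_S3_of_contDiffAt (Φ := invAmb₂) (s := trefoilU)
      fun p hp => contDiffAt_invAmb₂ hp).congr fun p hp => ?_
    rw [coe_circ_gt hp]
    rfl

lemma trefoilFun_mem (x : Circle × ℂ) : trefoilFun x ∈ trefoilU := gc_tn_re_pos _ _

lemma circle_pow_six (t : Circle) : (t : ℂ) ^ 6 * conj (t : ℂ) ^ 6 = 1 := by
  rw [← mul_pow, circle_mul_conj, one_pow]

lemma trefoilInv_trefoilFun (x : Circle × ℂ) : trefoilInv (trefoilFun x) = x := by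
  obtain ⟨t, v⟩ := x
  simp only [trefoilInv, trefoilFun, tubeAmb, circ_gt_tn, gv_tn]
  rw [← mul_assoc, circle_pow_six, one_mul]

lemma trefoilFun_trefoilInv {p : S3} (hp : p ∈ trefoilU) : trefoilFun (trefoilInv p) = p := by
  apply Subtype.ext
  simp only [trefoilInv, trefoilFun, tubeAmb]
  rw [← mul_assoc, mul_comm (conj _ ^ 6), circle_pow_six, one_mul]
  exact tn_circ_gt_gv (mem_sphere_zero_iff_norm.mp p.2) hp

/-- The tube map with its inverse. -/
def trefoilData : OpenEmbData (E'' := EuclideanSpace ℝ (Fin 3)) ((𝓡 1).prod 𝓘(ℝ, ℂ))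
    (Circle × ℂ) S3 ∞ where
  f := trefoilFun
  g := trefoilInv
  U := trefoilU
  isOpen_U := isOpen_trefoilU
  contMDiff_f := contMDiff_trefoilFun
  contMDiffOn_g := contMDiffOn_trefoilInv
  f_mem := trefoilFun_mem
  g_f := trefoilInv_trefoilFun
  f_g := fun _ hp => trefoilFun_trefoilInv hp

/-- The model spaces of `S¹ × ℂ` and of `S³` are isomorphic. -/
def modelEquiv : (EuclideanSpace ℝ (Fin 1) × ℂ) ≃L[ℝ] EuclideanSpace ℝ (Fin 3) :=
  ContinuousLinearEquiv.ofFinrankEq (by simp)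

/-- The trefoil knot. -/
def trefoil : Set S3 := Set.range (fun t : Circle => trefoilFun (t, 0))

/-- The tubular neighbourhood of the trefoil knot. -/
def trefoilTube : Tube trefoil where
  toFun := trefoilFun
  isSmoothEmbedding := trefoilData.isSmoothEmbedding modelEquiv
  range_core := rfl

/-- The trefoil knot is a smooth knot. -/
theorem isSmoothKnot_trefoil : IsSmoothKnot trefoil :=
  ⟨fun t : Circle => trefoilFun (t, 0), trefoilData.isSmoothEmbedding_core modelEquiv, rfl⟩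

end

end Claimed.Open.R306
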