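import Claimed.Open.R306.Orientation
import Claimed.Open.R306.SanityTrefoilTube

/-!
# The tube of the trefoil knot is positively oriented
-/

set_option autoImplicit false

open scoped ContDiff ComplexConjugate
open Set Complex

namespace Claimed.Open.R306

noncomputable section

namespace Trefoil

lemma lift_eq (x : ℝ × ℂ) : trefoilTube.lift x = tubeAmb (TubeData.expMap x) := by
  rw [TubeData.expMap_eq]
  rfl

lemma contDiff_lift : ContDiff ℝ ∞ trefoilTube.lift := by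
  rw [contDiff_iff_contDiffAt]
  intro x
  have h1 : ContDiffAt ℝ ∞ tubeAmb (TubeData.expMap x) :=
    contDiffAt_tubeAmb (by simp [TubeData.expMap, Complex.exp_ne_zero])
  have h2 : trefoilTube.lift = tubeAmb ∘ TubeData.expMap := funext lift_eq
  rw [h2]
  exact h1.comp x TubeData.contDiff_expMap.contDiffAt

/-- the ambient left inverse -/
def Q (p : E4) : ℂ × ℂ := (invAmb₁ p, invAmb₂ p)

lemma gc_lift_pos (x : ℝ × ℂ) : 0 < (gc (trefoilTube.lift x)).re :=
  trefoilFun_mem (Circle.exp x.1, x.2)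

lemma differentiableAt_Q (x : ℝ × ℂ) : DifferentiableAt ℝ Q (trefoilTube.lift x) :=
  ((contDiffAt_invAmb₁ (n := 1) (gc_lift_pos x)).differentiableAt (by simp)).prodMk
    ((contDiffAt_invAmb₂ (n := 1) (gc_lift_pos x)).differentiableAt (by simp))

lemma Q_lift (x : ℝ × ℂ) : Q (trefoilTube.lift x) = TubeData.expMap x := by
  have h := trefoilInv_trefoilFun (Circle.exp x.1, x.2)
  have h1 : circ (gt (trefoilTube.lift x)) = Circle.exp x.1 := congrArg Prod.fst h
  have h2 : (circ (gt (trefoilTube.lift x)) : ℂ) ^ 6 * gv (trefoilTube.lift x) = x.2 :=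
    congrArg Prod.snd h
  have h3 : invAmb₁ (trefoilTube.lift x) = (Circle.exp x.1 : ℂ) := by
    rw [← coe_circ_gt (gc_lift_pos x), h1]
  rw [TubeData.expMap_eq]
  refine Prod.ext h3 ?_
  change invAmb₁ _ ^ 6 * gv _ = x.2
  rw [← coe_circ_gt (gc_lift_pos x)]
  exact h2

/-- derivative of a normalised curve, up to an unknown multiple of the position -/
lemma hasDerivAt_normalize {q : ℝ → E4} {q' : E4} (h : HasDerivAt q q' 0) (h0 : q 0 ≠ 0) :
    ∃ c : ℝ, HasDerivAt (fun s => ‖q s‖⁻¹ • q s) (c • q 0 + ‖q 0‖⁻¹ • q') 0 := by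
  have hn : DifferentiableAt ℝ (fun s => ‖q s‖⁻¹) 0 :=
    (h.differentiableAt.norm ℝ h0).inv (norm_ne_zero_iff.mpr h0)
  refine ⟨deriv (fun s => ‖q s‖⁻¹) 0, ?_⟩
  rw [add_comm]
  exact hn.hasDerivAt.smul h

lemma hasDerivAt_ofC {f g : ℝ → ℂ} {f' g' : ℂ} {s : ℝ} (hf : HasDerivAt f f' s)
    (hg : HasDerivAt g g' s) : HasDerivAt (fun s => ofC (f s) (g s)) (ofC f' g') s :=
  toE4.hasFDerivAt.comp_hasDerivAt s (hf.prodMk hg)

/-- the base point, before normalisation -/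
def q₀ : E4 := ofC (3 / 4) 1

lemma norm_q₀ : ‖q₀‖ = 5 / 4 := by
  have h : ‖q₀‖ ^ 2 = (5 / 4) ^ 2 := by
    rw [q₀, norm_ofC_sq]
    norm_num
  exact (pow_left_inj₀ (norm_nonneg _) (by norm_num) (by norm_num)).mp h

lemma q₀_ne_zero : q₀ ≠ 0 := by
  rw [← norm_ne_zero_iff, norm_q₀]
  norm_num

lemma lift_line (v : ℝ × ℂ) (s : ℝ) :
    trefoilTube.lift ((0, 0) + s • v) =
      ‖tq (Complex.exp ((s * v.1 : ℝ) * I)) (conj (Complex.exp ((s * v.1 : ℝ) * I)) ^ 6 * (s • v.2))‖⁻¹ •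
        tq (Complex.exp ((s * v.1 : ℝ) * I)) (conj (Complex.exp ((s * v.1 : ℝ) * I)) ^ 6 * (s • v.2)) := by
  rw [lift_eq]
  simp [TubeData.expMap, tubeAmb, tn]

/-- the differential of the lift at the origin, up to an unknown multiple of the position -/
lemma exists_fderiv_lift (v : ℝ × ℂ) {d : E4}
    (h : HasDerivAt (fun s : ℝ => tq (Complex.exp ((s * v.1 : ℝ) * I))
      (conj (Complex.exp ((s * v.1 : ℝ) * I)) ^ 6 * (s • v.2))) d 0) :
    ∃ c : ℝ, fderiv ℝ trefoilTube.lift (0, 0) v = c • q₀ + (4 / 5 : ℝ) • d := by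
  have h0 : tq (Complex.exp (((0 : ℝ) * v.1 : ℝ) * I))
      (conj (Complex.exp (((0 : ℝ) * v.1 : ℝ) * I)) ^ 6 * ((0 : ℝ) • v.2)) = q₀ := by
    simp [tq, q₀]
  obtain ⟨c, hc⟩ := hasDerivAt_normalize h (by rw [h0]; exact q₀_ne_zero)
  refine ⟨c, ?_⟩
  rw [h0, norm_q₀] at hc
  have h1 : fderiv ℝ trefoilTube.lift (0, 0) v = c • q₀ + (5 / 4 : ℝ)⁻¹ • d := by
    apply Tube.fderiv_lift_apply (contDiff_lift.differentiable (by simp))
    refine hc.congr_of_eventuallyEq (Filter.Eventually.of_forall fun s => ?_)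
    exact lift_line v s
  rw [h1]
  norm_num

lemma lift_zero : trefoilTube.lift (0, 0) = (4 / 5 : ℝ) • q₀ := by
  have h := lift_line (0, 0) 0
  simp only [zero_smul, add_zero] at h
  rw [h]
  have h0 : tq (Complex.exp (((0 : ℝ) * (0 : ℝ) : ℝ) * I))
      (conj (Complex.exp (((0 : ℝ) * (0 : ℝ) : ℝ) * I)) ^ 6 * 0) = q₀ := by
    simp [tq, q₀]
  rw [h0, norm_q₀]
  norm_num

lemma exists_fderiv_t :
    ∃ c : ℝ, fderiv ℝ trefoilTube.lift (0, 0) (1, 0) = c • q₀ + (4 / 5 : ℝ) • ofC (3 / 2 * I) (3 * I) := by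
  apply exists_fderiv_lift
  have he : HasDerivAt (fun s : ℝ => Complex.exp ((s : ℂ) * I)) I 0 := by
    have h1 : HasDerivAt (fun s : ℝ => (s : ℂ) * I) I 0 := by
      simpa using (Complex.ofRealCLM.hasDerivAt (x := (0 : ℝ))).mul_const I
    simpa using h1.cexp
  have h2 : HasDerivAt (fun s : ℝ => ofC (Complex.exp ((s : ℂ) * I) ^ 2 * (3 / 4))
      (Complex.exp ((s : ℂ) * I) ^ 3)) (ofC (3 / 2 * I) (3 * I)) 0 := by
    have ha := (he.pow 2).mul_const (3 / 4 : ℂ)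
    have hb := he.pow 3
    convert hasDerivAt_ofC ha hb using 2
    · simp
    · simp
      ring
    · simp
  refine h2.congr_of_eventuallyEq (Filter.Eventually.of_forall fun s => ?_)
  simp [tq]

lemma exists_fderiv_x :
    ∃ c : ℝ, fderiv ℝ trefoilTube.lift (0, 0) (0, 1) = c • q₀ + (4 / 5 : ℝ) • ofC (3 / 4) 0 := by
  apply exists_fderiv_lift
  have h2 : HasDerivAt (fun s : ℝ => ofC ((3 / 4 * Real.exp s : ℝ) : ℂ) 1) (ofC (3 / 4) 0) 0 := by
    have ha : HasDerivAt (fun s : ℝ => ((3 / 4 * Real.exp s : ℝ) : ℂ)) (3 / 4) 0 := by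
      have := ((Real.hasDerivAt_exp 0).const_mul (3 / 4 : ℝ)).ofReal_comp
      simpa using this
    exact hasDerivAt_ofC ha (hasDerivAt_const _ _)
  refine h2.congr_of_eventuallyEq (Filter.Eventually.of_forall fun s => ?_)
  simp [tq]

lemma exists_fderiv_y :
    ∃ c : ℝ, fderiv ℝ trefoilTube.lift (0, 0) (0, I) = c • q₀ + (4 / 5 : ℝ) • ofC (3 / 4 * I) I := by
  apply exists_fderiv_lift
  have h1 : HasDerivAt (fun s : ℝ => 1 + (s : ℂ) * I) I 0 := by
    simpa using ((Complex.ofRealCLM.hasDerivAt (x := (0 : ℝ))).mul_const I).const_add 1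
  have h2 : HasDerivAt (fun s : ℝ => ofC ((1 + (s : ℂ) * I) * (3 / 4)) (1 + (s : ℂ) * I))
      (ofC (3 / 4 * I) I) 0 := by
    convert hasDerivAt_ofC (h1.mul_const (3 / 4 : ℂ)) h1 using 2
    ring
  refine h2.congr_of_eventuallyEq (Filter.Eventually.of_forall fun s => ?_)
  simp [tq]

lemma frame_zero_det : (trefoilTube.frame (0, 0)).det = 144 / 625 := by
  obtain ⟨c₁, h₁⟩ := exists_fderiv_t
  obtain ⟨c₂, h₂⟩ := exists_fderiv_x
  obtain ⟨c₃, h₃⟩ := exists_fderiv_y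
  have h : trefoilTube.frame (0, 0) = Matrix.of ![![3 / 5, 0, 4 / 5, 0],
      ![c₁ * (3 / 4), 6 / 5, c₁, 12 / 5], ![c₂ * (3 / 4) + 3 / 5, 0, c₂, 0],
      ![c₃ * (3 / 4), 3 / 5, c₃, 4 / 5]] := by
    ext i j
    fin_cases i <;> fin_cases j <;>
      simp [Tube.frame, h₁, h₂, h₃, lift_zero, q₀, ofC] <;> norm_num
  rw [h, Matrix.det_succ_row_zero]
  simp [Fin.sum_univ_succ, Matrix.det_fin_three, Fin.succAbove]
  ring

end Trefoil

/-- The tube of the trefoil knot is positively oriented. -/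
theorem trefoilTube_isPositive : trefoilTube.IsPositive :=
  Tube.isPositive_of_point Trefoil.contDiff_lift Trefoil.differentiableAt_Q Trefoil.Q_lift (0, 0)
    (by rw [Trefoil.frame_zero_det]; norm_num)

end

end Claimed.Open.R306
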