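import Claimed.Open.R306.Unknot
import Claimed.Open.R306.TubeOpen
import Claimed.Open.R306.FillingBasic
import Claimed.Open.R306.NonExamples
import Claimed.Open.R306.SanityTrefoilKnotted
import Claimed.Open.R306.TrefoilPositive
import Claimed.Open.R306.SanityTrefoilPreferred
import Claimed.Open.R306.SanityReverse
import Claimed.Open.R306.SanityCosmetic
import Claimed.Open.R306.SanitySeparate
import Claimed.Open.R306.SanityZeroInfty
import Claimed.Open.R306.SanityFillingT2
import Claimed.Open.R306.SanitySlopeZero
import Claimed.Open.R306.SanityFillingManifold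
import Claimed.Open.R306.SanityFillingConnected
import Claimed.Open.R306.SanityLens
import Claimed.Open.R306.SanityPinch
import Claimed.Open.R306.SanityFraming
import Claimed.Open.R306.SanityNotKnot
import Claimed.Open.R306.SanityTrivialKnots
import Claimed.Open.R306.SanityUnknotZero
import Claimed.Open.R306.SanityKnotImage
import Claimed.Open.R306.SanityUnknotTwist
import Claimed.Open.R306.SanitySimplyConnected
import Claimed.Open.R306.SanityUnknotMirror

/-!
# Sanity checks for the definitions of `Statement.lean`

Checked here or in the files this one imports (all without `sorry`):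

* slopes: `p/q` is in lowest terms, the gluing matrix of `Tube.Surgery` has determinant one, a slope
  is determined by `(p, q)`;
* orientation-preserving homeomorphisms of fillings contain the identities and are closed under
  composition and inverses;
* `Tube.isOpenMap`: every tube is an open embedding, so the exterior and all fillings are compact;
* `surgery_infty`: the `∞`-surgery is `S³`, compatibly with the orientations;
* `exists_not_isOrientationPreserving`: for EVERY tube there is a self-homeomorphism of `S³_∞(K)` (a reflection of
  `S³`) which does NOT preserve orientation, so `Tube.IsOrientationPreserving` is a genuine condition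
  (`SanityReverse*.lean`: `H₃` is detected by an elementwise Mayer-Vietoris induction);
* `Tube.exists_homeomorph_of_det_eq_one`, `Tube.fillingNeg`: up to orientation-preserving
  homeomorphism the filling with given `(p, q)` does not depend on the completion of the gluing
  matrix (determinant one), and `Filling (-p) (-q) a b ≃ₜ Filling p q a b`;
* `unknot_example`: the standard unknot is a smooth knot, it is trivial, and it has a tube which is
  positive and has the preferred framing (`Unknot.lean`); so all hypotheses of `Statement` except
  nontriviality are met by an explicit example, with `f` the identity;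
* `unknot_cosmetic`: the hypothesis "nontrivial" of `Statement` cannot be dropped: for the standard unknot and its standard
  (positive, preferred) tube there is an orientation-preserving homeomorphism `S³_∞(U) ≃ₜ S³_1(U)` (`SanityCosmetic*.lean`: a twist
  of the exterior solid torus along a meridian disc; that it preserves orientation is a computation in `H₃` with a cell
  structure of `S³` relative to the tube; the Lean statement is existential: some positive preferred tube of `unknot`, some `r ≠ s`);
* `unknot_surgery_zero`: the fillings do depend on the slope: for a positive preferred tube of the unknot (the proof takes the same one) `S³_0(U)` is NOT homeomorphic to `S³_∞(U)`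
  (`SanitySeparate.lean`: every map `S³ → S¹` lifts to the real line, but `S³_0(U)` has a map to the circle which is the identity on a loop);
* `surgery_zero_infty`, `statement_zero_infty`, `trefoil_surgery_zero`: for EVERY knot and EVERY tube with the preferred longitude `S³_0(K)` is NOT
  homeomorphic to `S³_∞(K)`; so the conclusion of `Statement` holds for the slopes `0, ∞`, in particular for the trefoil knot
  (`SanityZeroInfty.lean`: the map `θ` of `Tube.IsPreferred` extends over the `0`-filling and has degree one on the meridian);
* `surgery_nullhomotopic_iff`, `surgery_zero_ne`, `statement_zero`, `trefoil_surgery_zero_ne`: for EVERY knot and EVERY tube with the preferred longitude,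
  all maps `S³_r(K) → S¹` are null-homotopic if and only if `r ≠ 0`; so `S³_0(K)` is NOT homeomorphic to `S³_r(K)` for any `r ≠ 0`, and the conclusion
  of `Statement` holds as soon as one of the two slopes is `0` (`SanitySlopeZero.lean`);
* `isPreferred_iff_forall`, `Tube.IsPreferred.nullhomotopic_parallel_iff`: `Tube.IsPreferred` does not depend on the map `θ`, and in a preferred tube the
  parallel curve `z ↦ N (z, z ^ k)` is null-homotopic under a map of degree one on the meridian only for `k = 0` (`SanitySlopeZero.lean`: a map `E_K → S¹` which is null-homotopic on the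
  meridian extends over `S³_∞(K) = S³`, so it is null-homotopic);
* `surgery_structure`: every surgery is a compact Hausdorff space, the union of closed copies of `E_K` and of `D² × S¹` which meet exactly in the
  peripheral torus (`SanityFillingT2.lean`);
* `surgery_manifold`: every surgery is a closed three-manifold: compact, Hausdorff, and every point lies in the domain of a chart with values in
  `ℝ³` (`SanityFillingManifold.lean`: the filling solid torus with a collar of `∂E_K` is an open solid torus in the filling, and `S³ ∖ νK` is open in it);
* `surgery_connected`: the exterior of every knot and all its surgeries are connected (`SanityFillingConnected.lean`);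
* `surgery_infty_num`: for EVERY knot and EVERY tube with the preferred longitude: if `S³_r(K)` is homeomorphic to `S³_∞(K) = S³`, then the numerator of `r` is
  `± 1` (`SanityLens.lean`, `SanityLensGroup.lean`: the map `θ^{1/p}` from `E_K` to the lens space `S³ / μ_p` extends to `S³_{p/q}(K)` and does not lift to `S³`);
* `surgery_simplyConnected_num`: for EVERY knot and EVERY tube with the preferred longitude: if `S³_r(K)` is simply connected, then the numerator of `r` is `± 1`
  (`SanitySimplyConnected.lean`; stronger than `surgery_infty_num`);
* `SanityPinch.lean`: `Tube.instT2SpacePinched`, `Tube.pinchSphere_eq_iff`, `Tube.isQuotientMap_pinch`, `Tube.pinch_eq_iff`, `Tube.surgery_pinch`, `Tube.isQuotientMap_pinchExterior`,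
  `Tube.pinchExterior_eq_iff`: the pinched sphere `S³ / νK` is compact Hausdorff, the pinching maps (which define the orientations) are the collapses of the
  filling solid torus, and `S³ / νK = E_K / ∂E_K`;
* `exterior_maps_to_circle`, `preferred_framing_unique`, `preferred_framing_unique_tubeData`: for EVERY knot: IF there is a map `θ : E_K → S¹` of degree one on the
  meridian, then `[E_K, S¹] = ℤ`, generated by `θ` (the existence of `θ` is not proved for a general knot; it is part of `Tube.IsPreferred`), and two tubes which
  differ by `k` full twists both satisfy `Tube.IsPreferred` only for `k = 0` (`SanityFraming.lean`);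
* `smoothKnot_nonexamples`: a smooth knot is homeomorphic to the circle, compact, connected and infinite; the Hopf link, the empty set and the points are
  NOT smooth knots (`SanityNotKnot.lean`);
* `isTrivialKnot_image_iff`, `isTrivialKnot_greatCircle`, `greatCircle_ne_unknot`, `not_isTrivialKnot_image_trefoil`, `not_isTrivialKnot_mirror_trefoil`
  (`SanityTrivialKnots.lean`): every linear isometry of `ℝ⁴` restricts to a diffeomorphism of `S³` (`isoDiffeo`); triviality is invariant under diffeomorphisms; the great
  circle `x₀ = x₁ = 0` is a trivial knot disjoint from `unknot`; no diffeomorphic image of the trefoil (e.g. its mirror image) is trivial;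
* `isSmoothKnot_image_iff`, `Tube.image`, `Tube.IsPreferred.image`, `IsTrivialKnot.isSmoothKnot`, `mirror_trefoil_example` (`SanityKnotImage.lean`): a smooth embedding into `S³`
  followed by a diffeomorphism of `S³` is a smooth embedding in Mathlib's chart sense (`IsSmoothEmbedding.diffeo_comp`; Mathlib has no composition of immersions yet); so smooth
  knots, tubes and the preferred longitude are carried along by diffeomorphisms, every trivial knot is a smooth knot, and the mirror image of the trefoil is a second smooth
  NON-trivial knot, with a tube that has the preferred longitude;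
* `ZeroUnknot.fillingZero`, `ZeroUnknot.nonempty_surgery_zero_homeomorph` (`SanityUnknotZero.lean`): the `0`-surgery on the unknot is `S¹ × S²`;
* `UnknotTwist.fillingTw`, `UnknotTwist.nonempty_surgery_homeomorph`, `UnknotTwist.nonempty_surgery_homeomorph_sphere_iff` (`SanityUnknotTwist.lean`): all powers of the twist of the
  exterior of the unknot extend over the fillings: `S³_{p/q}(U) ≃ₜ S³_{p/(q + kp)}(U)`; `S³_r(U) ≃ₜ S³` iff the numerator of `r` is `± 1` (homeomorphisms only, nothing on
  orientations);
* `UnknotMirror.fillingMirror`, `UnknotMirror.nonempty_surgery_neg` (`SanityUnknotMirror.lean`): the reflection `(a, b) ↦ (conj a, b)` of `S³` extends over the fillings of the unknot: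
  `S³_r(U) ≃ₜ S³_{-r}(U)` for every rational `r` (homeomorphisms only, nothing on orientations);
* `unknot_nonexamples` (`NonExamples.lean`): the mirror image of the standard tube of the unknot is not
  positive; its `k`-fold twists are positive, but have the preferred framing only for `k = 0`;
* `trefoil_example`: the hypotheses of `Statement` on the knot and on the tube are satisfiable: the
  trefoil knot `{(3/5 t², 4/5 t³)}` is a smooth knot, it is NOT trivial (`SanityTrefoilKnotted.lean`: the
  loops of its complement do not commute, seen by the monodromy of a three-fold covering), and it has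
  an explicit tube (`SanityTrefoilTube.lean`) which is positive (`TrefoilPositive.lean`) and has the
  preferred framing (`SanityTrefoilPreferred.lean`, via the Milnor map).  So `Statement` is not vacuous.
-/

set_option autoImplicit false

open CategoryTheory

namespace Claimed.Open.R306

noncomputable section

/-! ### Slopes -/

@[simp] lemma Slope.num_infty : Slope.num OnePoint.infty = 1 := rfl
@[simp] lemma Slope.den_infty : Slope.den OnePoint.infty = 0 := rfl
@[simp] lemma Slope.num_coe (x : ℚ) : Slope.num (x : OnePoint ℚ) = x.num := rfl
@[simp] lemma Slope.den_coe (x : ℚ) : Slope.den (x : OnePoint ℚ) = x.den := rfl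

/-- numerator and denominator of a slope are coprime -/
lemma Slope.gcd_eq_one (r : Slope) : Int.gcd r.num r.den = 1 := by
  induction r using OnePoint.rec with
  | infty => simp
  | coe x => simpa [Int.gcd, Nat.Coprime] using x.reduced

/-- the gluing matrix used in `Tube.Surgery` has determinant one -/
lemma Slope.det_eq_one (r : Slope) :
    r.den * Int.gcdB r.num r.den - r.num * (-Int.gcdA r.num r.den) = 1 := by
  have h := Int.gcd_eq_gcd_ab r.num r.den
  rw [r.gcd_eq_one] at h
  push_cast at h
  linarith

/-- a slope is determined by its numerator and denominator -/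
lemma Slope.ext_num_den {r s : Slope} (h₁ : r.num = s.num) (h₂ : r.den = s.den) : r = s := by
  induction r using OnePoint.rec with
  | infty =>
    induction s using OnePoint.rec with
    | infty => rfl
    | coe y =>
      simp only [den_infty, den_coe] at h₂
      exact absurd h₂.symm (by exact_mod_cast y.den_nz)
  | coe x =>
    induction s using OnePoint.rec with
    | infty =>
      simp only [den_infty, den_coe] at h₂
      exact absurd h₂ (by exact_mod_cast x.den_nz)
    | coe y =>
      simp only [num_coe, den_coe, Nat.cast_inj] at h₁ h₂
      rw [Rat.ext h₁ h₂]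

example : Slope.num ((2 : ℚ) : OnePoint ℚ) = 2 ∧ Slope.den ((2 : ℚ) : OnePoint ℚ) = 1 := by
  simp

example : Slope.num ((-2 : ℚ) : OnePoint ℚ) = -2 ∧ Slope.den ((-2 : ℚ) : OnePoint ℚ) = 1 := by
  simp

/-! ### Orientation-preserving homeomorphisms form a groupoid -/

namespace Tube

variable {K : Set S3} (N : Tube K)

/-- The identity preserves orientation. -/
lemma isOrientationPreserving_refl (p q a b : ℤ) :
    N.IsOrientationPreserving (Homeomorph.refl (N.Filling p q a b)) := by
  unfold IsOrientationPreserving
  congr 1

variable {N}

/-- Composites of orientation-preserving homeomorphisms preserve orientation. -/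
lemma IsOrientationPreserving.trans {p q a b p' q' a' b' p'' q'' a'' b'' : ℤ}
    {f : N.Filling p q a b ≃ₜ N.Filling p' q' a' b'}
    {g : N.Filling p' q' a' b' ≃ₜ N.Filling p'' q'' a'' b''}
    (hf : N.IsOrientationPreserving f) (hg : N.IsOrientationPreserving g) :
    N.IsOrientationPreserving (f.trans g) := by
  unfold IsOrientationPreserving at *
  have h1 : TopCat.ofHom ((N.pinch p'' q'' a'' b'').comp (toContinuousMap (f.trans g))) =
      TopCat.ofHom (toContinuousMap f) ≫
        TopCat.ofHom ((N.pinch p'' q'' a'' b'').comp (toContinuousMap g)) := rfl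
  have h2 : TopCat.ofHom ((N.pinch p' q' a' b').comp (toContinuousMap f)) =
      TopCat.ofHom (toContinuousMap f) ≫ TopCat.ofHom (N.pinch p' q' a' b') := rfl
  rw [h1, Functor.map_comp, hg, ← Functor.map_comp, ← h2, hf]

/-- Inverses of orientation-preserving homeomorphisms preserve orientation. -/
lemma IsOrientationPreserving.symm {p q a b p' q' a' b' : ℤ}
    {f : N.Filling p q a b ≃ₜ N.Filling p' q' a' b'}
    (hf : N.IsOrientationPreserving f) : N.IsOrientationPreserving f.symm := by
  unfold IsOrientationPreserving at *
  have h1 : TopCat.ofHom ((N.pinch p q a b).comp (toContinuousMap f.symm)) =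
      TopCat.ofHom (toContinuousMap f.symm) ≫ TopCat.ofHom (N.pinch p q a b) := rfl
  have h2 : TopCat.ofHom (N.pinch p' q' a' b') =
      TopCat.ofHom (toContinuousMap f.symm) ≫
        TopCat.ofHom ((N.pinch p' q' a' b').comp (toContinuousMap f)) := by
    ext x
    simp
  rw [h1, Functor.map_comp, ← hf, ← Functor.map_comp, ← h2]

end Tube

/-! ### The `∞`-surgery -/

lemma gcdA_one_zero : Int.gcdA 1 0 = 1 := by
  change Nat.gcdA 1 0 = 1
  exact Nat.gcdA_zero_right one_ne_zero

lemma gcdB_one_zero : Int.gcdB 1 0 = 0 := by
  change Nat.gcdB 1 0 = 0
  exact Nat.gcdB_zero_right one_ne_zero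

/-- `S³_∞(K) = S³`, by a homeomorphism which is compatible with the maps to `S³ / νK` that define
the orientations. -/
theorem surgery_infty {K : Set S3} (N : Tube K) :
    ∃ f : N.Surgery OnePoint.infty ≃ₜ S3,
      N.pinchSphere.comp (toContinuousMap f) = N.pinch _ _ _ _ := by
  change ∃ f : N.Filling 1 0 (Int.gcdB 1 0) (-Int.gcdA 1 0) ≃ₜ S3,
      N.pinchSphere.comp (toContinuousMap f) = N.pinch _ _ _ _
  rw [gcdA_one_zero, gcdB_one_zero]
  exact ⟨N.fillingInfty, N.pinchSphere_comp_fillingInfty⟩

/-- **`Tube.IsOrientationPreserving` is a genuine condition.**  For every tube `N` there is a homeomorphism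
`S³_∞(K) ≃ₜ S³_∞(K)` which does not preserve orientation: the reflection
`(x₀, x₁, x₂, x₃) ↦ (x₀, x₁, x₂, -x₃)` of `S³ = S³_∞(K)`. -/
theorem exists_not_isOrientationPreserving {K : Set S3} (N : Tube K) :
    ∃ f : N.Surgery OnePoint.infty ≃ₜ N.Surgery OnePoint.infty, ¬ N.IsOrientationPreserving f := by
  obtain ⟨f₀, h₀⟩ := surgery_infty N
  exact ⟨_, N.not_isOrientationPreserving_conj f₀ h₀⟩

/-- The surgery `S³_r(K)` can be computed with any completion of `(p, q)` to a matrix of
determinant one. -/
theorem surgery_eq_filling {K : Set S3} (N : Tube K) (r : Slope) {a b : ℤ}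
    (h : r.den * a - r.num * b = 1) :
    ∃ f : N.Surgery r ≃ₜ N.Filling r.num r.den a b, N.IsOrientationPreserving f :=
  N.exists_homeomorph_of_det_eq_one h r.det_eq_one

/-! ### The unknot -/

/-- All hypotheses of `Statement`, except for the nontriviality of the knot, are met by the standard
unknot, its standard tube, any slope `r = s` and the identity. -/
theorem unknot_example :
    IsSmoothKnot unknot ∧ IsTrivialKnot unknot ∧
      ∃ N : Tube unknot, N.IsPositive ∧ N.IsPreferred ∧
        ∀ r : Slope, ∃ f : N.Surgery r ≃ₜ N.Surgery r, N.IsOrientationPreserving f := by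
  obtain ⟨N, h₁, h₂⟩ := Unknot.exists_tube
  exact ⟨Unknot.isSmoothKnot_unknot, Unknot.isTrivialKnot_unknot, N, h₁, h₂,
    fun _ => ⟨Homeomorph.refl _, N.isOrientationPreserving_refl _ _ _ _⟩⟩

/-- **The unknot has purely cosmetic surgeries**, so the hypothesis `¬ IsTrivialKnot K` of `Statement` cannot be
dropped: for the standard unknot and its standard tube (positive, with the preferred framing) there is
an orientation-preserving homeomorphism `S³_∞(U) ≃ₜ S³_1(U)`, although `∞ ≠ 1`. -/
theorem unknot_cosmetic :
    ∃ N : Tube unknot, N.IsPositive ∧ N.IsPreferred ∧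
      ∃ (r s : Slope) (f : N.Surgery r ≃ₜ N.Surgery s), N.IsOrientationPreserving f ∧ r ≠ s := by
  have main : ∃ N : Tube Unknot.data.knot, N.IsPositive ∧ N.IsPreferred ∧
      ∃ (r s : Slope) (f : N.Surgery r ≃ₜ N.Surgery s), N.IsOrientationPreserving f ∧ r ≠ s := by
    refine ⟨Unknot.data.tube, Unknot.isPositive, Unknot.isPreferred, OnePoint.infty,
      ((1 : ℚ) : OnePoint ℚ), ?_⟩
    obtain ⟨f₁, h₁⟩ := surgery_eq_filling Unknot.data.tube OnePoint.infty (a := 0) (b := -1)
      (by simp)
    obtain ⟨f₂, h₂⟩ := surgery_eq_filling Unknot.data.tube ((1 : ℚ) : OnePoint ℚ) (a := 0) (b := -1)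
      (by simp)
    exact ⟨(f₁.trans Cosmetic.cosm).trans f₂.symm,
      (h₁.trans Cosmetic.isOrientationPreserving_cosm).trans h₂.symm, OnePoint.infty_ne_coe _⟩
  exact Unknot.knot_eq ▸ main

/-- **The fillings depend on the slope**: for the standard unknot and its standard tube, `S³_0(U)` (which is `S¹ × S²`) is
not homeomorphic to `S³_∞(U)` (which is `S³`). -/
theorem unknot_surgery_zero :
    ∃ N : Tube unknot, N.IsPositive ∧ N.IsPreferred ∧
      IsEmpty (N.Surgery ((0 : ℚ) : OnePoint ℚ) ≃ₜ N.Surgery OnePoint.infty) := by
  have main : ∃ N : Tube Unknot.data.knot, N.IsPositive ∧ N.IsPreferred ∧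
      IsEmpty (N.Surgery ((0 : ℚ) : OnePoint ℚ) ≃ₜ N.Surgery OnePoint.infty) := by
    refine ⟨Unknot.data.tube, Unknot.isPositive, Unknot.isPreferred, ⟨fun h => ?_⟩⟩
    obtain ⟨f₀, -⟩ := surgery_infty Unknot.data.tube
    obtain ⟨f₁, -⟩ := surgery_eq_filling Unknot.data.tube ((0 : ℚ) : OnePoint ℚ) (a := 1) (b := 0)
      (by simp)
    exact Separate.isEmpty_homeomorph.false ((f₁.symm.trans h).trans f₀)
  exact Unknot.knot_eq ▸ main

/-- Non-examples: the mirror tube `(z, w) ↦ (z, conj w)/√(1+|w|²)` of the unknot is not positive; the
twisted tubes `(z, w) ↦ (z, z^k w)/√(1+|w|²)` are positive and are preferred exactly for `k = 0`. -/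
theorem unknot_nonexamples :
    ¬ Unknot.data.mirror.tube.IsPositive ∧
      ∀ k : ℤ, (Unknot.data.twist k).tube.IsPositive ∧
        ((Unknot.data.twist k).tube.IsPreferred ↔ k = 0) :=
  ⟨Unknot.mirror_not_isPositive, fun k => ⟨Unknot.twist_isPositive k, Unknot.twist_isPreferred_iff k⟩⟩

/-! ### The trefoil knot -/

/-- The hypotheses of `Statement` are satisfiable: the trefoil knot is a smooth knot which is not
trivial, and it has a tube which is positive and has the preferred framing; for every slope
`r = s` the identity is an orientation-preserving homeomorphism of the surgeries. -/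
theorem trefoil_example :
    IsSmoothKnot trefoil ∧ ¬ IsTrivialKnot trefoil ∧
      ∃ N : Tube trefoil, N.IsPositive ∧ N.IsPreferred ∧
        ∀ r : Slope, ∃ f : N.Surgery r ≃ₜ N.Surgery r, N.IsOrientationPreserving f :=
  ⟨isSmoothKnot_trefoil, not_isTrivialKnot_trefoil, trefoilTube, trefoilTube_isPositive,
    isPreferred_trefoilTube,
    fun _ => ⟨Homeomorph.refl _, trefoilTube.isOrientationPreserving_refl _ _ _ _⟩⟩

/-! ### The slopes `0` and `∞`, for every knot -/

/-- **A pair of slopes is separated for every knot**: for every knot `K` and every tube of `K` with the preferred longitude,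
`S³_0(K)` is not homeomorphic to `S³_∞(K)` (which is `S³`). -/
theorem surgery_zero_infty {K : Set S3} (N : Tube K) (h : N.IsPreferred) :
    IsEmpty (N.Surgery ((0 : ℚ) : OnePoint ℚ) ≃ₜ N.Surgery OnePoint.infty) := by
  refine ⟨fun f => ?_⟩
  obtain ⟨f₀, -⟩ := surgery_infty N
  obtain ⟨f₁, -⟩ := surgery_eq_filling N ((0 : ℚ) : OnePoint ℚ) (a := 1) (b := 0) (by simp)
  exact (N.isEmpty_filling_zero_homeomorph h).false ((f₁.symm.trans f).trans f₀)

/-- The second conjunct of `Statement`, restricted to the slopes `0` and `∞`, is true, for every knot and for all homeomorphisms. -/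
theorem statement_zero_infty {K : Set S3} (N : Tube K) (h : N.IsPreferred) (r s : Slope)
    (hr : r = ((0 : ℚ) : OnePoint ℚ) ∨ r = OnePoint.infty)
    (hs : s = ((0 : ℚ) : OnePoint ℚ) ∨ s = OnePoint.infty) (f : N.Surgery r ≃ₜ N.Surgery s) : r = s := by
  rcases hr with rfl | rfl <;> rcases hs with rfl | rfl
  · rfl
  · exact ((surgery_zero_infty N h).false f).elim
  · exact ((surgery_zero_infty N h).false f.symm).elim
  · rfl

/-- For a nontrivial knot, the trefoil, and a tube which meets all hypotheses of `Statement`, two surgeries are told apart. -/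
theorem trefoil_surgery_zero :
    IsSmoothKnot trefoil ∧ ¬ IsTrivialKnot trefoil ∧
      ∃ N : Tube trefoil, N.IsPositive ∧ N.IsPreferred ∧
        IsEmpty (N.Surgery ((0 : ℚ) : OnePoint ℚ) ≃ₜ N.Surgery OnePoint.infty) :=
  ⟨isSmoothKnot_trefoil, not_isTrivialKnot_trefoil, trefoilTube, trefoilTube_isPositive,
    isPreferred_trefoilTube, surgery_zero_infty _ isPreferred_trefoilTube⟩

/-! ### The slope `0` and the other slopes, for every knot -/

lemma Slope.num_ne_zero {r : Slope} (hr : r ≠ ((0 : ℚ) : OnePoint ℚ)) : r.num ≠ 0 := by
  induction r using OnePoint.rec with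
  | infty => simp
  | coe x =>
    intro h0
    rw [Slope.num_coe, Rat.num_eq_zero] at h0
    exact hr (by rw [h0])

/-- **The first Betti number of the surgeries, for every knot**: for every knot `K` and every tube of `K` with the preferred longitude,
all maps `S³_r(K) → S¹` are null-homotopic if and only if `r ≠ 0`. -/
theorem surgery_nullhomotopic_iff {K : Set S3} (N : Tube K) (h : N.IsPreferred) (r : Slope) :
    (∀ Θ : C(N.Surgery r, Circle), Θ.Nullhomotopic) ↔ r ≠ ((0 : ℚ) : OnePoint ℚ) := by
  constructor
  · rintro h1 rfl
    obtain ⟨f₁, -⟩ := surgery_eq_filling N ((0 : ℚ) : OnePoint ℚ) (a := 1) (b := 0) (by simp)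
    obtain ⟨Θ, hΘ⟩ := N.exists_not_nullhomotopic_filling_zero h
    apply hΘ
    have h2 := (h1 (Θ.comp (toContinuousMap f₁))).comp_left (toContinuousMap f₁.symm)
    have h3 : (Θ.comp (toContinuousMap f₁)).comp (toContinuousMap f₁.symm) = Θ := by
      ext x
      change ((Θ (f₁ (f₁.symm x)) : Circle) : ℂ) = Θ x
      rw [Homeomorph.apply_symm_apply]
    rwa [h3] at h2
  · intro hr Θ
    obtain ⟨g, hg⟩ := N.exists_lift_filling h (Slope.num_ne_zero hr) Θ
    exact ZeroInfty.nullhomotopic_of_lift g hg

/-- **The slope `0` is separated from every other slope, for every knot.** -/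
theorem surgery_zero_ne {K : Set S3} (N : Tube K) (h : N.IsPreferred) (r : Slope)
    (hr : r ≠ ((0 : ℚ) : OnePoint ℚ)) :
    IsEmpty (N.Surgery ((0 : ℚ) : OnePoint ℚ) ≃ₜ N.Surgery r) := by
  refine ⟨fun f => ?_⟩
  obtain ⟨f₁, -⟩ := surgery_eq_filling N ((0 : ℚ) : OnePoint ℚ) (a := 1) (b := 0) (by simp)
  exact (N.isEmpty_filling_zero_homeomorph_filling h (Slope.num_ne_zero hr)).false (f₁.symm.trans f)

/-- The second conjunct of `Statement` is true as soon as one of the two slopes is `0`, for every knot and for all homeomorphisms. -/
theorem statement_zero {K : Set S3} (N : Tube K) (h : N.IsPreferred) (r s : Slope)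
    (hrs : r = ((0 : ℚ) : OnePoint ℚ) ∨ s = ((0 : ℚ) : OnePoint ℚ)) (f : N.Surgery r ≃ₜ N.Surgery s) :
    r = s := by
  by_contra hne
  rcases hrs with rfl | rfl
  · exact (surgery_zero_ne N h s (Ne.symm hne)).false f
  · exact (surgery_zero_ne N h r hne).false f.symm

/-- For the trefoil knot and its tube, which meet all hypotheses of `Statement`: `S³_0` is not homeomorphic to any other surgery. -/
theorem trefoil_surgery_zero_ne (r : Slope) (hr : r ≠ ((0 : ℚ) : OnePoint ℚ)) :
    IsEmpty (trefoilTube.Surgery ((0 : ℚ) : OnePoint ℚ) ≃ₜ trefoilTube.Surgery r) :=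
  surgery_zero_ne _ isPreferred_trefoilTube r hr

/-- **`Tube.IsPreferred` does not depend on the choice of the map `θ`**: the tube has the preferred longitude if and only if there is a map
`E_K → S¹` of degree one on the meridian and every such map is null-homotopic on the longitude. -/
theorem isPreferred_iff_forall {K : Set S3} (N : Tube K) :
    N.IsPreferred ↔
      (∃ θ : C(N.Exterior, Circle), (θ.comp N.meridian).Homotopic (ContinuousMap.id Circle)) ∧
        ∀ θ : C(N.Exterior, Circle), (θ.comp N.meridian).Homotopic (ContinuousMap.id Circle) →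
          (θ.comp N.longitude).Nullhomotopic :=
  ⟨fun h => ⟨h.imp fun _ hθ => hθ.1, fun θ hθ => h.nullhomotopic_longitude θ hθ⟩,
    fun ⟨⟨θ, hθ⟩, h⟩ => ⟨θ, hθ, h θ hθ⟩⟩

/-- Every surgery is a compact Hausdorff space; it is the union of a closed copy of the exterior and a closed copy of the solid torus,
which meet exactly in the peripheral torus. -/
theorem surgery_structure {K : Set S3} (N : Tube K) (r : Slope) :
    CompactSpace (N.Surgery r) ∧ T2Space (N.Surgery r) ∧
      Topology.IsClosedEmbedding (N.exteriorToFilling r.num r.den _ _ : C(_, N.Surgery r)) ∧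
      Topology.IsClosedEmbedding (N.solidToFilling r.num r.den _ _ : C(_, N.Surgery r)) ∧
      Set.range (N.exteriorToFilling r.num r.den _ _ : C(_, N.Surgery r)) ∪
        Set.range (N.solidToFilling r.num r.den _ _ : C(_, N.Surgery r)) = Set.univ ∧
      Set.range (N.exteriorToFilling r.num r.den _ _ : C(_, N.Surgery r)) ∩
        Set.range (N.solidToFilling r.num r.den _ _ : C(_, N.Surgery r)) =
          Set.range ((N.exteriorToFilling r.num r.den _ _ : C(_, N.Surgery r)).comp N.torus) :=
  ⟨inferInstance, inferInstance, N.isClosedEmbedding_exteriorToFilling _ _ _ _,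
    N.isClosedEmbedding_solidToFilling r.det_eq_one, N.range_exteriorToFilling_union _ _ _ _,
    N.range_exteriorToFilling_inter r.det_eq_one⟩

/-- **Every surgery is a closed three-manifold**: a compact Hausdorff space which is locally Euclidean of dimension three (a `ChartedSpace` over
`ℝ³`).  It is covered by an open solid torus (the filling solid torus with a collar of the exterior) and the open subset `S³ ∖ νK` of the
sphere. -/
theorem surgery_manifold {K : Set S3} (N : Tube K) (r : Slope) :
    CompactSpace (N.Surgery r) ∧ T2Space (N.Surgery r) ∧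
      (∀ x : N.Surgery r, ∃ φ : OpenPartialHomeomorph (N.Surgery r) (EuclideanSpace ℝ (Fin 3)),
        x ∈ φ.source) ∧
      Nonempty (ChartedSpace (EuclideanSpace ℝ (Fin 3)) (N.Surgery r)) ∧
      Topology.IsOpenEmbedding (N.openSolid r.num r.den _ _ : _ → N.Surgery r) ∧
      Topology.IsOpenEmbedding (N.openExterior r.num r.den _ _ : _ → N.Surgery r) ∧
      Set.range (N.openSolid r.num r.den _ _ : _ → N.Surgery r) ∪
        Set.range (N.openExterior r.num r.den _ _ : _ → N.Surgery r) = Set.univ :=
  ⟨inferInstance, inferInstance, N.locallyEuclidean3_filling r.det_eq_one,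
    N.nonempty_chartedSpace_filling r.det_eq_one, N.isOpenEmbedding_openSolid r.det_eq_one,
    N.isOpenEmbedding_openExterior r.det_eq_one, N.range_openSolid_union r.det_eq_one⟩

/-- The exterior of every knot and all its surgeries are connected. -/
theorem surgery_connected {K : Set S3} (N : Tube K) (r : Slope) :
    ConnectedSpace N.Exterior ∧ ConnectedSpace (N.Surgery r) :=
  ⟨N.connectedSpace_exterior, N.connectedSpace_filling _ _ _ _⟩

/-- **For every knot: if `S³_r(K)` is homeomorphic to `S³_∞(K) = S³`, then the numerator of `r` is `± 1`** (torsion in `H₁(S³_{p/q}(K)) = ℤ/p` is seen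
by a map to the lens space `S³ / μ_p` which does not lift to `S³`). -/
theorem surgery_infty_num {K : Set S3} (N : Tube K) (h : N.IsPreferred) (r : Slope)
    (f : N.Surgery r ≃ₜ N.Surgery OnePoint.infty) : r.num = 1 ∨ r.num = -1 := by
  obtain ⟨f₀, -⟩ := surgery_infty N
  by_cases hr : r = ((0 : ℚ) : OnePoint ℚ)
  · subst hr
    exact ((surgery_zero_infty N h).false f).elim
  · exact N.eq_one_or_neg_one_of_homeomorph h (Slope.num_ne_zero hr) (f.trans f₀)

/-- **For every knot: if `S³_r(K)` is simply connected, then the numerator of `r` is `± 1`.**  (For `r = 0` there is a map to the circle which is not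
null-homotopic; for `r = p/q`, `p ≠ 0`, the map to the lens space `S³ / μ_p` would lift to `S³`.) -/
theorem surgery_simplyConnected_num {K : Set S3} (N : Tube K) (h : N.IsPreferred) (r : Slope)
    [SimplyConnectedSpace (N.Surgery r)] : r.num = 1 ∨ r.num = -1 := by
  have := N.locallyPathConnectedSpace_filling r.det_eq_one
  have hr : r ≠ ((0 : ℚ) : OnePoint ℚ) :=
    (surgery_nullhomotopic_iff N h r).1 fun Θ => nullhomotopic_of_simplyConnectedSpace Θ
  exact N.eq_one_or_neg_one_of_simplyConnectedSpace h (Slope.num_ne_zero hr) r.det_eq_one

/-! ### The definition of the preferred longitude, for every knot -/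

/-- **`[E_K, S¹] = ℤ θ` for every knot with a map `θ` of degree one on the meridian**: if `θ : E_K → S¹` has degree one on the meridian, then every map
`g : E_K → S¹` is `θ ^ d · exp (i φ)` with a continuous real function `φ`, for exactly one integer `d`.  (The existence of such a `θ`, i.e. the
surjectivity of the degree, Alexander duality, is not proved for a general knot; it is part of `Tube.IsPreferred`.) -/
theorem exterior_maps_to_circle {K : Set S3} (N : Tube K) (θ : C(N.Exterior, Circle))
    (hμ : (θ.comp N.meridian).Homotopic (ContinuousMap.id Circle)) (g : C(N.Exterior, Circle)) :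
    ∃! d : ℤ, ∃ φ : C(N.Exterior, ℝ), ∀ e, g e = θ e ^ d * Circle.exp (φ e) :=
  N.existsUnique_degree θ hμ g

/-- **The preferred framing is unique, for every knot**: if the tube `N'` is `N` with `k` full twists, `N' (z, w) = N (z, z ^ k w)`, and both
have the preferred longitude, then `k = 0`.  (For the unknot this is part of `unknot_nonexamples`.) -/
theorem preferred_framing_unique {K : Set S3} (N N' : Tube K) (k : ℤ)
    (hN : ∀ (z : Circle) (w : ℂ), N'.toFun (z, w) = N.toFun (z, ((z ^ k : Circle) : ℂ) * w))
    (h : N.IsPreferred) (h' : N'.IsPreferred) : k = 0 :=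
  Tube.eq_zero_of_isPreferred_twist hN h h'

/-- The same for the explicit tubes of `TubeData.lean` and their twists of `TubeTwist.lean`. -/
theorem preferred_framing_unique_tubeData (D : TubeData) (k : ℤ) (h : D.tube.IsPreferred)
    (h' : (D.twist k).tube.IsPreferred) : k = 0 :=
  Tube.eq_zero_of_isPreferred_twist (fun z w => D.twist_φ k (z, w)) h h'

/-! ### Smooth knots: necessary conditions and non-examples -/

/-- A smooth knot is homeomorphic to the circle, compact, connected and infinite; the Hopf link, the empty set and the points are not
smooth knots. -/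
theorem smoothKnot_nonexamples :
    (∀ K : Set S3, IsSmoothKnot K → Nonempty (Circle ≃ₜ K) ∧ IsCompact K ∧ IsConnected K ∧ K.Infinite) ∧
      ¬ IsSmoothKnot hopfLink ∧ ¬ IsSmoothKnot (∅ : Set S3) ∧ ∀ x : S3, ¬ IsSmoothKnot ({x} : Set S3) :=
  ⟨fun _ h => ⟨h.nonempty_homeomorph, h.isCompact, h.isConnected, h.infinite⟩, not_isSmoothKnot_hopfLink,
    not_isSmoothKnot_empty, not_isSmoothKnot_singleton⟩

/-- The empty set is not a knot. -/
example : ¬ IsSmoothKnot ∅ := by
  rintro ⟨γ, -, h⟩
  exact Set.range_nonempty γ |>.ne_empty h

end

end Claimed.Open.R306
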