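import Claimed.Open.R306.Statement
import Claimed.Open.R321.ChainBridge

/-!
# From chains to Mathlib's singular homology functor

`H₃_map_eq_of_forall_exists_bd`: the converse of `exists_bd_of_H₃_map_eq` (`SanityReverseBridge.lean`).  If for every singular
3-cycle `z` of `X` the chain `f_# z - g_# z` is a boundary, then `f` and `g` induce the same map on `H₃` (the functor used in
`Statement.lean`).
-/

set_option autoImplicit false

open CategoryTheory AlgebraicTopology

namespace Claimed.Open.R306

open Claimed.Open.R321 (Chains bd chainMap singularChains)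

noncomputable section

theorem H₃_map_eq_of_forall_exists_bd {X Y : Type} [TopologicalSpace X] [TopologicalSpace Y]
    (f g : C(X, Y))
    (h : ∀ z : Chains X 3, bd X 2 z = 0 →
      ∃ y : Chains Y 4, bd Y 3 y = chainMap f 3 z - chainMap g 3 z) :
    H₃.map (TopCat.ofHom f) = H₃.map (TopCat.ofHom g) := by
  set K := singularChains.obj (TopCat.of X) with hK
  set L := singularChains.obj (TopCat.of Y) with hL
  set φ : K ⟶ L := singularChains.map (TopCat.ofHom f) with hφ
  set ψ : K ⟶ L := singularChains.map (TopCat.ofHom g) with hψ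
  change HomologicalComplex.homologyMap φ 3 = HomologicalComplex.homologyMap ψ 3
  rw [← cancel_epi (K.homologyπ 3), HomologicalComplex.homologyπ_naturality,
    HomologicalComplex.homologyπ_naturality]
  have hi : K.iCycles 3 ≫ K.d 3 2 = 0 := K.iCycles_d 3 2
  apply ModuleCat.hom_ext
  apply LinearMap.ext
  intro c
  set z : Chains X 3 := (K.iCycles 3).hom c with hzdef
  have hz : bd X 2 z = 0 := congrArg (fun m => m.hom c) hi
  obtain ⟨y, hy⟩ := h z hz
  let k : ModuleCat.of ℤ ℤ ⟶ K.X 3 := ModuleCat.ofHom (LinearMap.toSpanSingleton ℤ _ z)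
  have hk1 : k.hom (1 : ℤ) = z := by
    change LinearMap.toSpanSingleton ℤ _ z 1 = z
    rw [LinearMap.toSpanSingleton_apply]
    exact @MulAction.one_smul ℤ _ _ (K.X 3).isModule.toMulAction z
  have hk : k ≫ K.d 3 2 = 0 := by
    apply ModuleCat.hom_ext
    apply LinearMap.ext_ring
    rw [ModuleCat.hom_comp, LinearMap.comp_apply, hk1]
    exact hz
  let x₁ : ModuleCat.of ℤ ℤ ⟶ L.X 4 := ModuleCat.ofHom (LinearMap.toSpanSingleton ℤ _ y)
  have hx1 : x₁.hom (1 : ℤ) = y := by
    change LinearMap.toSpanSingleton ℤ _ y 1 = y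
    rw [LinearMap.toSpanSingleton_apply]
    exact @MulAction.one_smul ℤ _ _ (L.X 4).isModule.toMulAction y
  have hl : (K.liftCycles k 2 (by simp) hk).hom (1 : ℤ) = c := by
    apply (ModuleCat.mono_iff_injective (K.iCycles 3)).1 inferInstance
    have := congrArg (fun m => m.hom (1 : ℤ)) (K.liftCycles_i k 2 (by simp) hk)
    simp only [ModuleCat.hom_comp, LinearMap.comp_apply] at this
    rw [this, hk1]
  have E : K.liftCycles k 2 (by simp) hk ≫ HomologicalComplex.cyclesMap φ 3 ≫ L.homologyπ 3 =
      K.liftCycles k 2 (by simp) hk ≫ HomologicalComplex.cyclesMap ψ 3 ≫ L.homologyπ 3 := by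
    rw [← Category.assoc, ← Category.assoc, HomologicalComplex.liftCycles_comp_cyclesMap,
      HomologicalComplex.liftCycles_comp_cyclesMap,
      L.liftCycles_comp_homologyπ_eq_iff_up_to_refinements 4 3 2 (by simp) (by simp)]
    refine ⟨_, 𝟙 _, inferInstance, x₁, ?_⟩
    rw [Category.id_comp, Category.id_comp]
    apply ModuleCat.hom_ext
    apply LinearMap.ext_ring
    simp only [ModuleCat.hom_comp, ModuleCat.hom_add, LinearMap.comp_apply, LinearMap.add_apply]
    rw [hk1, hx1]
    have e3 : (L.d 4 3).hom y = bd Y 3 y := rfl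
    have e4 : (φ.f 3).hom z = chainMap f 3 z := rfl
    have e5 : (ψ.f 3).hom z = chainMap g 3 z := rfl
    rw [e3, e4, e5, hy]
    abel
  have := congrArg (fun m => m.hom (1 : ℤ)) E
  simp only [ModuleCat.hom_comp, LinearMap.comp_apply] at this
  rw [hl] at this
  simpa only [ModuleCat.hom_comp, LinearMap.comp_apply] using this

end

end Claimed.Open.R306
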