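import Claimed.Open.R321.PASphere
import Claimed.Open.R321.SanityContractible
import Claimed.Open.R321.HomologyBridge

/-!
# A Mayer-Vietoris step for self-maps, by elements

Tools for `SanityReversePunctured.lean`.  Singular chains are Mathlib's, in the concrete notation of
`Claimed/Open/R321/ChainBridge.lean`; the theorem of small chains is `small_inj` of
`Claimed/Open/R321/PAMV.lean`.
-/

set_option autoImplicit false

namespace Claimed.Open.R306

open Claimed.Open.R321

noncomputable section

variable {E : Type} [TopologicalSpace E]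

/-- The connecting homomorphism of the Mayer-Vietoris sequence is natural and (here) injective, by
elements.  Let the interiors of `U, V` cover `E`, let `ρ` be a self-map of `E` which preserves `U` and `V`, and
let `w = ∂a = ∂b` with `a` carried by `U` and `b` by `V`.  If `ρ_# (a - b) - (a - b)` is a boundary in `E`,
then `ρ_# w - w` is a boundary in `U ∩ V`. -/
theorem mv_step {U V : Set E} (hUV : interior U ∪ interior V = Set.univ) (ρ : C(E, E))
    (hρU : Set.MapsTo ρ U U) (hρV : Set.MapsTo ρ V V) {n : ℕ} (w : Chains E n)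
    (a b : Chains E (n + 1)) (ha : a ∈ smallChains {U} (n + 1)) (hb : b ∈ smallChains {V} (n + 1))
    (hwa : bd E n a = w)
    (y : Chains E (n + 2)) (hy : bd E (n + 1) y = chainMap ρ (n + 1) (a - b) - (a - b)) :
    ∃ e ∈ smallChains {U ∩ V} (n + 1), bd E n e = chainMap ρ n w - w := by
  have h𝒰 : ⋃ W ∈ ({U, V} : Set (Set E)), interior W = Set.univ := by
    rw [Set.biUnion_pair, hUV]
  have hρa : chainMap ρ (n + 1) a ∈ smallChains {U} (n + 1) :=
    chainMap_mem_smallChains ρ (fun W hW => ⟨U, Set.mem_singleton _, by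
      rw [Set.mem_singleton_iff.1 hW]; exact hρU⟩) ha
  have hρb : chainMap ρ (n + 1) b ∈ smallChains {V} (n + 1) :=
    chainMap_mem_smallChains ρ (fun W hW => ⟨V, Set.mem_singleton _, by
      rw [Set.mem_singleton_iff.1 hW]; exact hρV⟩) hb
  have hA : chainMap ρ (n + 1) a - a ∈ smallChains {U} (n + 1) := AddSubgroup.sub_mem _ hρa ha
  have hB : chainMap ρ (n + 1) b - b ∈ smallChains {V} (n + 1) := AddSubgroup.sub_mem _ hρb hb
  have hsmall : chainMap ρ (n + 1) (a - b) - (a - b) ∈ smallChains {U, V} (n + 1) := by
    rw [smallChains_pair, map_sub]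
    have : chainMap ρ (n + 1) a - chainMap ρ (n + 1) b - (a - b) =
        (chainMap ρ (n + 1) a - a) + (-(chainMap ρ (n + 1) b - b)) := by abel
    rw [this]
    exact AddSubgroup.add_mem _ (AddSubgroup.mem_sup_left hA)
      (AddSubgroup.mem_sup_right (AddSubgroup.neg_mem _ hB))
  obtain ⟨y', hy', hby'⟩ := small_inj h𝒰 _ hsmall y hy
  rw [smallChains_pair, AddSubgroup.mem_sup] at hy'
  obtain ⟨yU, hyU, yV, hyV, rfl⟩ := hy'
  refine ⟨chainMap ρ (n + 1) a - a - bd E (n + 1) yU, ?_, ?_⟩
  · rw [← smallChains_singleton_inf]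
    refine ⟨AddSubgroup.sub_mem _ hA (bd_mem_smallChains hyU), ?_⟩
    have : chainMap ρ (n + 1) a - a - bd E (n + 1) yU =
        (chainMap ρ (n + 1) b - b) + bd E (n + 1) yV := by
      rw [map_add, map_sub] at hby'
      have h2 : chainMap ρ (n + 1) a - a - bd E (n + 1) yU -
          ((chainMap ρ (n + 1) b - b) + bd E (n + 1) yV) =
          (chainMap ρ (n + 1) a - chainMap ρ (n + 1) b - (a - b)) -
            (bd E (n + 1) yU + bd E (n + 1) yV) := by abel
      rw [← sub_eq_zero, h2, hby', sub_self]
    rw [this]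
    exact AddSubgroup.add_mem _ hB (bd_mem_smallChains hyV)
  · rw [map_sub, map_sub, bd_bd, bd_chainMap, hwa, sub_zero]

/-- In a contractible space every cycle of positive degree is a boundary. -/
theorem exists_bd_of_contractible {T : Type} [TopologicalSpace T] [ContractibleSpace T] {n : ℕ}
    (c : Chains T (n + 1)) (hc : bd T n c = 0) : ∃ b : Chains T (n + 2), bd T (n + 1) b = c :=
  (isZero_singularHomology_succ_iff T n).1
    (isZero_singularHomology_of_contractible T (n + 1) (Nat.succ_ne_zero n)) c hc

end

end Claimed.Open.R306
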