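import Claimed.Open.R306.SanityCosmeticBridge
import Claimed.Open.R306.SanityReverseMV
import Claimed.Open.R321.RCFinal
import Claimed.Open.R321.RelEmbed
import Claimed.Open.R321.RCDeform

/-!
# Two maps which differ by a twist of the top cell induce the same map on `H₃`

`H₃_map_eq_of_cell`: let `X = A ∪ e³` (one 3-cell with characteristic map `Φ`), `ν ⊆ A` with `H₃(A, ν) = 0`, and let
`q, g : X → P` be maps such that `q` is constant on `ν`, `g = q` on `A`, and `g ∘ Φ = q ∘ G₁` for a homotopy `G` from `Φ` which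
keeps the boundary of the cube in `A` and, on each face of the cube, either ends where it started or stays in `ν`.  Then
`g` and `q` induce the same map on `H₃`.
-/

set_option autoImplicit false

open CategoryTheory AlgebraicTopology

namespace Claimed.Open.R306

open Claimed.Open.R321

noncomputable section

/-- Two maps which agree on `A` agree on the chains carried by `A`. -/
theorem chainMap_eq_of_eqOn {X Y : Type} [TopologicalSpace X] [TopologicalSpace Y] (f g : C(X, Y))
    {A : Set X} (h : ∀ x ∈ A, f x = g x) {n : ℕ} {c : Chains X n} (hc : c ∈ chainsIn A n) :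
    chainMap f n c = chainMap g n c := by
  have : (chainMap f n - chainMap g n) c ∈ (⊥ : AddSubgroup (Chains Y n)) := by
    refine map_mem_of_chainsIn ⊥ _ (fun σ hσ => ?_) hc
    rw [AddSubgroup.mem_bot, AddMonoidHom.sub_apply, chainMap_gen, chainMap_gen]
    have : f.comp σ = g.comp σ := by
      ext t
      exact h _ (hσ ⟨t, rfl⟩)
    rw [this, sub_self]
  rw [AddSubgroup.mem_bot, AddMonoidHom.sub_apply, sub_eq_zero] at this
  exact this

/-- A cycle of positive degree which is carried by one point is a boundary. -/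
theorem exists_bd_of_mem_chainsIn_singleton {Y : Type} [TopologicalSpace Y] (p : Y) {n : ℕ}
    {c : Chains Y (n + 1)} (hc : c ∈ chainsIn {p} (n + 1)) (h0 : bd Y n c = 0) :
    ∃ y : Chains Y (n + 2), bd Y (n + 1) y = c := by
  let ι : C(Unit, Y) := ContinuousMap.const Unit p
  have hι : Topology.IsEmbedding ι :=
    ⟨⟨(Subsingleton.elim _ _ : (inferInstance : TopologicalSpace Unit) = _)⟩,
      fun _ _ _ => Subsingleton.elim _ _⟩
  have e : ι '' (Set.univ : Set Unit) = {p} := by
    ext y
    simp [ι, eq_comm]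
  rw [← e] at hc
  obtain ⟨c', -, rfl⟩ := exists_chainMap_eq_of_mem hι hc
  have h1 : bd Unit n c' = 0 := by
    apply chainMap_injective ι hι.injective n
    rw [← bd_chainMap, h0, map_zero]
  obtain ⟨b, hb⟩ := exists_bd_of_contractible c' h1
  exact ⟨chainMap ι (n + 2) b, by rw [bd_chainMap, hb]⟩

theorem H₃_map_eq_of_cell {X P : Type} [TopologicalSpace X] [TopologicalSpace P]
    (q g : C(X, P)) (A ν : Set X) (pt : P)
    (h3 : CellAttach X A 3 Unit) (hw3 : h3.IsWeak) (hV : RelVanish A ν 3)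
    (hq : ∀ x ∈ ν, q x = pt) (hgq : ∀ x ∈ A, g x = q x)
    (G : C(unitInterval × Dsk 3, X))
    (G0 : ∀ x, G (0, x) = h3.Φ () x) (G1 : ∀ x, g (h3.Φ () x) = q (G (1, x)))
    (GA : ∀ (s : unitInterval) (x : Dsk 3), ‖x.1‖ = 1 → G (s, x) ∈ A)
    (hface : ∀ (i : Fin 3) (e : Bool), (∀ y, G (1, faceMap i e y) = G (0, faceMap i e y)) ∨
      (∀ (s : unitInterval) (y : Dsk 2), G (s, faceMap i e y) ∈ ν)) :
    H₃.map (TopCat.ofHom g) = H₃.map (TopCat.ofHom q) := by
  apply H₃_map_eq_of_forall_exists_bd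
  intro z hz
  have RC := relCells_of_cellAttach h3 hw3
  have hzc : IsRelCycle (Set.univ : Set X) A 3 z :=
    ⟨mem_chainsIn_univ z, by rw [hz]; exact zero_mem _⟩
  obtain ⟨m, y, -, a, ha, e⟩ := RC.span z hzc
  set cube := cubeChain 3 with hcube
  set G₁ : C(Dsk 3, X) := G.comp (inclAt (Dsk 3) 1) with hG₁
  set G₀ : C(Dsk 3, X) := G.comp (inclAt (Dsk 3) 0) with hG₀
  have hm : chainComb (fun j : Unit => chainMap (h3.Φ j) 3 cube) m =
      m () • chainMap (h3.Φ ()) 3 cube := by
    conv_lhs => rw [Finsupp.unique_single m]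
    exact chainComb_single _ _ _
  rw [hm] at e
  set k := m () with hk
  have hΦ : h3.Φ () = G₀ := by
    ext x
    exact (G0 x).symm
  have hgΦ : g.comp (h3.Φ ()) = q.comp G₁ := by
    ext x
    exact G1 x
  -- the chain swept by the boundary of the cube
  set W := hPrism G 2 (bd (Dsk 3) 2 cube) with hW
  have hbdcube : bd (Dsk 3) 2 cube ∈ chainsIn (dskBdry 3) 2 := ((rcLocal 3).isRelCycle ()).2
  have hWA : W ∈ chainsIn A 3 := hPrism_mem_chainsIn G (fun s x hx => GA s x hx) hbdcube
  have hbdW : bd X 2 W = chainMap G₁ 2 (bd (Dsk 3) 2 cube) - chainMap G₀ 2 (bd (Dsk 3) 2 cube) := by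
    have := bd_hPrism_succ G (bd (Dsk 3) 2 cube)
    rw [bd_bd, map_zero, add_zero] at this
    exact this
  have hbdW' : bd X 2 W ∈ chainsIn ν 2 := by
    rw [hbdW, hcube, bd_cubeChain, sphChain, map_sum, map_sum, ← Finset.sum_sub_distrib]
    refine AddSubgroup.sum_mem _ (fun p _ => ?_)
    rw [map_zsmul, map_zsmul, ← zsmul_sub]
    refine AddSubgroup.zsmul_mem _ ?_ _
    rw [← chainMap_comp, ← chainMap_comp]
    rcases hface p.1 p.2 with h | h
    · have : G₁.comp (faceMap p.1 p.2) = G₀.comp (faceMap p.1 p.2) := by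
        ext y
        exact h y
      rw [this, sub_self]
      exact zero_mem _
    · exact AddSubgroup.sub_mem _
        (chainMap_mem_chainsIn _ (fun y _ => h 1 y) (mem_chainsIn_univ _))
        (chainMap_mem_chainsIn _ (fun y _ => h 0 y) (mem_chainsIn_univ _))
  obtain ⟨y₃, -, a₃, ha₃, eW⟩ := hV W ⟨hWA, hbdW'⟩
  have hprism := bd_hPrism_succ G cube
  rw [← hW, ← hG₁, ← hG₀] at hprism
  -- the difference on the cell
  have hcell : chainMap g 3 (chainMap (h3.Φ ()) 3 cube) - chainMap q 3 (chainMap (h3.Φ ()) 3 cube) =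
      bd P 3 (chainMap q 4 (hPrism G 3 cube) + chainMap q 4 y₃) + chainMap q 3 a₃ := by
    rw [← chainMap_comp, hgΦ, chainMap_comp, hΦ, ← map_sub, ← hprism, eW, map_add, map_add, map_add,
      bd_chainMap, bd_chainMap]
    abel
  have hz' : z = k • chainMap (h3.Φ ()) 3 cube + bd X 3 y + a := by
    rw [add_assoc, ← e]
    abel
  have hΔ : chainMap g 3 z - chainMap q 3 z =
      bd P 3 (k • (chainMap q 4 (hPrism G 3 cube) + chainMap q 4 y₃) +
        (chainMap g 4 y - chainMap q 4 y)) + k • chainMap q 3 a₃ := by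
    rw [hz', map_add, map_add, map_add, map_add, map_zsmul, map_zsmul, chainMap_eq_of_eqOn g q hgq ha,
      map_add, map_zsmul, map_sub, bd_chainMap, bd_chainMap]
    have : k • chainMap g 3 (chainMap (h3.Φ ()) 3 cube) - k • chainMap q 3 (chainMap (h3.Φ ()) 3 cube) =
        k • bd P 3 (chainMap q 4 (hPrism G 3 cube) + chainMap q 4 y₃) + k • chainMap q 3 a₃ := by
      rw [← zsmul_sub, hcell, zsmul_add]
    rw [← sub_eq_zero] at this ⊢
    rw [← this]
    abel
  have hpt : k • chainMap q 3 a₃ ∈ chainsIn {pt} 3 :=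
    AddSubgroup.zsmul_mem _ (chainMap_mem_chainsIn q (fun x hx => hq x hx) ha₃) _
  have hcyc : bd P 2 (k • chainMap q 3 a₃) = 0 := by
    have h1 : bd P 2 (chainMap g 3 z - chainMap q 3 z) = 0 := by
      rw [map_sub, bd_chainMap, bd_chainMap, hz, map_zero, map_zero, sub_zero]
    rw [hΔ, map_add, bd_bd, zero_add] at h1
    exact h1
  obtain ⟨y₅, hy₅⟩ := exists_bd_of_mem_chainsIn_singleton pt hpt hcyc
  refine ⟨(k • (chainMap q 4 (hPrism G 3 cube) + chainMap q 4 y₃) +
    (chainMap g 4 y - chainMap q 4 y)) + y₅, ?_⟩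
  rw [map_add, hy₅, hΔ]

end

end Claimed.Open.R306
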