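import Claimed.Open.R306.SanityCosmeticGeom
import Claimed.Open.R306.SanityCosmeticChain

/-!
# A cell structure of `S³` relative to the closed tube of the unknot

`S³` is obtained from the closed standard tube `|b| ≤ |a|` of the unknot by attaching the 2-cell `b < 0` (a meridian disc of the
exterior solid torus; `Cosmetic.attach2`) and one 3-cell (`Cosmetic.attach3`).  `Cosmetic.htpy` is the homotopy which turns the slice
`b / |b| = e^{iπt}` of the 3-cell by the angle `s π (t + 1)`.
-/

set_option autoImplicit false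

open Set Metric Topology Filter

namespace Claimed.Open.R306

noncomputable section

namespace Cosmetic

open Unknot Claimed.Open.R321

/-! ### The circle -/

/-- the point `-1` of the circle -/
def m1 : Circle := Circle.exp Real.pi

lemma coe_m1 : (m1 : ℂ) = -1 := by
  rw [m1, Circle.coe_exp, Complex.exp_pi_mul_I]

lemma exp_re (t : ℝ) : ((Circle.exp t : Circle) : ℂ).re = Real.cos t := by
  rw [Circle.coe_exp]
  exact Complex.exp_ofReal_mul_I_re t

lemma exp_im (t : ℝ) : ((Circle.exp t : Circle) : ℂ).im = Real.sin t := by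
  rw [Circle.coe_exp]
  exact Complex.exp_ofReal_mul_I_im t

lemma exp_pi_mul_mem {t : ℝ} (h : |t| = 1) :
    ((Circle.exp (Real.pi * t) : Circle) : ℂ).im = 0 ∧ ((Circle.exp (Real.pi * t) : Circle) : ℂ).re ≤ 0 := by
  rw [exp_re, exp_im]
  rcases (abs_eq zero_le_one).1 h with rfl | rfl
  · simp
  · simp

lemma exp_pi_mul_not_mem {t : ℝ} (h : |t| < 1) :
    ¬ (((Circle.exp (Real.pi * t) : Circle) : ℂ).im = 0 ∧
      ((Circle.exp (Real.pi * t) : Circle) : ℂ).re ≤ 0) := by
  rintro ⟨h1, h2⟩
  rw [exp_im] at h1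
  rw [exp_re] at h2
  obtain ⟨h3, h4⟩ := abs_lt.1 h
  have h5 : Real.pi * t = 0 :=
    (Real.sin_eq_zero_iff_of_lt_of_lt (by nlinarith [Real.pi_pos]) (by nlinarith [Real.pi_pos])).1 h1
  rw [h5, Real.cos_zero] at h2
  linarith

lemma exp_pi_mul_inj {t t' : ℝ} (h : |t| < 1) (h' : |t'| < 1)
    (e : Circle.exp (Real.pi * t) = Circle.exp (Real.pi * t')) : t = t' := by
  obtain ⟨h3, h4⟩ := abs_lt.1 h
  obtain ⟨h5, h6⟩ := abs_lt.1 h'
  have : Complex.arg (Circle.exp (Real.pi * t) : Circle) =
      Complex.arg (Circle.exp (Real.pi * t') : Circle) := by rw [e]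
  rw [Circle.arg_exp (by nlinarith [Real.pi_pos]) (by nlinarith [Real.pi_pos]),
    Circle.arg_exp (by nlinarith [Real.pi_pos]) (by nlinarith [Real.pi_pos])] at this
  exact mul_left_cancel₀ Real.pi_pos.ne' this

lemma exists_exp_pi_mul (β : Circle) : ∃ t : ℝ, |t| ≤ 1 ∧ Circle.exp (Real.pi * t) = β := by
  refine ⟨Complex.arg β / Real.pi, ?_, ?_⟩
  · rw [abs_le]
    constructor
    · rw [le_div_iff₀ Real.pi_pos]
      linarith [Complex.neg_pi_lt_arg (β : ℂ)]
    · rw [div_le_iff₀ Real.pi_pos]
      linarith [Complex.arg_le_pi (β : ℂ)]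
  · rw [mul_div_cancel₀ _ Real.pi_pos.ne']
    exact Circle.exp_arg β

/-! ### The 2-skeleton -/

/-- the half space `b ≤ 0` -/
def slit : Set S3 := {x | (csnd x).im = 0 ∧ (csnd x).re ≤ 0}

/-- the closed tube together with the meridian disc `b < 0` of the exterior -/
def skel : Set S3 := data.tube.solid ∪ slit

lemma isClosed_solid : IsClosed data.tube.solid := by
  have : data.tube.solid = {x | ‖csnd x‖ ≤ ‖cfst x‖} := Set.ext mem_solid_iff
  rw [this]
  exact isClosed_le continuous_csnd.norm continuous_cfst.norm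

lemma isClosed_slit : IsClosed slit :=
  (isClosed_eq (Complex.continuous_im.comp continuous_csnd) continuous_const).inter
    (isClosed_le (Complex.continuous_re.comp continuous_csnd) continuous_const)

lemma isClosed_skel : IsClosed skel := isClosed_solid.union isClosed_slit

lemma par_mem_slit_iff (β : Circle) (v : ℂ) :
    par β v ∈ slit ↔ (β : ℂ).im = 0 ∧ (β : ℂ).re ≤ 0 := by
  have hs := sc_pos v
  simp only [slit, mem_ofPred_eq, csnd_par, Complex.smul_im, Complex.smul_re, smul_eq_mul,
    mul_eq_zero, hs.ne', false_or]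
  refine and_congr_right (fun _ => ⟨fun h => ?_, fun h => mul_nonpos_of_nonneg_of_nonpos hs.le h⟩)
  by_contra h'
  have := mul_pos hs (not_le.1 h')
  linarith

lemma rot_mem_slit_iff (u : Circle) (x : S3) : rot u x ∈ slit ↔ x ∈ slit := by
  simp only [slit, mem_ofPred_eq, csnd_rot]

lemma rot_mem_skel {x : S3} (u : Circle) (h : x ∈ skel) : rot u x ∈ skel :=
  h.imp (rot_mem_solid_iff u x).2 (rot_mem_slit_iff u x).2

lemma unitOf_of_mem_slit {x : S3} (h : x ∈ slit) (h0 : csnd x ≠ 0) : unitOf (csnd x) = m1 := by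
  apply Subtype.ext
  rw [coe_unitOf h0, coe_m1]
  obtain ⟨h1, h2⟩ := h
  obtain ⟨r, hr⟩ : ∃ r : ℝ, csnd x = r := ⟨(csnd x).re, Complex.ext rfl (by simp [h1])⟩
  rw [hr] at h0 h2 ⊢
  have hr0 : r ≠ 0 := by
    intro h3
    exact h0 (by rw [h3]; simp)
  have hre : r < 0 := lt_of_le_of_ne (by simpa using h2) hr0
  rw [Complex.norm_real, Real.norm_eq_abs, abs_of_neg hre]
  have : (r : ℂ) ≠ 0 := by exact_mod_cast hr0
  push_cast
  field_simp

/-! ### The sup norm of the cubes -/

lemma abs_lt_of_norm_lt {n : ℕ} {x : Fin n → ℝ} (h : ‖x‖ < 1) (i : Fin n) : |x i| < 1 :=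
  lt_of_le_of_lt (norm_le_pi_norm x i) h

lemma exists_abs_eq_one {n : ℕ} {x : Fin n → ℝ} (h : ‖x‖ = 1) : ∃ i, |x i| = 1 := by
  by_contra hc
  have : ‖x‖ < 1 := (pi_norm_lt_iff one_pos).2
    (fun i => lt_of_le_of_ne (h ▸ norm_le_pi_norm x i) (fun h' => hc ⟨i, h'⟩))
  linarith

lemma supN_mk (a b : ℝ) : supN ((a : ℂ) + (b : ℂ) * Complex.I) = max |a| |b| := by
  simp [supN]

/-- a finite cell attachment to a closed subset of a Hausdorff space has the weak topology -/
lemma isWeak_of_t2 {Z : Type} [TopologicalSpace Z] [T2Space Z] {A : Set Z} {d : ℕ}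
    (h : CellAttach Z A d Unit) (hA : IsClosed A) : h.IsWeak := by
  refine ⟨hA, fun C h1 h2 => ?_⟩
  have h3 : C = (C ∩ A) ∪ (h.Φ ()) '' ((h.Φ ()) ⁻¹' C) := by
    ext z
    constructor
    · intro hz
      rcases h.cover z with h' | ⟨_, x, rfl⟩
      · exact Or.inl ⟨hz, h'⟩
      · exact Or.inr ⟨x, hz, rfl⟩
    · rintro (h' | ⟨x, hx, rfl⟩)
      · exact h'.1
      · exact hx
  rw [h3]
  exact h1.union ((h.Φ ()).continuous.isClosedMap _ (h2 ()))

/-! ### The 3-cell -/

lemma continuous_coord {n : ℕ} (i : Fin n) : Continuous fun x : Dsk n => (x.1 i : ℂ) :=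
  Complex.continuous_ofReal.comp ((continuous_apply i).comp continuous_subtype_val)

lemma continuous_par' {X : Type} [TopologicalSpace X] {β : X → Circle} {v : X → ℂ}
    (hβ : Continuous β) (hv : Continuous v) : Continuous fun x => par (β x) (v x) := by
  have h : Continuous sc := contDiff_sc.continuous
  exact continuous_mkS3 ((h.comp hv).smul hv) ((h.comp hv).smul (continuous_subtype_val.comp hβ)) _

lemma continuous_rot' {X : Type} [TopologicalSpace X] {u : X → Circle} {f : X → S3}
    (hu : Continuous u) (hf : Continuous f) : Continuous fun x => rot (u x) (f x) :=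
  continuous_rot.comp (hu.prodMk hf)

lemma continuous_sq_coord {n : ℕ} (i j : Fin n) :
    Continuous fun x : Dsk n => sq ((x.1 i : ℂ) + (x.1 j : ℂ) * Complex.I) :=
  continuous_sq.comp ((continuous_coord i).add ((continuous_coord j).mul continuous_const))

/-- the characteristic map of the 3-cell -/
def cell3 : C(Dsk 3, S3) where
  toFun x := par (Circle.exp (Real.pi * x.1 2)) (sq ((x.1 0 : ℂ) + (x.1 1 : ℂ) * Complex.I))
  continuous_toFun := by
    have h2 : Continuous fun x : Dsk 3 => x.1 2 := (continuous_apply 2).comp continuous_subtype_val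
    exact continuous_par' (Circle.exp.continuous.comp (continuous_const.mul h2))
      (continuous_sq_coord 0 1)

lemma cell3_apply (x : Dsk 3) :
    cell3 x = par (Circle.exp (Real.pi * x.1 2)) (sq ((x.1 0 : ℂ) + (x.1 1 : ℂ) * Complex.I)) := rfl

lemma cell3_mem_solid_iff (x : Dsk 3) : cell3 x ∈ data.tube.solid ↔ 1 ≤ max |x.1 0| |x.1 1| := by
  rw [cell3_apply, par_mem_solid_iff, norm_sq, supN_mk]

/-- `S³` is obtained from `skel` by attaching a 3-cell. -/
def attach3 : CellAttach S3 skel 3 Unit where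
  Φ _ := cell3
  sphere_mem _ x hx := by
    obtain ⟨i, hi⟩ := exists_abs_eq_one hx
    fin_cases i
    · exact Or.inl ((cell3_mem_solid_iff x).2 (le_max_of_le_left hi.ge))
    · exact Or.inl ((cell3_mem_solid_iff x).2 (le_max_of_le_right hi.ge))
    · exact Or.inr ((par_mem_slit_iff _ _).2 (exp_pi_mul_mem hi))
  ball_not_mem _ x hx := by
    rintro (h | h)
    · rw [cell3_mem_solid_iff] at h
      have := max_lt (abs_lt_of_norm_lt hx 0) (abs_lt_of_norm_lt hx 1)
      linarith
    · exact exp_pi_mul_not_mem (abs_lt_of_norm_lt hx 2) ((par_mem_slit_iff _ _).1 h)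
  inj _ _ x y hx hy h := by
    obtain ⟨h1, h2⟩ := par_injective h
    have h3 := exp_pi_mul_inj (abs_lt_of_norm_lt hx 2) (abs_lt_of_norm_lt hy 2) h1
    have h4 := sq_injective h2
    refine ⟨rfl, Subtype.ext (funext fun i => ?_)⟩
    fin_cases i
    · simpa using congrArg Complex.re h4
    · simpa using congrArg Complex.im h4
    · exact h3
  cover z := by
    by_cases hz : z ∈ data.tube.solid
    · exact Or.inl (Or.inl hz)
    · right
      obtain ⟨c, hc, e⟩ := exists_par_sq z hz
      obtain ⟨t, ht, e2⟩ := exists_exp_pi_mul (unitOf (csnd z))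
      refine ⟨(), ⟨![c.re, c.im, t], ?_⟩, ?_⟩
      · rw [mem_closedBall_zero_iff, pi_norm_le_iff_of_nonneg zero_le_one]
        intro i
        fin_cases i
        · exact (le_max_left _ _).trans hc.le
        · exact (le_max_right _ _).trans hc.le
        · exact ht
      · change par (Circle.exp (Real.pi * t)) (sq ((c.re : ℂ) + (c.im : ℂ) * Complex.I)) = z
        rw [e2, Complex.re_add_im, e]

lemma attach3_isWeak : attach3.IsWeak := isWeak_of_t2 attach3 isClosed_skel

/-! ### The 2-cell -/

/-- the characteristic map of the 2-cell -/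
def cell2 : C(Dsk 2, ↥skel) where
  toFun y := ⟨par m1 (sq ((y.1 0 : ℂ) + (y.1 1 : ℂ) * Complex.I)),
    Or.inr ((par_mem_slit_iff _ _).2 (by rw [coe_m1]; simp))⟩
  continuous_toFun := by
    refine Continuous.subtype_mk ?_ _
    exact continuous_par' continuous_const (continuous_sq_coord 0 1)

lemma cell2_coe (y : Dsk 2) :
    (cell2 y).1 = par m1 (sq ((y.1 0 : ℂ) + (y.1 1 : ℂ) * Complex.I)) := rfl

lemma cell2_mem_solid_iff (y : Dsk 2) :
    (cell2 y).1 ∈ data.tube.solid ↔ 1 ≤ max |y.1 0| |y.1 1| := by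
  rw [cell2_coe, par_mem_solid_iff, norm_sq, supN_mk]

/-- `skel` is obtained from the closed tube by attaching a 2-cell. -/
def attach2 : CellAttach ↥skel {x | x.1 ∈ data.tube.solid} 2 Unit where
  Φ _ := cell2
  sphere_mem _ x hx := by
    obtain ⟨i, hi⟩ := exists_abs_eq_one hx
    fin_cases i
    · exact (cell2_mem_solid_iff x).2 (le_max_of_le_left hi.ge)
    · exact (cell2_mem_solid_iff x).2 (le_max_of_le_right hi.ge)
  ball_not_mem _ x hx := by
    intro h
    have h' := (cell2_mem_solid_iff x).1 h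
    have := max_lt (abs_lt_of_norm_lt hx 0) (abs_lt_of_norm_lt hx 1)
    linarith
  inj _ _ x y hx hy h := by
    obtain ⟨-, h2⟩ := par_injective (congrArg Subtype.val h)
    have h4 := sq_injective h2
    refine ⟨rfl, Subtype.ext (funext fun i => ?_)⟩
    fin_cases i
    · simpa using congrArg Complex.re h4
    · simpa using congrArg Complex.im h4
  cover z := by
    by_cases hz : z.1 ∈ data.tube.solid
    · exact Or.inl hz
    · right
      obtain ⟨c, hc, e⟩ := exists_par_sq z.1 hz
      have hs : z.1 ∈ slit := z.2.resolve_left hz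
      have h0 : csnd z.1 ≠ 0 := by
        intro h0
        apply hz
        rw [mem_solid_iff, h0, norm_zero]
        exact norm_nonneg _
      rw [unitOf_of_mem_slit hs h0] at e
      refine ⟨(), ⟨![c.re, c.im], ?_⟩, Subtype.ext ?_⟩
      · rw [mem_closedBall_zero_iff, pi_norm_le_iff_of_nonneg zero_le_one]
        intro i
        fin_cases i
        · exact (le_max_left _ _).trans hc.le
        · exact (le_max_right _ _).trans hc.le
      · change par m1 (sq ((c.re : ℂ) + (c.im : ℂ) * Complex.I)) = z.1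
        rw [Complex.re_add_im, e]

lemma attach2_isWeak : attach2.IsWeak :=
  isWeak_of_t2 attach2 (isClosed_solid.preimage continuous_subtype_val)

/-- `H₃(skel, tube) = 0` -/
lemma relVanish_skel : RelVanish skel data.tube.solid 3 := by
  have h := (relCells_of_cellAttach attach2 attach2_isWeak).vanish 3 (by norm_num)
  have h' := RelVanish.image (ι := ⟨Subtype.val, continuous_subtype_val⟩) IsEmbedding.subtypeVal h
  have e1 : (Subtype.val : ↥skel → S3) '' (univ : Set ↥skel) = skel := by simp
  have e2 : (Subtype.val : ↥skel → S3) '' {x : ↥skel | x.1 ∈ data.tube.solid} = data.tube.solid := by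
    ext x
    constructor
    · rintro ⟨y, hy, rfl⟩
      exact hy
    · intro hx
      exact ⟨⟨x, Or.inl hx⟩, hx, rfl⟩
  rw [ContinuousMap.coe_mk, e1, e2] at h'
  exact h'

/-! ### The homotopy -/

/-- the slice `b / |b| = e^{iπt}` of the 3-cell is turned by the angle `s π (t + 1)` -/
def htpy : C(unitInterval × Dsk 3, S3) where
  toFun p := rot (Circle.exp ((p.1 : ℝ) * (Real.pi * (p.2.1 2 + 1)))) (cell3 p.2)
  continuous_toFun := by
    have h2 : Continuous fun p : unitInterval × Dsk 3 => p.2.1 2 :=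
      (continuous_apply 2).comp (continuous_subtype_val.comp continuous_snd)
    have h1 : Continuous fun p : unitInterval × Dsk 3 => (p.1 : ℝ) :=
      continuous_subtype_val.comp continuous_fst
    exact continuous_rot' (Circle.exp.continuous.comp
      (h1.mul (continuous_const.mul (h2.add continuous_const))))
        (cell3.continuous.comp continuous_snd)

lemma htpy_apply (s : unitInterval) (x : Dsk 3) :
    htpy (s, x) = rot (Circle.exp ((s : ℝ) * (Real.pi * (x.1 2 + 1)))) (cell3 x) := rfl

lemma htpy_zero (x : Dsk 3) : htpy (0, x) = cell3 x := by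
  rw [htpy_apply]
  simp [rot_one]

lemma htpy_one (x : Dsk 3) : htpy (1, x) = rot (m1 * unitOf (csnd (cell3 x))) (cell3 x) := by
  rw [htpy_apply, cell3_apply, unitOf_csnd_par, m1, ← Circle.exp_add]
  congr 2
  simp
  ring

lemma htpy_mem_skel (s : unitInterval) (x : Dsk 3) (hx : ‖x.1‖ = 1) : htpy (s, x) ∈ skel :=
  rot_mem_skel _ (attach3.sphere_mem () x hx)

lemma faceMap_same (i : Fin 3) (e : Bool) (y : Dsk 2) : (faceMap i e y).1 i = sgnR e := by
  rw [faceMap_coe, Fin.insertNth_apply_same]

lemma htpy_face0 (e : Bool) (s : unitInterval) (y : Dsk 2) :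
    htpy (s, faceMap 0 e y) ∈ data.tube.solid := by
  rw [htpy_apply, rot_mem_solid_iff, cell3_mem_solid_iff]
  refine le_max_of_le_left ?_
  rw [faceMap_same 0 e y, abs_sgnR]

lemma htpy_face1 (e : Bool) (s : unitInterval) (y : Dsk 2) :
    htpy (s, faceMap 1 e y) ∈ data.tube.solid := by
  rw [htpy_apply, rot_mem_solid_iff, cell3_mem_solid_iff]
  refine le_max_of_le_right ?_
  rw [faceMap_same 1 e y, abs_sgnR]

lemma htpy_face2 (e : Bool) (y : Dsk 2) : htpy (1, faceMap 2 e y) = htpy (0, faceMap 2 e y) := by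
  rw [htpy_zero, htpy_apply, faceMap_same 2 e y]
  cases e
  · simp [sgnR, rot_one]
  · have : ((1 : unitInterval) : ℝ) * (Real.pi * (sgnR true + 1)) = 2 * Real.pi := by
      simp [sgnR]
      ring
    rw [this, Circle.exp_two_pi, rot_one]

lemma htpy_face (i : Fin 3) (e : Bool) :
    (∀ y, htpy (1, faceMap i e y) = htpy (0, faceMap i e y)) ∨
      (∀ (s : unitInterval) (y : Dsk 2), htpy (s, faceMap i e y) ∈ data.tube.solid) := by
  fin_cases i
  · exact Or.inr (htpy_face0 e)
  · exact Or.inr (htpy_face1 e)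
  · exact Or.inl (htpy_face2 e)

end Cosmetic

end

end Claimed.Open.R306
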