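import Claimed.Open.R306.NonExamples
import Claimed.Open.R306.TubeOpen
import Claimed.Open.R306.FillingBasic

/-!
# Coordinates on the exterior of the standard unknot

The exterior of the standard tube of the unknot is the solid torus `|a| ≤ |b|` of `S³ ⊆ ℂ²`.

* `Cosmetic.sq`: the radial homeomorphism of `ℂ` which maps the square `max |re| |im| ≤ 1` to the round disc;
* `Cosmetic.rot`: the rotations `(a, b) ↦ (u a, b)` of `S³`;
* `Cosmetic.par`: the parametrisation `(β, v) ↦ (v, β) / √(1 + |v|²)` of the complement of the unknot.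
-/

set_option autoImplicit false

open Set Metric Topology Filter

namespace Claimed.Open.R306

noncomputable section

namespace Cosmetic

open Unknot

/-! ### The square and the disc -/

/-- the sup norm on `ℂ = ℝ²` -/
def supN (c : ℂ) : ℝ := max |c.re| |c.im|

lemma supN_nonneg (c : ℂ) : 0 ≤ supN c := le_max_of_le_left (abs_nonneg _)

lemma supN_zero : supN 0 = 0 := by simp [supN]

lemma supN_eq_zero {c : ℂ} (h : supN c = 0) : c = 0 := by
  have h1 : |c.re| ≤ 0 := h ▸ le_max_left _ _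
  have h2 : |c.im| ≤ 0 := h ▸ le_max_right _ _
  exact Complex.ext (abs_nonpos_iff.1 h1) (abs_nonpos_iff.1 h2)

lemma supN_pos {c : ℂ} (h : c ≠ 0) : 0 < supN c :=
  lt_of_le_of_ne (supN_nonneg c) (fun h' => h (supN_eq_zero h'.symm))

lemma supN_smul {r : ℝ} (hr : 0 ≤ r) (c : ℂ) : supN (r • c) = r * supN c := by
  simp only [supN, Complex.smul_re, Complex.smul_im, smul_eq_mul, abs_mul, abs_of_nonneg hr]
  exact (mul_max_of_nonneg _ _ hr).symm

lemma continuous_supN : Continuous supN :=
  Complex.continuous_re.abs.max Complex.continuous_im.abs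

/-- the radial map from the square to the disc -/
def sq (c : ℂ) : ℂ := (supN c / ‖c‖) • c

/-- the radial map from the disc to the square -/
def dq (c : ℂ) : ℂ := (‖c‖ / supN c) • c

lemma sq_zero : sq 0 = 0 := by simp [sq]

lemma norm_sq (c : ℂ) : ‖sq c‖ = supN c := by
  by_cases h : c = 0
  · simp [sq, h, supN]
  · rw [sq, norm_smul, Real.norm_eq_abs, abs_of_nonneg (div_nonneg (supN_nonneg c) (norm_nonneg c)),
      div_mul_cancel₀ _ (norm_ne_zero_iff.2 h)]

lemma supN_dq (c : ℂ) : supN (dq c) = ‖c‖ := by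
  by_cases h : c = 0
  · simp [dq, h, supN]
  · rw [dq, supN_smul (div_nonneg (norm_nonneg c) (supN_nonneg c)),
      div_mul_cancel₀ _ (supN_pos h).ne']

lemma continuous_sq : Continuous sq := by
  rw [continuous_iff_continuousAt]
  intro c
  by_cases h : c = 0
  · subst h
    rw [ContinuousAt, sq_zero, tendsto_zero_iff_norm_tendsto_zero]
    simp only [norm_sq]
    have : Tendsto supN (𝓝 0) (𝓝 (supN 0)) := continuous_supN.continuousAt
    rwa [supN_zero] at this
  · exact ((continuous_supN.continuousAt).div continuous_norm.continuousAt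
      (norm_ne_zero_iff.2 h)).smul continuousAt_id

lemma dq_sq (c : ℂ) : dq (sq c) = c := by
  by_cases h : c = 0
  · simp [dq, sq, h]
  · have h1 : ‖c‖ ≠ 0 := norm_ne_zero_iff.2 h
    have h2 : supN c ≠ 0 := (supN_pos h).ne'
    rw [dq, norm_sq]
    rw [sq, supN_smul (div_nonneg (supN_nonneg c) (norm_nonneg c)), smul_smul]
    have : supN c / (supN c / ‖c‖ * supN c) * (supN c / ‖c‖) = 1 := by field_simp
    rw [this, one_smul]

lemma sq_dq (c : ℂ) : sq (dq c) = c := by
  by_cases h : c = 0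
  · simp [dq, sq, h]
  · have h1 : ‖c‖ ≠ 0 := norm_ne_zero_iff.2 h
    have h2 : supN c ≠ 0 := (supN_pos h).ne'
    rw [sq, supN_dq]
    rw [dq, norm_smul, Real.norm_eq_abs, abs_of_nonneg (div_nonneg (norm_nonneg c) (supN_nonneg c)),
      smul_smul]
    have : ‖c‖ / (‖c‖ / supN c * ‖c‖) * (‖c‖ / supN c) = 1 := by field_simp
    rw [this, one_smul]

lemma sq_injective : Function.Injective sq := Function.LeftInverse.injective dq_sq

/-! ### Rotations -/

/-- the rotation `(a, b) ↦ (u a, b)` -/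
def rot (u : Circle) (x : S3) : S3 :=
  mkS3 ((u : ℂ) * cfst x) (csnd x) (by
    rw [norm_mul, Circle.norm_coe, one_mul]
    exact norm_sq_add_norm_sq x)

@[simp] lemma cfst_rot (u : Circle) (x : S3) : cfst (rot u x) = (u : ℂ) * cfst x := cfst_mkS3 _ _ _

@[simp] lemma csnd_rot (u : Circle) (x : S3) : csnd (rot u x) = csnd x := csnd_mkS3 _ _ _

lemma rot_one (x : S3) : rot 1 x = x := S3.ext_c (by simp) (by simp)

lemma rot_rot (u v : Circle) (x : S3) : rot u (rot v x) = rot (u * v) x :=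
  S3.ext_c (by simp [mul_assoc]) (by simp)

lemma continuous_rot : Continuous fun p : Circle × S3 => rot p.1 p.2 :=
  continuous_mkS3 ((continuous_subtype_val.comp continuous_fst).mul
    (continuous_cfst.comp continuous_snd)) (continuous_csnd.comp continuous_snd) _

/-- The closed standard tube is `|b| ≤ |a|`. -/
lemma mem_solid_iff (x : S3) : x ∈ data.tube.solid ↔ ‖csnd x‖ ≤ ‖cfst x‖ := by
  constructor
  · rintro ⟨y, hy, rfl⟩
    change ‖csnd (data.φ y)‖ ≤ ‖cfst (data.φ y)‖
    rw [csnd_φ, cfst_φ, norm_smul, norm_smul, Circle.norm_coe, mul_one]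
    have h1 : 0 < ‖sc y.2‖ := norm_pos_iff.2 (sc_pos _).ne'
    have h2 : ‖y.2‖ ≤ 1 := hy
    nlinarith
  · intro h
    have ha : cfst x ≠ 0 := by
      intro h0
      rw [h0, norm_zero] at h
      have h1 := norm_sq_add_norm_sq x
      rw [h0, norm_zero, le_antisymm h (norm_nonneg _)] at h1
      norm_num at h1
    have hx : x ∈ data.U := ha
    refine ⟨data.ψ x, ?_, data.φ_ψ x hx⟩
    change ‖(‖cfst x‖⁻¹ : ℝ) • csnd x‖ ≤ 1
    rw [norm_smul, norm_inv, norm_norm, inv_mul_le_iff₀ (norm_pos_iff.2 ha), mul_one]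
    exact h

lemma rot_mem_solid_iff (u : Circle) (x : S3) : rot u x ∈ data.tube.solid ↔ x ∈ data.tube.solid := by
  rw [mem_solid_iff, mem_solid_iff, cfst_rot, csnd_rot, norm_mul, Circle.norm_coe, one_mul]

lemma rot_mem_inner_iff (u : Circle) (x : S3) : rot u x ∈ data.tube.inner ↔ x ∈ data.tube.inner := by
  rw [mem_inner_iff, mem_inner_iff, cfst_rot, csnd_rot, norm_mul, Circle.norm_coe, one_mul]

/-! ### The parametrisation of the complement of the unknot -/

/-- `(β, v) ↦ (v, β) / √(1 + |v|²)` -/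
def par (β : Circle) (v : ℂ) : S3 :=
  mkS3 (sc v • v) (sc v • (β : ℂ)) (by
    rw [norm_smul, norm_smul, Circle.norm_coe, Real.norm_eq_abs, abs_of_pos (sc_pos v)]
    have := sc_sq v
    nlinarith)

@[simp] lemma cfst_par (β : Circle) (v : ℂ) : cfst (par β v) = sc v • v := cfst_mkS3 _ _ _

@[simp] lemma csnd_par (β : Circle) (v : ℂ) : csnd (par β v) = sc v • (β : ℂ) := csnd_mkS3 _ _ _

lemma continuous_par : Continuous fun p : Circle × ℂ => par p.1 p.2 := by
  have h : Continuous sc := contDiff_sc.continuous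
  exact continuous_mkS3 ((h.comp continuous_snd).smul continuous_snd)
    ((h.comp continuous_snd).smul (continuous_subtype_val.comp continuous_fst)) _

lemma unitOf_csnd_par (β : Circle) (v : ℂ) : unitOf (csnd (par β v)) = β := by
  rw [csnd_par, unitOf_smul (sc_pos v), unitOf_coe]

lemma par_injective {β β' : Circle} {v v' : ℂ} (h : par β v = par β' v') : β = β' ∧ v = v' := by
  have h1 : β = β' := by rw [← unitOf_csnd_par β v, h, unitOf_csnd_par]
  have h2 : sc v = sc v' := by
    have := congrArg (fun x => ‖csnd x‖) h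
    simpa [norm_smul, abs_of_pos (sc_pos _), Circle.norm_coe] using this
  have h3 := congrArg cfst h
  rw [cfst_par, cfst_par, h2] at h3
  exact ⟨h1, smul_right_injective ℂ (sc_pos v').ne' h3⟩

lemma par_of_csnd_ne_zero (x : S3) (hx : csnd x ≠ 0) :
    par (unitOf (csnd x)) ((‖csnd x‖⁻¹ : ℝ) • cfst x) = x := by
  have hb : 0 < ‖csnd x‖ := norm_pos_iff.2 hx
  have hs : sc ((‖csnd x‖⁻¹ : ℝ) • cfst x) = ‖csnd x‖ := by
    have h1 : 1 + ‖(‖csnd x‖⁻¹ : ℝ) • cfst x‖ ^ 2 = (‖csnd x‖⁻¹) ^ 2 := by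
      rw [norm_smul, Real.norm_eq_abs, abs_of_pos (inv_pos.2 hb)]
      have := norm_sq_add_norm_sq x
      field_simp
      linarith
    rw [sc, h1, Real.sqrt_sq (inv_pos.2 hb).le, inv_inv]
  refine S3.ext_c ?_ ?_
  · rw [cfst_par, hs, smul_smul, mul_inv_cancel₀ hb.ne', one_smul]
  · rw [csnd_par, hs, norm_smul_unitOf hx]

lemma par_mem_solid_iff (β : Circle) (v : ℂ) : par β v ∈ data.tube.solid ↔ 1 ≤ ‖v‖ := by
  rw [mem_solid_iff, cfst_par, csnd_par, norm_smul, norm_smul, Circle.norm_coe, mul_one]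
  have h1 : 0 < ‖sc v‖ := norm_pos_iff.2 (sc_pos _).ne'
  constructor
  · intro h
    by_contra h2
    rw [not_le] at h2
    nlinarith
  · intro h
    nlinarith

lemma sc_mul_coe (u : Circle) (v : ℂ) : sc ((u : ℂ) * v) = sc v := by
  simp [sc, Circle.norm_coe]

lemma rot_par (u β : Circle) (v : ℂ) : rot u (par β v) = par β ((u : ℂ) * v) :=
  S3.ext_c (by simp [sc_mul_coe, mul_left_comm]) (by simp [sc_mul_coe])

/-- a point outside the closed tube, in the coordinates `(β, sq c)` -/
lemma exists_par_sq (x : S3) (hx : x ∉ data.tube.solid) :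
    ∃ c : ℂ, supN c < 1 ∧ par (unitOf (csnd x)) (sq c) = x := by
  rw [mem_solid_iff, not_le] at hx
  have hb : 0 < ‖csnd x‖ := lt_of_le_of_lt (norm_nonneg _) hx
  refine ⟨dq ((‖csnd x‖⁻¹ : ℝ) • cfst x), ?_, ?_⟩
  · rw [supN_dq, norm_smul, norm_inv, norm_norm, inv_mul_lt_iff₀ hb, mul_one]
    exact hx
  · rw [sq_dq]
    exact par_of_csnd_ne_zero x (norm_pos_iff.1 hb)

end Cosmetic

end

end Claimed.Open.R306
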