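import Claimed.Open.R306.SanitySlopeZero

/-!
# The unit quaternions, the circle in them, and the coverings by the lens spaces `S³ / μ_p`

Tools for `SanityLens.lean`.

* `Lens.SU`: the group of unit quaternions; `Lens.iota : Circle →* Lens.SU`: the circle of unit complex numbers;
* `Lens.kappa`: the disc `x ↦ x + √(1 - |x|²) j` in `Lens.SU` which is bounded by this circle;
* `Lens.rootSub p`: the subgroup `μ_p` of the `p`-th roots of unity; it is discrete, so that `Lens.SU → Lens.SU ⧸ μ_p` is a covering map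
  (`Lens.isCoveringMap_mk`);
* `Lens.rootMap p : Lens.SU × Circle → Lens.SU ⧸ μ_p`, `(g, t) ↦ g t^{1/p} μ_p`.
-/

set_option autoImplicit false

open Set Metric Topology Quaternion

namespace Claimed.Open.R306

noncomputable section

namespace Lens

/-- the group of unit quaternions -/
abbrev SU : Type := Metric.sphere (0 : ℍ[ℝ]) 1

lemma norm_coeComplex (z : ℂ) : ‖(z : ℍ[ℝ])‖ = ‖z‖ := by
  have h1 : ‖(z : ℍ[ℝ])‖ * ‖(z : ℍ[ℝ])‖ = ‖z‖ * ‖z‖ := by
    rw [← Quaternion.normSq_eq_norm_mul_self, Quaternion.normSq_def', ← sq ‖z‖,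
      ← Complex.normSq_eq_norm_sq, Complex.normSq_apply]
    simp
    ring
  exact (mul_self_inj (norm_nonneg _) (norm_nonneg _)).mp h1

lemma continuous_coeComplex : Continuous (Quaternion.coeComplex) :=
  Quaternion.ofComplex.toLinearMap.continuous_of_finiteDimensional

/-- the circle of unit complex numbers in the unit quaternions -/
def iota : Circle →* SU where
  toFun z := ⟨((z : ℂ) : ℍ[ℝ]), by rw [mem_sphere_zero_iff_norm, norm_coeComplex, Circle.norm_coe]⟩
  map_one' := by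
    apply Subtype.ext
    simp
  map_mul' z w := by
    apply Subtype.ext
    simp

lemma continuous_iota : Continuous iota :=
  Continuous.subtype_mk (continuous_coeComplex.comp continuous_subtype_val) _

lemma iota_injective : Function.Injective iota := by
  intro z w h
  have h1 : ((z : ℂ) : ℍ[ℝ]) = ((w : ℂ) : ℍ[ℝ]) := congrArg Subtype.val h
  apply Subtype.ext
  apply Complex.ext
  · simpa using congrArg (fun q : ℍ[ℝ] => q.re) h1
  · simpa using congrArg (fun q : ℍ[ℝ] => q.imI) h1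

lemma isEmbedding_iota : IsEmbedding iota :=
  (continuous_iota.isClosedEmbedding iota_injective).isEmbedding

/-- the quaternion `j` -/
def jj : ℍ[ℝ] := ⟨0, 0, 1, 0⟩

@[simp] lemma jj_re : jj.re = 0 := rfl
@[simp] lemma jj_imI : jj.imI = 0 := rfl
@[simp] lemma jj_imJ : jj.imJ = 1 := rfl
@[simp] lemma jj_imK : jj.imK = 0 := rfl

/-- the disc in the unit quaternions bounded by the circle of unit complex numbers -/
def kappa : C(closedBall (0 : ℂ) 1, SU) where
  toFun x := ⟨((x : ℂ) : ℍ[ℝ]) + (Real.sqrt (1 - ‖(x : ℂ)‖ ^ 2)) • jj, by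
    have hx : ‖(x : ℂ)‖ ≤ 1 := mem_closedBall_zero_iff.mp x.2
    have h0 : 0 ≤ 1 - ‖(x : ℂ)‖ ^ 2 := by nlinarith [norm_nonneg (x : ℂ)]
    rw [mem_sphere_zero_iff_norm]
    have h1 : ‖((x : ℂ) : ℍ[ℝ]) + (Real.sqrt (1 - ‖(x : ℂ)‖ ^ 2)) • jj‖ *
        ‖((x : ℂ) : ℍ[ℝ]) + (Real.sqrt (1 - ‖(x : ℂ)‖ ^ 2)) • jj‖ = 1 * 1 := by
      rw [← Quaternion.normSq_eq_norm_mul_self, Quaternion.normSq_def']
      simp only [Quaternion.re_add, Quaternion.imI_add, Quaternion.imJ_add, Quaternion.imK_add,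
        Quaternion.re_smul, Quaternion.imI_smul, Quaternion.imJ_smul, Quaternion.imK_smul,
        Quaternion.re_coeComplex, Quaternion.imI_coeComplex, Quaternion.imJ_coeComplex,
        Quaternion.imK_coeComplex, smul_eq_mul, mul_zero, mul_one, add_zero, zero_add, jj_re, jj_imI,
        jj_imJ, jj_imK]
      have h2 : ‖(x : ℂ)‖ ^ 2 = (x : ℂ).re ^ 2 + (x : ℂ).im ^ 2 := by
        rw [← Complex.normSq_eq_norm_sq, Complex.normSq_apply]
        ring
      rw [Real.sq_sqrt h0, h2]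
      ring
    exact (mul_self_inj (norm_nonneg _) zero_le_one).mp h1⟩
  continuous_toFun := by
    refine Continuous.subtype_mk ?_ _
    have h1 : Continuous fun x : closedBall (0 : ℂ) 1 => Real.sqrt (1 - ‖(x : ℂ)‖ ^ 2) := by fun_prop
    have h2 : Continuous fun x : closedBall (0 : ℂ) 1 => Real.sqrt (1 - ‖(x : ℂ)‖ ^ 2) • jj :=
      h1.smul continuous_const
    exact (continuous_coeComplex.comp continuous_subtype_val).add h2

lemma kappa_rim (u : Circle) : kappa (Tube.rim u) = iota u := by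
  apply Subtype.ext
  change (((u : ℂ) : ℍ[ℝ])) + (Real.sqrt (1 - ‖(u : ℂ)‖ ^ 2)) • jj = ((u : ℂ) : ℍ[ℝ])
  simp [Circle.norm_coe]

/-! ### The roots of unity and the covering -/

/-- the power map of the circle, as a homomorphism -/
abbrev powHom (p : ℤ) : Circle →* Circle := zpowGroupHom p

/-- the subgroup `μ_p` of the `p`-th roots of unity in the unit quaternions -/
def rootSub (p : ℤ) : Subgroup SU := (powHom p).ker.map iota

lemma mem_rootSub {p : ℤ} {g : SU} : g ∈ rootSub p ↔ ∃ s : Circle, s ^ p = 1 ∧ iota s = g := by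
  simp [rootSub, Subgroup.mem_map, MonoidHom.mem_ker]

lemma finite_roots {p : ℤ} (hp : p ≠ 0) : {s : Circle | s ^ p = 1}.Finite := by
  have hsub : {s : Circle | s ^ p = 1} ⊆
      Set.range (fun k : Fin p.natAbs => Circle.exp (2 * Real.pi * (k : ℝ) / p)) := by
    intro s hs
    obtain ⟨t, rfl⟩ := Circle.exp_surjective s
    have hs' : Circle.exp t ^ p = 1 := hs
    rw [← ZeroInfty.exp_int_mul, ← Circle.exp_zero] at hs'
    obtain ⟨m, hm⟩ := Circle.exp_eq_exp.mp hs'
    have hpR : (p : ℝ) ≠ 0 := by exact_mod_cast hp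
    have hnat : (0 : ℤ) < (p.natAbs : ℤ) := by
      have := Int.natAbs_pos.mpr hp
      exact_mod_cast this
    have hk0 : 0 ≤ m % (p.natAbs : ℤ) := Int.emod_nonneg _ hnat.ne'
    have hk1 : m % (p.natAbs : ℤ) < p.natAbs := Int.emod_lt_of_pos _ hnat
    refine ⟨⟨(m % (p.natAbs : ℤ)).toNat, by omega⟩, ?_⟩
    have hdvd : (p : ℤ) ∣ m - m % (p.natAbs : ℤ) := by
      have h1 : ((p.natAbs : ℤ)) ∣ m - m % (p.natAbs : ℤ) := Int.dvd_self_sub_emod
      exact (Int.natAbs_dvd).mp h1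
    obtain ⟨c, hc⟩ := hdvd
    refine Circle.exp_eq_exp.mpr ⟨-c, ?_⟩
    have hcast : (((m % (p.natAbs : ℤ)).toNat : ℕ) : ℝ) = ((m % (p.natAbs : ℤ) : ℤ) : ℝ) := by
      have : (((m % (p.natAbs : ℤ)).toNat : ℕ) : ℤ) = m % (p.natAbs : ℤ) := Int.toNat_of_nonneg hk0
      exact_mod_cast this
    have hc' : (m : ℝ) - ((m % (p.natAbs : ℤ) : ℤ) : ℝ) = p * c := by exact_mod_cast hc
    have ht : t = m * (2 * Real.pi) / p := by
      field_simp
      linarith
    change 2 * Real.pi * (((m % (p.natAbs : ℤ)).toNat : ℕ) : ℝ) / p = t + ((-c : ℤ) : ℝ) * (2 * Real.pi)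
    rw [hcast, ht]
    have h5 : ((m % (p.natAbs : ℤ) : ℤ) : ℝ) = m - p * c := by linarith
    rw [h5]
    push_cast
    field_simp
    ring
  exact (Set.finite_range _).subset hsub

lemma isDiscrete_rootSub {p : ℤ} (hp : p ≠ 0) : IsDiscrete (rootSub p : Set SU) := by
  apply Set.Finite.isDiscrete
  have : (rootSub p : Set SU) = iota '' {s : Circle | s ^ p = 1} := by
    ext g
    exact mem_rootSub
  rw [this]
  exact (finite_roots hp).image _

/-- `S³ → S³ / μ_p` is a covering map. -/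
lemma isCoveringMap_mk {p : ℤ} (hp : p ≠ 0) :
    IsCoveringMap (QuotientGroup.mk (s := rootSub p)) :=
  ((rootSub p).isQuotientCoveringMap (isDiscrete_rootSub hp)).isCoveringMap

/-! ### The map `(g, t) ↦ g t^{1/p} μ_p` -/

/-- the map `(g, s) ↦ (g, s ^ p)` -/
def powProd (p : ℤ) : C(SU × Circle, SU × Circle) := ⟨fun y => (y.1, y.2 ^ p), by fun_prop⟩

lemma powProd_surjective {p : ℤ} (hp : p ≠ 0) : Function.Surjective (powProd p) := by
  rintro ⟨g, t⟩
  obtain ⟨τ, rfl⟩ := Circle.exp_surjective t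
  refine ⟨(g, Circle.exp (τ / p)), Prod.ext rfl ?_⟩
  change Circle.exp (τ / p) ^ p = Circle.exp τ
  have hpR : (p : ℝ) ≠ 0 := by exact_mod_cast hp
  rw [← ZeroInfty.exp_int_mul]
  congr 1
  field_simp

lemma isQuotientMap_powProd {p : ℤ} (hp : p ≠ 0) : IsQuotientMap (powProd p) :=
  (powProd p).continuous.isClosedMap.isQuotientMap (powProd p).continuous (powProd_surjective hp)

/-- the map `(g, s) ↦ g s μ_p` -/
def preRoot (p : ℤ) : C(SU × Circle, SU ⧸ rootSub p) :=
  ⟨fun y => QuotientGroup.mk (y.1 * iota y.2),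
    continuous_quot_mk.comp (continuous_fst.mul (continuous_iota.comp continuous_snd))⟩

lemma preRoot_factors (p : ℤ) : Function.FactorsThrough (preRoot p) (powProd p) := by
  rintro ⟨g, s⟩ ⟨g', s'⟩ h
  have h1 : g = g' := congrArg Prod.fst h
  have h2 : s ^ p = s' ^ p := congrArg Prod.snd h
  subst h1
  change (QuotientGroup.mk (g * iota s) : SU ⧸ rootSub p) = QuotientGroup.mk (g * iota s')
  rw [QuotientGroup.eq]
  refine mem_rootSub.mpr ⟨s⁻¹ * s', ?_, ?_⟩
  · rw [mul_zpow, inv_zpow, h2, inv_mul_cancel]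
  · rw [map_mul, map_inv]
    group

/-- the map `(g, t) ↦ g t^{1/p} μ_p` -/
def rootMap {p : ℤ} (hp : p ≠ 0) : C(SU × Circle, SU ⧸ rootSub p) :=
  (isQuotientMap_powProd hp).lift (preRoot p) (preRoot_factors p)

lemma rootMap_pow {p : ℤ} (hp : p ≠ 0) (g : SU) (s : Circle) :
    rootMap hp (g, s ^ p) = QuotientGroup.mk (g * iota s) :=
  congrArg (fun f : C(SU × Circle, SU ⧸ rootSub p) => f (g, s))
    ((isQuotientMap_powProd hp).lift_comp (preRoot p) (preRoot_factors p))

lemma exists_root {p : ℤ} (hp : p ≠ 0) (t : Circle) : ∃ s : Circle, s ^ p = t := by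
  obtain ⟨⟨_, s⟩, hs⟩ := powProd_surjective hp (1, t)
  exact ⟨s, congrArg Prod.snd hs⟩

lemma rootMap_iota {p : ℤ} (hp : p ≠ 0) (w t : Circle) :
    rootMap hp (iota w, t) = rootMap hp (1, w ^ p * t) := by
  obtain ⟨s, rfl⟩ := exists_root hp t
  rw [rootMap_pow, ← mul_zpow, rootMap_pow, one_mul, map_mul]

/-- a lift of `rootMap (1, t)` is a `p`-th root of `t` in the circle -/
lemma exists_of_mk_eq_rootMap {p : ℤ} (hp : p ≠ 0) {g : SU} {t : Circle}
    (h : (QuotientGroup.mk g : SU ⧸ rootSub p) = rootMap hp (1, t)) :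
    ∃ w : Circle, iota w = g ∧ w ^ p = t := by
  obtain ⟨s, rfl⟩ := exists_root hp t
  rw [rootMap_pow, one_mul, eq_comm, QuotientGroup.eq] at h
  obtain ⟨σ, hσ, hσg⟩ := mem_rootSub.mp h
  refine ⟨s * σ, ?_, ?_⟩
  · rw [map_mul, hσg]
    group
  · rw [mul_zpow, hσ, mul_one]

end Lens

end

end Claimed.Open.R306
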