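import Claimed.Open.R306.Statement

/-!
# The trefoil knot: coordinates and formulas

We identify `ℝ⁴` with `ℂ²` and write down the maps from which an explicit tubular neighbourhood of the
trefoil knot `t ↦ (3/5 t², 4/5 t³)` is built:

* `tq τ v`, `tn τ v = tq τ v / ‖tq τ v‖`: for `|τ| = 1` and `v = x + i y` the point of `S³` on the
  ray through `(τ² (1 + i y) (3/4) eˣ, τ³ (1 + i y))`;
* `gt`, `gv`: the formulas that recover `τ` and `v`.
-/

set_option autoImplicit false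

open scoped ComplexConjugate
open Set Complex

namespace Claimed.Open.R306

noncomputable section

/-! ### `ℝ⁴ = ℂ²` -/

/-- Euclidean four-space. -/
abbrev R4 : Type := EuclideanSpace ℝ (Fin 4)

/-- The first complex coordinate of a point of `ℝ⁴ = ℂ²`. -/
def zc (p : R4) : ℂ := ⟨p 0, p 1⟩

/-- The second complex coordinate of a point of `ℝ⁴ = ℂ²`. -/
def wc (p : R4) : ℂ := ⟨p 2, p 3⟩

/-- The point of `ℝ⁴` with complex coordinates `(z, w)`. -/
def ofC (z w : ℂ) : R4 := !₂[z.re, z.im, w.re, w.im]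

@[simp] lemma zc_ofC (z w : ℂ) : zc (ofC z w) = z := by
  apply Complex.ext <;> simp [zc, ofC]

@[simp] lemma wc_ofC (z w : ℂ) : wc (ofC z w) = w := by
  apply Complex.ext <;> simp [wc, ofC]

@[simp] lemma ofC_zc_wc (p : R4) : ofC (zc p) (wc p) = p := by
  ext i
  fin_cases i <;> simp [zc, wc, ofC]

lemma norm_ofC_sq (z w : ℂ) : ‖ofC z w‖ ^ 2 = ‖z‖ ^ 2 + ‖w‖ ^ 2 := by
  rw [EuclideanSpace.norm_sq_eq, Fin.sum_univ_four]
  simp [ofC, ← Complex.normSq_eq_norm_sq, Complex.normSq_apply]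
  ring

lemma norm_sq_eq_zc_wc (p : R4) : ‖p‖ ^ 2 = ‖zc p‖ ^ 2 + ‖wc p‖ ^ 2 := by
  rw [← norm_ofC_sq, ofC_zc_wc]

lemma ofC_smul (r : ℝ) (z w : ℂ) : ofC (r * z) (r * w) = r • ofC z w := by
  ext i
  fin_cases i <;> simp [ofC]

lemma zc_smul (r : ℝ) (p : R4) : zc (r • p) = r * zc p := by
  apply Complex.ext <;> simp [zc]

lemma wc_smul (r : ℝ) (p : R4) : wc (r • p) = r * wc p := by
  apply Complex.ext <;> simp [wc]

lemma R4_ext {p q : R4} (h1 : zc p = zc q) (h2 : wc p = wc q) : p = q := by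
  rw [← ofC_zc_wc p, ← ofC_zc_wc q, h1, h2]

/-! ### Normalisation to the circle -/

/-- `c / |c|` as a point of the circle (`1` if `c = 0`). -/
def circ (c : ℂ) : Circle := Circle.exp (Complex.arg c)

lemma coe_circ {c : ℂ} (hc : c ≠ 0) : (circ c : ℂ) = c / ‖c‖ := by
  have h : (‖c‖ : ℂ) ≠ 0 := by exact_mod_cast norm_ne_zero_iff.mpr hc
  rw [eq_div_iff h, circ, Circle.coe_exp, mul_comm]
  exact Complex.norm_mul_exp_arg_mul_I c

lemma circ_pos_mul {r : ℝ} (hr : 0 < r) (c : ℂ) : circ (r * c) = circ c := by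
  rw [circ, circ, Complex.arg_real_mul c hr]

@[simp] lemma circ_coe (t : Circle) : circ (t : ℂ) = t := Circle.exp_arg t

lemma circle_mul_conj (t : Circle) : (t : ℂ) * conj (t : ℂ) = 1 := by
  rw [Complex.mul_conj, Complex.normSq_eq_norm_sq, Circle.norm_coe]
  simp

lemma one_add_mul_I_ne_zero (y : ℝ) : (1 : ℂ) + y * I ≠ 0 := by
  intro h
  have := congrArg Complex.re h
  simp at this

/-! ### The formulas -/

/-- The point `(τ² (1 + i y) (3/4) eˣ, τ³ (1 + i y))`, `v = x + i y`. -/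
def tq (τ v : ℂ) : R4 :=
  ofC (τ ^ 2 * (1 + v.im * I) * ((3 / 4 * Real.exp v.re : ℝ) : ℂ)) (τ ^ 3 * (1 + v.im * I))

/-- `tq τ v` normalised to the unit sphere. -/
def tn (τ v : ℂ) : R4 := ‖tq τ v‖⁻¹ • tq τ v

/-- `z³ w̄²`; its argument is constant on the orbits of `t • (z, w) = (t² z, t³ w)`. -/
def gc (p : R4) : ℂ := zc p ^ 3 * conj (wc p) ^ 2

/-- `w z̄`, a positive multiple of `τ` at the point `tn τ v`. -/
def gt (p : R4) : ℂ := wc p * conj (zc p)

/-- The formula which recovers `v` from `tn τ v`. -/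
def gv (p : R4) : ℂ := ⟨Real.log (4 * ‖zc p‖ / (3 * ‖wc p‖)), (gc p).im / (gc p).re⟩

lemma tq_ne_zero {τ : ℂ} (hτ : τ ≠ 0) (v : ℂ) : tq τ v ≠ 0 := by
  intro h
  have h1 : wc (tq τ v) = 0 := by rw [h]; apply Complex.ext <;> simp [wc]
  rw [tq, wc_ofC] at h1
  exact mul_ne_zero (pow_ne_zero 3 hτ) (one_add_mul_I_ne_zero _) h1

lemma norm_tn {τ : ℂ} (hτ : τ ≠ 0) (v : ℂ) : ‖tn τ v‖ = 1 :=
  norm_smul_inv_norm (𝕜 := ℝ) (tq_ne_zero hτ v)

/-! ### Behaviour under positive scaling -/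

lemma gc_smul (r : ℝ) (p : R4) : gc (r • p) = ((r ^ 5 : ℝ) : ℂ) * gc p := by
  simp only [gc, zc_smul, wc_smul, map_mul, Complex.conj_ofReal]
  push_cast
  ring

lemma gt_smul (r : ℝ) (p : R4) : gt (r • p) = ((r ^ 2 : ℝ) : ℂ) * gt p := by
  simp only [gt, zc_smul, wc_smul, map_mul, Complex.conj_ofReal]
  push_cast
  ring

lemma gv_smul {r : ℝ} (hr : 0 < r) (p : R4) : gv (r • p) = gv p := by
  have h5 : (r ^ 5 : ℝ) ≠ 0 := by positivity
  apply Complex.ext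
  · simp only [gv, zc_smul, wc_smul, norm_mul, Complex.norm_real, Real.norm_eq_abs, abs_of_pos hr]
    congr 1
    rcases eq_or_ne ‖wc p‖ 0 with h | h
    · simp [h]
    · field_simp
  · simp only [gv, gc_smul, Complex.re_ofReal_mul, Complex.im_ofReal_mul]
    rw [mul_div_mul_left _ _ h5]

/-! ### The two compositions -/


lemma gt_tq (t : Circle) (v : ℂ) :
    gt (tq t v) = (((1 + v.im ^ 2) * (3 / 4 * Real.exp v.re) : ℝ) : ℂ) * t := by
  have h := circle_mul_conj t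
  simp only [gt, tq, zc_ofC, wc_ofC, map_mul, map_pow, map_add, map_one, Complex.conj_ofReal,
    Complex.conj_I]
  push_cast
  linear_combination ((t : ℂ) * ((t : ℂ) * conj (t : ℂ) + 1) * (1 + v.im * I) * (1 + v.im * -I) *
    (3 / 4 * Complex.exp v.re)) * h - ((v.im : ℂ) ^ 2 * (3 / 4 * Complex.exp v.re) * t) * Complex.I_sq

lemma gc_tq (t : Circle) (v : ℂ) :
    gc (tq t v) = (((1 + v.im ^ 2) ^ 2 * (3 / 4 * Real.exp v.re) ^ 3 : ℝ) : ℂ) * (1 + v.im * I) := by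
  have h := circle_mul_conj t
  have h6 : (t : ℂ) ^ 6 * conj (t : ℂ) ^ 6 = 1 := by rw [← mul_pow, h, one_pow]
  have hI : (1 + (v.im : ℂ) * I) * (1 + v.im * -I) = 1 + (v.im : ℂ) ^ 2 := by
    linear_combination (-(v.im : ℂ) ^ 2) * Complex.I_sq
  simp only [gc, tq, zc_ofC, wc_ofC, map_mul, map_pow, map_add, map_one, Complex.conj_ofReal,
    Complex.conj_I]
  push_cast
  linear_combination ((1 + v.im * I) ^ 3 * (1 + v.im * -I) ^ 2 * (3 / 4 * Complex.exp v.re) ^ 3) * h6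
    + ((3 / 4 * Complex.exp v.re) ^ 3 * (1 + v.im * I) * ((1 + (v.im : ℂ) * I) * (1 + v.im * -I) + (1 + (v.im : ℂ) ^ 2))) * hI

lemma norm_zc_tq (t : Circle) (v : ℂ) :
    ‖zc (tq t v)‖ = ‖(1 : ℂ) + v.im * I‖ * (3 / 4 * Real.exp v.re) := by
  simp only [tq, zc_ofC, norm_mul, norm_pow, Circle.norm_coe, one_pow, one_mul, Complex.norm_real,
    Real.norm_eq_abs]
  rw [abs_of_pos (by norm_num : (0 : ℝ) < 3 / 4), abs_of_pos (Real.exp_pos _)]

lemma norm_wc_tq (t : Circle) (v : ℂ) : ‖wc (tq t v)‖ = ‖(1 : ℂ) + v.im * I‖ := by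
  simp only [tq, wc_ofC, norm_mul, norm_pow, Circle.norm_coe, one_pow, one_mul]

lemma gv_tq (t : Circle) (v : ℂ) : gv (tq t v) = v := by
  have h1 : ‖(1 : ℂ) + v.im * I‖ ≠ 0 := norm_ne_zero_iff.mpr (one_add_mul_I_ne_zero _)
  apply Complex.ext
  · simp only [gv, norm_zc_tq, norm_wc_tq]
    have : 4 * (‖(1 : ℂ) + v.im * I‖ * (3 / 4 * Real.exp v.re)) / (3 * ‖(1 : ℂ) + v.im * I‖) =
        Real.exp v.re := by
      field_simp
    rw [this, Real.log_exp]
  · have h2 : ((1 + v.im ^ 2) ^ 2 * (3 / 4 * Real.exp v.re) ^ 3 : ℝ) ≠ 0 := by positivity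
    simp only [gv, gc_tq, Complex.re_ofReal_mul, Complex.im_ofReal_mul]
    rw [mul_div_mul_left _ _ h2]
    simp

lemma circ_gt_tn (t : Circle) (v : ℂ) : circ (gt (tn t v)) = t := by
  have h0 : 0 < ‖tq t v‖ := norm_pos_iff.mpr (tq_ne_zero (Circle.coe_ne_zero t) v)
  rw [tn, gt_smul, circ_pos_mul (by positivity), gt_tq, circ_pos_mul (by positivity), circ_coe]

lemma gv_tn (t : Circle) (v : ℂ) : gv (tn t v) = v := by
  have h0 : 0 < ‖tq t v‖ := norm_pos_iff.mpr (tq_ne_zero (Circle.coe_ne_zero t) v)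
  rw [tn, gv_smul (by positivity), gv_tq]

lemma gc_tn_re_pos (t : Circle) (v : ℂ) : 0 < (gc (tn t v)).re := by
  have h0 : 0 < ‖tq t v‖ := norm_pos_iff.mpr (tq_ne_zero (Circle.coe_ne_zero t) v)
  rw [tn, gc_smul, gc_tq, Complex.re_ofReal_mul, Complex.re_ofReal_mul]
  simp
  positivity

/-- The other composition. -/
lemma tn_circ_gt_gv {p : R4} (hp : ‖p‖ = 1) (hc : 0 < (gc p).re) :
    tn (circ (gt p)) (gv p) = p := by
  have hz : zc p ≠ 0 := by
    intro h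
    simp [gc, h] at hc
  have hw : wc p ≠ 0 := by
    intro h
    simp [gc, h] at hc
  have ha : 0 < ‖zc p‖ := norm_pos_iff.mpr hz
  have hb : 0 < ‖wc p‖ := norm_pos_iff.mpr hw
  have hzz : zc p * conj (zc p) = ((‖zc p‖ ^ 2 : ℝ) : ℂ) := by
    rw [Complex.mul_conj, Complex.normSq_eq_norm_sq]
  have hww : wc p * conj (wc p) = ((‖wc p‖ ^ 2 : ℝ) : ℂ) := by
    rw [Complex.mul_conj, Complex.normSq_eq_norm_sq]
  have hT : (circ (gt p) : ℂ) = wc p * conj (zc p) / ((‖wc p‖ * ‖zc p‖ : ℝ) : ℂ) := by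
    have hgt : gt p ≠ 0 := mul_ne_zero hw ((map_ne_zero _).mpr hz)
    rw [coe_circ hgt]
    simp [gt]
  have hy : (1 : ℂ) + ((gv p).im : ℝ) * I = gc p / (((gc p).re : ℝ) : ℂ) := by
    have : (((gc p).re : ℝ) : ℂ) ≠ 0 := by exact_mod_cast hc.ne'
    rw [eq_div_iff this]
    simp only [gv]
    push_cast
    field_simp
    exact Complex.re_add_im (gc p)
  have hx : 3 / 4 * Real.exp (gv p).re = ‖zc p‖ / ‖wc p‖ := by
    simp only [gv]
    rw [Real.exp_log (by positivity)]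
    field_simp
  have key : tq (circ (gt p)) (gv p) = (‖zc p‖ ^ 3 * ‖wc p‖ / (gc p).re) • p := by
    have hre : (((gc p).re : ℝ) : ℂ) ≠ 0 := by exact_mod_cast hc.ne'
    have ha' : ((‖zc p‖ : ℝ) : ℂ) ≠ 0 := by exact_mod_cast ha.ne'
    have hb' : ((‖wc p‖ : ℝ) : ℂ) ≠ 0 := by exact_mod_cast hb.ne'
    apply R4_ext
    · rw [tq, zc_ofC, zc_smul, hy, hx, hT]
      simp only [gc]
      push_cast at hzz hww ⊢
      field_simp
      congr 1
      have e : wc p ^ 2 * conj (zc p) ^ 2 * zc p ^ 2 * conj (wc p) ^ 2 =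
          (zc p * conj (zc p)) ^ 2 * (wc p * conj (wc p)) ^ 2 := by ring
      rw [e, hzz, hww]
      ring
    · rw [tq, wc_ofC, wc_smul, hy, hT]
      simp only [gc]
      push_cast at hzz hww ⊢
      field_simp
      congr 1
      have e : wc p ^ 2 * conj (zc p) ^ 3 * zc p ^ 3 * conj (wc p) ^ 2 =
          (zc p * conj (zc p)) ^ 3 * (wc p * conj (wc p)) ^ 2 := by ring
      rw [e, hzz, hww]
      ring
  have hk : 0 < ‖zc p‖ ^ 3 * ‖wc p‖ / (gc p).re := by positivity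
  rw [tn, key, norm_smul, hp, mul_one, Real.norm_eq_abs, abs_of_pos hk, smul_smul,
    inv_mul_cancel₀ hk.ne', one_smul]

end

end Claimed.Open.R306
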