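import Claimed.Open.R306.SanityTrefoilTube

/-!
# The trefoil knot as a zero set

`trefoil = {(z, w) ∈ S³ : (5 z / 3) ^ 3 = (5 w / 4) ^ 2}`.
-/

set_option autoImplicit false

open scoped ComplexConjugate
open Set Complex

namespace Claimed.Open.R306

noncomputable section

lemma norm_tq_zero (t : Circle) : ‖tq t 0‖ = 5 / 4 := by
  have h : ‖tq t 0‖ ^ 2 = (5 / 4) ^ 2 := by
    rw [norm_sq_eq_zc_wc, norm_zc_tq, norm_wc_tq]
    simp
    norm_num
  exact (pow_left_inj₀ (norm_nonneg _) (by norm_num) (by norm_num)).mp h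

/-- The knot is `t ↦ (3/5 t², 4/5 t³)`. -/
lemma coe_trefoilFun_zero (t : Circle) :
    (trefoilFun (t, 0) : R4) = ofC (3 / 5 * (t : ℂ) ^ 2) (4 / 5 * (t : ℂ) ^ 3) := by
  simp only [trefoilFun, tubeAmb, mul_zero, tn, norm_tq_zero]
  apply R4_ext
  · rw [zc_smul, tq, zc_ofC, zc_ofC]
    simp
    ring
  · rw [wc_smul, tq, wc_ofC, wc_ofC]
    simp

/-- Points of the knot satisfy the equation. -/
lemma eq_of_mem_trefoil {p : S3} (hp : p ∈ trefoil) :
    (5 / 3 * zc p.1) ^ 3 = (5 / 4 * wc p.1) ^ 2 := by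
  obtain ⟨t, rfl⟩ := hp
  simp only [coe_trefoilFun_zero, zc_ofC, wc_ofC]
  ring

/-- Solutions of the equation on the sphere lie on the knot. -/
lemma mem_trefoil_of_eq {p : S3} (h : (5 / 3 * zc p.1) ^ 3 = (5 / 4 * wc p.1) ^ 2) :
    p ∈ trefoil := by
  have hp : ‖zc p.1‖ ^ 2 + ‖wc p.1‖ ^ 2 = 1 := by
    rw [← norm_sq_eq_zc_wc, mem_sphere_zero_iff_norm.mp p.2, one_pow]
  have ha0 : 0 ≤ ‖zc p.1‖ := norm_nonneg _
  have hb0 : 0 ≤ ‖wc p.1‖ := norm_nonneg _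
  have hn : (5 / 3 * ‖zc p.1‖) ^ 3 = (5 / 4 * ‖wc p.1‖) ^ 2 := by
    have := congrArg norm h
    simpa [norm_pow, norm_mul] using this
  -- the moduli
  have ha : ‖zc p.1‖ = 3 / 5 := by
    have h1 : (‖zc p.1‖ - 3 / 5) *
        (125 / 27 * ‖zc p.1‖ ^ 2 + 625 / 144 * ‖zc p.1‖ + 125 / 48) = 0 := by
      nlinarith
    rcases mul_eq_zero.mp h1 with h2 | h2
    · linarith
    · nlinarith
  have hb : ‖wc p.1‖ = 4 / 5 := by
    have h1 : ‖wc p.1‖ ^ 2 = (4 / 5) ^ 2 := by rw [ha] at hp; linarith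
    exact (pow_left_inj₀ hb0 (by norm_num) (by norm_num)).mp h1
  -- the invariant `z³ w̄²`
  have hww : wc p.1 * conj (wc p.1) = ((‖wc p.1‖ ^ 2 : ℝ) : ℂ) := by
    rw [Complex.mul_conj, Complex.normSq_eq_norm_sq]
  have hgc : gc p.1 = ((27 / 80 * (4 / 5) ^ 4 : ℝ) : ℂ) := by
    have h1 : zc p.1 ^ 3 = 27 / 80 * wc p.1 ^ 2 := by linear_combination (27 / 125) * h
    have h2 : gc p.1 = 27 / 80 * (wc p.1 * conj (wc p.1)) ^ 2 := by
      rw [gc, h1]
      ring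
    rw [h2, hww, hb]
    push_cast
    ring
  have hU : p ∈ trefoilU := by
    show 0 < (gc p.1).re
    rw [hgc, Complex.ofReal_re]
    norm_num
  have hgv : gv p.1 = 0 := by
    apply Complex.ext
    · simp only [gv, ha, hb, Complex.zero_re]
      norm_num
    · simp only [gv, hgc, Complex.ofReal_im, zero_div, Complex.zero_im]
  refine ⟨circ (gt p.1), ?_⟩
  have h3 := trefoilFun_trefoilInv hU
  rw [trefoilInv, hgv, mul_zero] at h3
  exact h3

lemma mem_trefoil_iff {p : S3} :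
    p ∈ trefoil ↔ (5 / 3 * zc p.1) ^ 3 = (5 / 4 * wc p.1) ^ 2 :=
  ⟨eq_of_mem_trefoil, mem_trefoil_of_eq⟩

end

end Claimed.Open.R306
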