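import Mathlib

/-!
# The purely cosmetic surgery conjecture for knots in the three-sphere: the statement

Paper: *Purely cosmetic surgery on knots in the three-sphere* (September 23, 2026),
Theorem 1.1 (`thm:main`):

> Let `K ⊂ S³` be a smooth nontrivial knot.  For any `r, s ∈ ℚ ∪ {∞}`, an
> orientation-preserving homeomorphism `S³_r(K) ≅ S³_s(K)` implies `r = s`.

Everything the theorem speaks about is defined here on top of Mathlib:

* `S3`, `IsSmoothKnot`, `unknot`, `IsTrivialKnot`: smooth knots in `S³` and triviality;
* `Tube K`: a (trivialised) tubular neighbourhood `S¹ × ℝ² ↪ S³` of `K`; `Tube.solid` is the closed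
  tubular neighbourhood `νK`, `Tube.Exterior` the knot exterior `E_K = S³ ∖ int νK`;
* `Tube.meridian`, `Tube.longitude`, `Tube.IsPositive`, `Tube.IsPreferred`: the meridian `μ`, the
  longitude `λ` of the trivialisation, the right-hand-rule convention for `(μ, λ)` and the condition
  `lk(λ, K) = 0` which singles out the preferred longitude;
* `Slope = ℚ ∪ {∞}`, `Tube.Filling`, `Tube.Surgery`: the Dehn filling `S³_{p/q}(K)` of `E_K` in which
  a meridian disc of the new solid torus is glued to the curve `p μ + q λ`;
* `Tube.pinch`, `Tube.IsOrientationPreserving`: homeomorphisms of fillings which preserve the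
  orientations that extend the orientation of `E_K`.

`CLAIM.md` discusses every definition and `Sanity.lean` has checked examples.
-/

set_option autoImplicit false

open scoped Manifold ContDiff
open Manifold CategoryTheory

namespace Claimed.Open.R306

noncomputable section

/-! ### Knots -/

/-- The three-sphere: the unit sphere of `ℝ⁴`, with Mathlib's smooth structure. -/
abbrev S3 : Type := Metric.sphere (0 : EuclideanSpace ℝ (Fin 4)) 1

/-- A smooth knot in `S³`: the image of a smooth embedding of the circle. -/
def IsSmoothKnot (K : Set S3) : Prop :=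
  ∃ γ : Circle → S3, IsSmoothEmbedding (𝓡 1) (𝓡 3) ∞ γ ∧ Set.range γ = K

/-- The standard unknot: the great circle `x₂ = x₃ = 0`. -/
def unknot : Set S3 := {x | x.1 2 = 0 ∧ x.1 3 = 0}

/-- A knot is trivial if some diffeomorphism of `S³` carries it onto the standard unknot. -/
def IsTrivialKnot (K : Set S3) : Prop :=
  ∃ h : S3 ≃ₘ⟮𝓡 3, 𝓡 3⟯ S3, h '' K = unknot

/-! ### Tubular neighbourhoods, the exterior, meridian and longitude -/

/-- A tubular neighbourhood of the knot `K`, with a trivialisation: a smooth embedding of
`S¹ × ℝ²` (written `S¹ × ℂ`) into `S³` which maps the zero section `S¹ × 0` onto `K`. -/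
structure Tube (K : Set S3) where
  /-- the embedding `S¹ × ℂ → S³` -/
  toFun : Circle × ℂ → S3
  isSmoothEmbedding : IsSmoothEmbedding ((𝓡 1).prod 𝓘(ℝ, ℂ)) (𝓡 3) ∞ toFun
  range_core : Set.range (fun z : Circle => toFun (z, 0)) = K

namespace Tube

variable {K : Set S3} (N : Tube K)

/-- The closed tubular neighbourhood `νK`: the image of `S¹ × D²`, `D²` the closed unit disc. -/
def solid : Set S3 := N.toFun '' {x | ‖x.2‖ ≤ 1}

/-- The interior `int νK`: the image of `S¹ × int D²`. -/
def inner : Set S3 := N.toFun '' {x | ‖x.2‖ < 1}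

/-- The knot exterior `E_K = S³ ∖ int νK`. -/
abbrev Exterior : Type := ↥(N.inner)ᶜ

/-- The parametrisation `S¹ × S¹ → ∂E_K = ∂νK` of the peripheral torus; the first coordinate runs
along the knot, the second one around it. -/
def torus : C(Circle × Circle, N.Exterior) where
  toFun x := ⟨N.toFun (x.1, (x.2 : ℂ)), by
    rintro ⟨y, hy, hxy⟩
    rw [N.isSmoothEmbedding.isEmbedding.injective hxy] at hy
    exact absurd hy (by simp [Circle.norm_coe])⟩
  continuous_toFun := by
    have := N.isSmoothEmbedding.isEmbedding.continuous
    fun_prop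

/-- The meridian `μ`: the boundary of the normal disc `1 × D²`. -/
def meridian : C(Circle, N.Exterior) := N.torus.comp ⟨fun u => (1, u), by fun_prop⟩

/-- The longitude `λ` of the trivialisation: the parallel copy `S¹ × 1` of the knot. -/
def longitude : C(Circle, N.Exterior) := N.torus.comp ⟨fun z => (z, 1), by fun_prop⟩

/-- The embedding in the coordinates `(t, w) ∈ ℝ × ℂ`, `(t, w) ↦ N (e^{it}, w)`, as a map to `ℝ⁴`. -/
def lift : ℝ × ℂ → EuclideanSpace ℝ (Fin 4) := fun x => (N.toFun (Circle.exp x.1, x.2)).1

/-- The rows of this matrix are the outward normal of `S³ ⊂ ℝ⁴` at the point `N (e^{it}, w)` and the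
images of the coordinate vectors `∂/∂t, ∂/∂x, ∂/∂y` (`w = x + iy`) under the differential of `N`. -/
def frame (x : ℝ × ℂ) : Matrix (Fin 4) (Fin 4) ℝ :=
  Matrix.of ![⇑(N.lift x), ⇑(fderiv ℝ N.lift x (1, 0)), ⇑(fderiv ℝ N.lift x (0, 1)),
    ⇑(fderiv ℝ N.lift x (0, Complex.I))]

/-- The embedding `N : S¹ × ℂ → S³` preserves orientation, where `S¹ × ℂ` has the product of the
counterclockwise and the complex orientation and `S³` is oriented as the boundary of the unit ball
of `ℝ⁴` (outward normal first).  Equivalently: if `K` and `λ` are oriented by `t ↦ e^{it}`, then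
`μ` (also oriented by `t ↦ e^{it}`) satisfies `lk(μ, K) = +1`, the right-hand rule. -/
def IsPositive : Prop := ∀ x : ℝ × ℂ, 0 < (N.frame x).det

/-- `λ` is the preferred (Seifert) longitude: `lk(λ, K) = 0`, that is, `λ` is null-homologous
in `E_K`.

The linking number with `K` is computed by a map `θ : E_K → S¹` which has degree one on the
meridian (such a `θ` represents the generator of `H¹(E_K; ℤ) = [E_K, S¹] ≅ ℤ` dual to `μ`): a loop
`c` in `E_K` has `lk(c, K) = deg (θ ∘ c)`.  A self-map of the circle has degree one iff it is
homotopic to the identity and degree zero iff it is null-homotopic. -/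
def IsPreferred : Prop :=
  ∃ θ : C(N.Exterior, Circle),
    (θ.comp N.meridian).Homotopic (ContinuousMap.id Circle) ∧ (θ.comp N.longitude).Nullhomotopic

/-! ### Dehn filling -/

/-- The solid torus `D² × S¹`; its meridian discs are the `D² × z`. -/
abbrev SolidTorus : Type := Metric.closedBall (0 : ℂ) 1 × Circle

/-- The inclusion `S¹ = ∂D² → D²`. -/
def rim (u : Circle) : Metric.closedBall (0 : ℂ) 1 := ⟨u, by simp [Circle.norm_coe]⟩

/-- The gluing relation on `E_K ⊔ D² × S¹`: the boundary point `(u, z) ∈ ∂D² × S¹` is identified with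
the point of `∂E_K` with torus coordinates `(u^q z^b, u^p z^a)`.  Thus the boundary `u ↦ (u, 1)` of a
meridian disc is glued to the curve `u ↦ N (u^q, u^p)`, which represents `p μ + q λ`, and the gluing
map is a homeomorphism `∂D² × S¹ → ∂E_K` as soon as `q a - p b = ± 1`. -/
def Glue (p q a b : ℤ) : N.Exterior ⊕ SolidTorus → N.Exterior ⊕ SolidTorus → Prop :=
  fun x y => ∃ u z : Circle,
    x = Sum.inr (rim u, z) ∧ y = Sum.inl (N.torus (u ^ q * z ^ b, u ^ p * z ^ a))

/-- The Dehn filling `E_K ∪ (D² × S¹)`: the adjunction space (quotient of the disjoint union). -/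
def Filling (p q a b : ℤ) : Type := Quot (N.Glue p q a b)

instance instTopologicalSpaceFilling (p q a b : ℤ) : TopologicalSpace (N.Filling p q a b) :=
  inferInstanceAs (TopologicalSpace (Quot _))

/-! ### Orientations -/

/-- `S³ / νK = E_K / ∂E_K`: the sphere with the closed tubular neighbourhood pinched to a point. -/
def Pinched : Type := Quot (fun x y : S3 => x ∈ N.solid ∧ y ∈ N.solid)

instance instTopologicalSpacePinched : TopologicalSpace N.Pinched :=
  inferInstanceAs (TopologicalSpace (Quot _))

/-- The map from a filling to `E_K / ∂E_K` which pinches the filling solid torus to a point (and is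
the quotient map on `E_K`). -/
def pinch (p q a b : ℤ) : C(N.Filling p q a b, N.Pinched) where
  toFun := Quot.lift
    (Sum.elim (fun e => Quot.mk _ e.1) (fun _ => Quot.mk _ (N.toFun (1, 0)))) (by
      rintro _ _ ⟨u, z, rfl, rfl⟩
      exact Quot.sound ⟨⟨_, by simp, rfl⟩, ⟨_, by simp [Circle.norm_coe], rfl⟩⟩)
  continuous_toFun := continuous_quot_lift _
    ((continuous_quot_mk.comp continuous_subtype_val).sumElim continuous_const)

end Tube

/-- Integral singular homology in degree three. -/
abbrev H₃ : TopCat.{0} ⥤ ModuleCat.{0} ℤ :=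
  (AlgebraicTopology.singularHomologyFunctor (ModuleCat.{0} ℤ) 3).obj (ModuleCat.of ℤ ℤ)

/-- A homeomorphism `f` between two Dehn fillings `M, M'` of `E_K` preserves orientation, both
fillings carrying the orientation which extends that of `E_K ⊂ S³`.

The pinching maps `π : M → E_K / ∂E_K` and `π' : M' → E_K / ∂E_K` induce isomorphisms from
`H₃(M) ≅ ℤ` and `H₃(M') ≅ ℤ` to `H₃(E_K / ∂E_K) = H₃(E_K, ∂E_K) ≅ ℤ`, and the fundamental class `[M]` of
the orientation of `M` that extends the one of `E_K` is the class with `π_* [M] = [E_K, ∂E_K]`;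
likewise for `M'`.  Hence `f_* [M] = [M']` iff `(π' ∘ f)_* = π_*` on `H₃(M)`. -/
def Tube.IsOrientationPreserving {K : Set S3} (N : Tube K) {p q a b p' q' a' b' : ℤ}
    (f : N.Filling p q a b ≃ₜ N.Filling p' q' a' b') : Prop :=
  H₃.map (TopCat.ofHom ((N.pinch p' q' a' b').comp (f : C(_, _)))) =
    H₃.map (TopCat.ofHom (N.pinch p q a b))

/-! ### Slopes and surgery -/

/-- Slopes: `ℚ ∪ {∞}`. -/
abbrev Slope : Type := OnePoint ℚ

/-- The numerator `p` of the slope `p/q` (in lowest terms, `q > 0`); `∞ = 1/0`. -/
def Slope.num (r : Slope) : ℤ := r.elim 1 Rat.num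

/-- The denominator `q` of the slope `p/q` (in lowest terms, `q > 0`); `∞ = 1/0`. -/
def Slope.den (r : Slope) : ℤ := r.elim 0 (fun x => (x.den : ℤ))

/-- The surgery `S³_{p/q}(K)`, `r = p/q`: the Dehn filling of `E_K` along `p μ + q λ`.  The integers
`a, b` that complete the gluing map are the Bézout coefficients, so that
`q a - p b = q * gcdB p q + p * gcdA p q = gcd p q = 1`. -/
abbrev Tube.Surgery {K : Set S3} (N : Tube K) (r : Slope) : Type :=
  N.Filling r.num r.den (Int.gcdB r.num r.den) (-Int.gcdA r.num r.den)

/-! ### The theorem -/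

/-- **The purely cosmetic surgery conjecture for knots in `S³`** (Theorem 1.1 of the paper).
Let `K ⊂ S³` be a smooth nontrivial knot, `E_K` its exterior (the complement of the interior of a
closed tubular neighbourhood `N`), with the meridian and the preferred longitude as coordinates
for the slopes.  For `r, s ∈ ℚ ∪ {∞}`, an orientation-preserving homeomorphism
`S³_r(K) ≅ S³_s(K)` implies `r = s`.

The paper fixes `νK`, `μ` and `λ` silently.  Here the first conjunct says that such data exist for `K`
(so the existence of a tubular neighbourhood with the preferred framing is part of the claim, not a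
hypothesis, and the second conjunct is not vacuous for any knot), and the second conjunct is the
theorem for every choice of them. -/
def Statement : Prop :=
  ∀ K : Set S3, IsSmoothKnot K → ¬ IsTrivialKnot K →
    (∃ N : Tube K, N.IsPositive ∧ N.IsPreferred) ∧
      ∀ N : Tube K, N.IsPositive → N.IsPreferred →
        ∀ (r s : Slope) (f : N.Surgery r ≃ₜ N.Surgery s), N.IsOrientationPreserving f → r = s

end

end Claimed.Open.R306
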