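import Claimed.Open.R306.Coordinates

/-!
# Tubes given by explicit formulas
-/

set_option autoImplicit false

open scoped Manifold ContDiff
open Manifold Set Metric Module

namespace Claimed.Open.R306

noncomputable section

/-- Explicit data for a tubular neighbourhood: a formula `G` for the embedding and formulas
`P₁, P₂` for its inverse, in the ambient coordinates of `ℂ × ℂ`. -/
structure TubeData where
  G : ℂ × ℂ → ℂ × ℂ
  P₁ : ℂ × ℂ → ℂ
  P₂ : ℂ × ℂ → ℂ
  V : Set (ℂ × ℂ)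
  contDiff_G : ContDiff ℝ ∞ G
  isOpen_V : IsOpen V
  contDiffOn_P₁ : ContDiffOn ℝ ∞ P₁ V
  contDiffOn_P₂ : ContDiffOn ℝ ∞ P₂ V
  P₁_ne : ∀ x ∈ V, P₁ x ≠ 0
  norm_G : ∀ (z : Circle) (w : ℂ), ‖(G (z, w)).1‖ ^ 2 + ‖(G (z, w)).2‖ ^ 2 = 1
  G_mem : ∀ (z : Circle) (w : ℂ), G (z, w) ∈ V
  left₁ : ∀ (z : Circle) (w : ℂ), unitOf (P₁ (G (z, w))) = z
  left₂ : ∀ (z : Circle) (w : ℂ), P₂ (G (z, w)) = w
  right : ∀ x ∈ V, ‖x.1‖ ^ 2 + ‖x.2‖ ^ 2 = 1 → G (unitOf (P₁ x), P₂ x) = x

namespace TubeData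

variable (D : TubeData)

/-- the embedding -/
def φ : Circle × ℂ → S3 :=
  fun x => mkS3 (D.G ((x.1 : ℂ), x.2)).1 (D.G ((x.1 : ℂ), x.2)).2 (D.norm_G x.1 x.2)

/-- its inverse -/
def ψ : S3 → Circle × ℂ :=
  fun y => (unitOf (D.P₁ (cfst y, csnd y)), D.P₂ (cfst y, csnd y))

/-- its image -/
def U : Set S3 := {y | (cfst y, csnd y) ∈ D.V}

lemma isOpen_U : IsOpen D.U := D.isOpen_V.preimage contMDiff_coords.continuous

lemma contMDiff_φ : ContMDiff IT (𝓡 3) ∞ D.φ :=
  contMDiff_mkS3 D.contDiff_G (fun x => D.norm_G x.1 x.2)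

lemma contMDiffOn_ψ : ContMDiffOn (𝓡 3) IT ∞ D.ψ D.U :=
  (contMDiffOn_unitOf (contMDiffOn_of_coords D.contDiffOn_P₁) (fun _ hx => D.P₁_ne _ hx)).prodMk
    (contMDiffOn_of_coords D.contDiffOn_P₂)

lemma φ_mem (x : Circle × ℂ) : D.φ x ∈ D.U := by
  simpa [U, φ] using D.G_mem x.1 x.2

lemma ψ_φ (x : Circle × ℂ) : D.ψ (D.φ x) = x := by
  simp [ψ, φ, D.left₁, D.left₂]

lemma φ_ψ (y : S3) (hy : y ∈ D.U) : D.φ (D.ψ y) = y := by
  have := D.right _ hy (norm_sq_add_norm_sq y)
  apply S3.ext_c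
  · simp [φ, ψ, this]
  · simp [φ, ψ, this]

/-- the knot -/
def knot : Set S3 := range fun z : Circle => D.φ (z, 0)

/-- the tube -/
def tube : Tube D.knot where
  toFun := D.φ
  isSmoothEmbedding := isSmoothEmbedding_of_inverse D.isOpen_U D.contMDiff_φ D.contMDiffOn_ψ
    D.φ_mem D.ψ_φ D.φ_ψ
  range_core := rfl

lemma isSmoothKnot : IsSmoothKnot D.knot :=
  ⟨_, isSmoothEmbedding_core_of_inverse D.isOpen_U D.contMDiff_φ D.contMDiffOn_ψ
    D.φ_mem D.ψ_φ D.φ_ψ, rfl⟩

/-! ### Orientation -/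

/-- `(t, w) ↦ (e^{it}, w)` -/
def expMap : ℝ × ℂ → ℂ × ℂ := fun x => (Complex.exp (x.1 * Complex.I), x.2)

lemma contDiff_expMap : ContDiff ℝ ∞ expMap := by
  unfold expMap
  refine ContDiff.prodMk ?_ contDiff_snd
  exact ((Complex.ofRealCLM.contDiff.comp contDiff_fst).mul contDiff_const).cexp

lemma hasFDerivAt_expMap (x : ℝ × ℂ) :
    HasFDerivAt expMap
      (((ContinuousLinearMap.fst ℝ ℝ ℂ).smulRight (Complex.exp (x.1 * Complex.I) * Complex.I)).prod
        (ContinuousLinearMap.snd ℝ ℝ ℂ)) x := by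
  unfold expMap
  refine HasFDerivAt.prodMk ?_ hasFDerivAt_snd
  have h1 : HasDerivAt (fun t : ℝ => Complex.exp (t * Complex.I))
      (Complex.exp (x.1 * Complex.I) * Complex.I) x.1 := by
    have := ((Complex.ofRealCLM.hasDerivAt (x := x.1)).mul_const Complex.I).cexp
    simpa using this
  exact h1.hasFDerivAt.comp x hasFDerivAt_fst |>.congr_fderiv (by ext <;> simp)

lemma fderiv_expMap_injective (x : ℝ × ℂ) : Function.Injective (fderiv ℝ expMap x) := by
  rw [(hasFDerivAt_expMap x).fderiv]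
  intro v w h
  simp only [ContinuousLinearMap.prod_apply, ContinuousLinearMap.smulRight_apply,
    ContinuousLinearMap.coe_fst', ContinuousLinearMap.coe_snd', Prod.mk.injEq] at h
  refine Prod.ext ?_ h.2
  have h0 : Complex.exp (x.1 * Complex.I) * Complex.I ≠ 0 :=
    mul_ne_zero (Complex.exp_ne_zero _) Complex.I_ne_zero
  exact smul_left_injective ℝ h0 h.1

lemma lift_eq : D.tube.lift = fun x => toE4 (D.G (expMap x)) := by
  funext x
  simp [Tube.lift, tube, φ, mkS3, expMap, Circle.coe_exp]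

lemma contDiff_lift : ContDiff ℝ ∞ D.tube.lift := by
  rw [lift_eq]
  exact toE4.contDiff.comp (D.contDiff_G.comp contDiff_expMap)

/-- the ambient left inverse of `lift` -/
def Q : E4 → ℂ × ℂ := fun y => ((unitOf (D.P₁ (ofE4 y)) : ℂ), D.P₂ (ofE4 y))

lemma expMap_eq (x : ℝ × ℂ) : expMap x = ((Circle.exp x.1 : ℂ), x.2) := by
  simp [expMap, Circle.coe_exp]

lemma Q_lift (x : ℝ × ℂ) : D.Q (D.tube.lift x) = expMap x := by
  rw [lift_eq]
  simp only [Q, ofE4_toE4]
  rw [expMap_eq, D.left₁, D.left₂]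

lemma differentiableAt_Q (x : ℝ × ℂ) : DifferentiableAt ℝ D.Q (D.tube.lift x) := by
  have hmem : ofE4 (D.tube.lift x) ∈ D.V := by
    rw [lift_eq]
    simp only [ofE4_toE4]
    rw [expMap_eq]
    exact D.G_mem _ _
  have hV : D.V ∈ nhds (ofE4 (D.tube.lift x)) := D.isOpen_V.mem_nhds hmem
  have h1 : DifferentiableAt ℝ D.P₁ (ofE4 (D.tube.lift x)) :=
    ((D.contDiffOn_P₁.contDiffAt hV).differentiableAt (by simp))
  have h2 : DifferentiableAt ℝ D.P₂ (ofE4 (D.tube.lift x)) :=
    ((D.contDiffOn_P₂.contDiffAt hV).differentiableAt (by simp))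
  have h3 : DifferentiableAt ℝ (fun c : ℂ => (unitOf c : ℂ)) (D.P₁ (ofE4 (D.tube.lift x))) :=
    (contDiffOn_coe_unitOf.contDiffAt
      (isOpen_ne.mem_nhds (D.P₁_ne _ hmem))).differentiableAt (by simp)
  have ho : DifferentiableAt ℝ ofE4 (D.tube.lift x) := ofE4.differentiableAt
  have h13 : DifferentiableAt ℝ (fun y => (unitOf (D.P₁ (ofE4 y)) : ℂ)) (D.tube.lift x) :=
    DifferentiableAt.comp (D.tube.lift x) (g := fun c : ℂ => (unitOf c : ℂ))
      (f := fun y => D.P₁ (ofE4 y)) h3 (h1.comp _ ho)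
  exact h13.prodMk (h2.comp _ ho)

lemma differentiableAt_lift (x : ℝ × ℂ) : DifferentiableAt ℝ D.tube.lift x :=
  D.contDiff_lift.differentiable (by simp) x

lemma fderiv_lift_injective (x : ℝ × ℂ) : Function.Injective (fderiv ℝ D.tube.lift x) := by
  have h : fderiv ℝ expMap x = (fderiv ℝ D.Q (D.tube.lift x)).comp (fderiv ℝ D.tube.lift x) := by
    rw [← fderiv_comp x (D.differentiableAt_Q x) (D.differentiableAt_lift x)]
    congr 1
    funext y
    exact (D.Q_lift y).symm
  intro v w hvw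
  apply fderiv_expMap_injective x
  rw [h]
  simp [hvw]

lemma norm_lift (x : ℝ × ℂ) : ‖D.tube.lift x‖ = 1 :=
  norm_eq_of_mem_sphere (D.tube.toFun (Circle.exp x.1, x.2))

lemma inner_lift_fderiv (x v : ℝ × ℂ) : inner ℝ (D.tube.lift x) (fderiv ℝ D.tube.lift x v) = 0 := by
  have h1 : HasFDerivAt (fun y => inner ℝ (D.tube.lift y) (D.tube.lift y)) _ x :=
    (D.differentiableAt_lift x).hasFDerivAt.inner ℝ (D.differentiableAt_lift x).hasFDerivAt
  have h2 : (fun y => inner ℝ (D.tube.lift y) (D.tube.lift y)) = fun _ => (1 : ℝ) := by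
    funext y
    rw [real_inner_self_eq_norm_sq, norm_lift]
    norm_num
  rw [h2] at h1
  have h3 := h1.unique (hasFDerivAt_const (1 : ℝ) x)
  have h4 := congrArg (fun L => L v) h3
  simp only [ContinuousLinearMap.comp_apply, ContinuousLinearMap.prod_apply,
    fderivInnerCLM_apply, zero_apply] at h4
  rw [real_inner_comm (D.tube.lift x)] at h4
  linarith

lemma frame_det_ne_zero (x : ℝ × ℂ) : (D.tube.frame x).det ≠ 0 := by
  intro h0
  obtain ⟨c, hc, hc0⟩ := Matrix.exists_vecMul_eq_zero_iff.mpr h0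
  set L := fderiv ℝ D.tube.lift x with hL
  -- the linear relation between the rows, as an identity in `ℝ⁴`
  have hrel : c 0 • D.tube.lift x + L (c 1, (c 2 : ℂ) + (c 3 : ℂ) * Complex.I) = 0 := by
    have hv : ((c 1, (c 2 : ℂ) + (c 3 : ℂ) * Complex.I) : ℝ × ℂ) =
        c 1 • ((1, 0) : ℝ × ℂ) + c 2 • ((0, 1) : ℝ × ℂ) + c 3 • ((0, Complex.I) : ℝ × ℂ) := by
      ext <;> simp
    rw [hv, map_add, map_add, map_smul, map_smul, map_smul]
    ext j
    have := congrFun hc0 j
    simp only [Matrix.vecMul, dotProduct, Fin.sum_univ_four, Tube.frame, Matrix.of_apply,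
      Pi.zero_apply] at this
    simp only [PiLp.add_apply, PiLp.smul_apply, smul_eq_mul, PiLp.zero_apply]
    simp only [Matrix.cons_val_zero, Matrix.cons_val_one, Matrix.cons_val] at this
    linarith
  have h1 : c 0 = 0 := by
    have := congrArg (fun y => inner ℝ (D.tube.lift x) y) hrel
    simp only [inner_add_right, inner_smul_right, inner_zero_right,
      real_inner_self_eq_norm_sq, D.norm_lift] at this
    rw [hL, D.inner_lift_fderiv] at this
    simpa using this
  rw [h1, zero_smul, zero_add] at hrel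
  have h2 : ((c 1, (c 2 : ℂ) + (c 3 : ℂ) * Complex.I) : ℝ × ℂ) = 0 :=
    D.fderiv_lift_injective x (by rw [hrel, map_zero])
  have h3 : c 1 = 0 := congrArg Prod.fst h2
  have h4 : (c 2 : ℂ) + (c 3 : ℂ) * Complex.I = 0 := congrArg Prod.snd h2
  have h5 : c 2 = 0 := by simpa using congrArg Complex.re h4
  have h6 : c 3 = 0 := by simpa using congrArg Complex.im h4
  apply hc
  funext j
  fin_cases j <;> simp [h1, h3, h5, h6]

lemma continuous_frame_det : Continuous fun x => (D.tube.frame x).det := by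
  have hd : Continuous (fderiv ℝ D.tube.lift) := D.contDiff_lift.continuous_fderiv (by simp)
  have hl : Continuous D.tube.lift := D.contDiff_lift.continuous
  apply Continuous.matrix_det
  apply continuous_matrix
  intro i j
  have hj : Continuous fun y : E4 => y j := (EuclideanSpace.proj j : E4 →L[ℝ] ℝ).continuous
  fin_cases i
  · exact hj.comp hl
  · exact hj.comp (hd.clm_apply continuous_const)
  · exact hj.comp (hd.clm_apply continuous_const)
  · exact hj.comp (hd.clm_apply continuous_const)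

/-- To check that the tube is positively oriented, it is enough to do so at one point. -/
theorem isPositive_of_point (x₀ : ℝ × ℂ) (h : 0 < (D.tube.frame x₀).det) : D.tube.IsPositive := by
  intro x
  by_contra hx
  obtain ⟨y, hy⟩ := mem_range_of_exists_le_of_exists_ge D.continuous_frame_det
    ⟨x, not_lt.mp hx⟩ ⟨x₀, h.le⟩
  exact D.frame_det_ne_zero y hy

/-- The differential of `lift` computed along a line. -/
lemma fderiv_lift_apply {x v : ℝ × ℂ} {d : E4}
    (h : HasDerivAt (fun s : ℝ => D.tube.lift (x + s • v)) d 0) :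
    fderiv ℝ D.tube.lift x v = d := by
  have h1 : HasDerivAt (fun s : ℝ => x + s • v) v 0 := by
    simpa using ((hasDerivAt_id (0 : ℝ)).smul_const v).const_add x
  have h2 : HasFDerivAt D.tube.lift (fderiv ℝ D.tube.lift x) (x + (0 : ℝ) • v) := by
    simpa using (D.differentiableAt_lift x).hasFDerivAt
  have h3 : HasDerivAt (fun s : ℝ => D.tube.lift (x + s • v)) (fderiv ℝ D.tube.lift x v) 0 :=
    HasFDerivAt.comp_hasDerivAt (f := fun s : ℝ => x + s • v) (l := D.tube.lift) (0 : ℝ) h2 h1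
  exact h3.unique h

end TubeData

end

end Claimed.Open.R306
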