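import Claimed.Open.R306.TubeData

/-!
# The standard unknot: an explicit positive, preferred tube
-/

set_option autoImplicit false

open scoped Manifold ContDiff
open Manifold Set Metric Module

namespace Claimed.Open.R306

noncomputable section

namespace Unknot

/-- `1 / √(1 + |w|²)` -/
def sc (w : ℂ) : ℝ := (Real.sqrt (1 + ‖w‖ ^ 2))⁻¹

lemma one_add_pos (w : ℂ) : 0 < 1 + ‖w‖ ^ 2 := by positivity

lemma sc_pos (w : ℂ) : 0 < sc w := inv_pos.2 (Real.sqrt_pos.2 (one_add_pos w))

lemma sc_sq (w : ℂ) : sc w ^ 2 * (1 + ‖w‖ ^ 2) = 1 := by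
  rw [sc, inv_pow, Real.sq_sqrt (one_add_pos w).le]
  exact inv_mul_cancel₀ (one_add_pos w).ne'

lemma contDiff_sc : ContDiff ℝ ∞ sc := by
  unfold sc
  exact ((contDiff_const.add (contDiff_norm_sq ℝ)).sqrt (fun w => (one_add_pos w).ne')).inv
    (fun w => (Real.sqrt_pos.2 (one_add_pos w)).ne')

/-- The data of the standard tube around the unknot: `(z, w) ↦ (z, w) / √(1 + |w|²)`. -/
def data : TubeData where
  G x := (sc x.2 • x.1, sc x.2 • x.2)
  P₁ x := x.1
  P₂ x := (‖x.1‖⁻¹ : ℝ) • x.2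
  V := {x | x.1 ≠ 0}
  contDiff_G := ((contDiff_sc.comp contDiff_snd).smul contDiff_fst).prodMk
    ((contDiff_sc.comp contDiff_snd).smul contDiff_snd)
  isOpen_V := isOpen_ne.preimage continuous_fst
  contDiffOn_P₁ := contDiff_fst.contDiffOn
  contDiffOn_P₂ := by
    intro x hx
    have h1 : ContDiffAt ℝ ∞ (fun x : ℂ × ℂ => ‖x.1‖) x :=
      (contDiffAt_norm ℝ hx).comp x contDiffAt_fst
    exact ((h1.inv (norm_ne_zero_iff.2 hx)).smul contDiffAt_snd).contDiffWithinAt
  P₁_ne _ hx := hx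
  norm_G z w := by
    simp only [norm_smul, Real.norm_eq_abs, abs_of_pos (sc_pos w), Circle.norm_coe]
    have := sc_sq w
    nlinarith
  G_mem z w := by
    simp [(sc_pos w).ne']
  left₁ z w := by
    simp only
    rw [unitOf_smul (sc_pos w), unitOf_coe]
  left₂ z w := by
    simp only [norm_smul, Real.norm_eq_abs, abs_of_pos (sc_pos w), Circle.norm_coe, mul_one,
      smul_smul]
    rw [inv_mul_cancel₀ (sc_pos w).ne', one_smul]
  right x hx h := by
    have ha : 0 < ‖x.1‖ := norm_pos_iff.2 hx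
    have hs : sc ((‖x.1‖⁻¹ : ℝ) • x.2) = ‖x.1‖ := by
      have h1 : 1 + ‖(‖x.1‖⁻¹ : ℝ) • x.2‖ ^ 2 = (‖x.1‖⁻¹) ^ 2 := by
        rw [norm_smul, Real.norm_eq_abs, abs_of_pos (inv_pos.2 ha)]
        field_simp
        linarith
      rw [sc, h1, Real.sqrt_sq (inv_pos.2 ha).le, inv_inv]
    simp only [hs]
    rw [norm_smul_unitOf hx, smul_smul, mul_inv_cancel₀ ha.ne', one_smul]

lemma sc_zero : sc 0 = 1 := by simp [sc]

lemma cfst_φ (x : Circle × ℂ) : cfst (data.φ x) = sc x.2 • (x.1 : ℂ) := by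
  simp [TubeData.φ, data]

lemma csnd_φ (x : Circle × ℂ) : csnd (data.φ x) = sc x.2 • x.2 := by
  simp [TubeData.φ, data]

lemma csnd_eq_zero_iff (x : S3) : csnd x = 0 ↔ x.1 2 = 0 ∧ x.1 3 = 0 := by
  simp [csnd, Complex.ext_iff]

/-- The core of the tube is the standard unknot. -/
lemma knot_eq : data.knot = unknot := by
  ext x
  simp only [TubeData.knot, mem_range, unknot, mem_ofPred_eq, ← csnd_eq_zero_iff]
  constructor
  · rintro ⟨z, rfl⟩
    simp [csnd_φ]
  · intro h
    have h1 := norm_sq_add_norm_sq x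
    rw [h, norm_zero] at h1
    have h2 : ‖cfst x‖ = 1 := by
      have : ‖cfst x‖ ^ 2 = 1 := by simpa using h1
      exact (pow_eq_one_iff_of_nonneg (norm_nonneg _) two_ne_zero).mp this
    refine ⟨⟨cfst x, mem_sphere_zero_iff_norm.2 h2⟩, S3.ext_c ?_ ?_⟩
    · simp [cfst_φ, sc_zero]
    · simp [csnd_φ, h]

/-! ### Orientation -/

lemma lift_apply (x : ℝ × ℂ) :
    data.tube.lift x = toE4 (sc x.2 • Complex.exp (x.1 * Complex.I), sc x.2 • x.2) := by
  rw [TubeData.lift_eq]
  rfl

lemma hasDerivAt_sc_line (v : ℂ) : HasDerivAt (fun s : ℝ => sc (s • v)) 0 0 := by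
  have h1 : HasDerivAt (fun s : ℝ => 1 + s ^ 2 * ‖v‖ ^ 2) 0 0 := by
    have := (((hasDerivAt_id (0 : ℝ)).pow 2).mul_const (‖v‖ ^ 2)).const_add 1
    simpa using this
  have h2 : (fun s : ℝ => sc (s • v)) = fun s : ℝ => (Real.sqrt (1 + s ^ 2 * ‖v‖ ^ 2))⁻¹ := by
    funext s
    simp [sc, mul_pow]
  rw [h2]
  have h3 := (h1.sqrt (by simp)).fun_inv (by simp)
  simpa using h3

lemma hasDerivAt_line_t :
    HasDerivAt (fun s : ℝ => data.tube.lift ((0, 0) + s • ((1, 0) : ℝ × ℂ))) (toE4 (Complex.I, 0)) 0 := by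
  have h1 : HasDerivAt (fun s : ℝ => Complex.exp (s * Complex.I)) Complex.I 0 := by
    have := ((Complex.ofRealCLM.hasDerivAt (x := (0 : ℝ))).mul_const Complex.I).cexp
    simpa using this
  have h2 : HasDerivAt (fun s : ℝ => ((Complex.exp (s * Complex.I), 0) : ℂ × ℂ)) (Complex.I, 0) 0 :=
    h1.prodMk (hasDerivAt_const _ _)
  have h3 := toE4.hasFDerivAt.comp_hasDerivAt (0 : ℝ) h2
  refine h3.congr_of_eventuallyEq (Filter.Eventually.of_forall fun s => ?_)
  simp [lift_apply, sc_zero]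

lemma hasDerivAt_line_w (v : ℂ) :
    HasDerivAt (fun s : ℝ => data.tube.lift ((0, 0) + s • ((0, v) : ℝ × ℂ))) (toE4 (0, v)) 0 := by
  have h1 : HasDerivAt (fun s : ℝ => sc (s • v) • (1 : ℂ)) 0 0 := by
    simpa using (hasDerivAt_sc_line v).smul_const (1 : ℂ)
  have h2 : HasDerivAt (fun s : ℝ => sc (s • v) • (s • v)) v 0 := by
    have := (hasDerivAt_sc_line v).fun_smul ((hasDerivAt_id (0 : ℝ)).smul_const v)
    simpa [sc_zero] using this
  have h3 := toE4.hasFDerivAt.comp_hasDerivAt (0 : ℝ) (h1.prodMk h2)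
  refine h3.congr_of_eventuallyEq (Filter.Eventually.of_forall fun s => ?_)
  simp [lift_apply]

lemma frame_zero : data.tube.frame (0, 0) = 1 := by
  have e0 : data.tube.lift (0, 0) = toE4 (1, 0) := by simp [lift_apply, sc_zero]
  have e1 := data.fderiv_lift_apply hasDerivAt_line_t
  have e2 := data.fderiv_lift_apply (hasDerivAt_line_w 1)
  have e3 := data.fderiv_lift_apply (hasDerivAt_line_w Complex.I)
  ext i j
  simp only [Tube.frame, e0, e1, e2, e3]
  fin_cases i <;> fin_cases j <;> simp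

/-- The standard tube is positively oriented. -/
theorem isPositive : data.tube.IsPositive :=
  data.isPositive_of_point (0, 0) (by rw [frame_zero]; simp)

/-! ### The framing -/

lemma csnd_ne_zero (x : data.tube.Exterior) : csnd x.1 ≠ 0 := by
  intro h
  apply x.2
  have hx : x.1 ∈ data.knot := (Set.ext_iff.1 knot_eq x.1).2 ((csnd_eq_zero_iff _).1 h)
  obtain ⟨z, hz⟩ := hx
  exact ⟨(z, 0), by simp, hz⟩

/-- the map `(a, b) ↦ b / |b|` on the exterior -/
def θ : C(data.tube.Exterior, Circle) :=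
  circleMap ⟨fun x => csnd x.1, continuous_csnd.comp continuous_subtype_val⟩ csnd_ne_zero

/-- The standard tube has the preferred framing. -/
theorem isPreferred : data.tube.IsPreferred := by
  refine ⟨θ, ?_, 1, ?_⟩
  · have : θ.comp data.tube.meridian = ContinuousMap.id Circle := by
      ext u
      have h : csnd (data.φ (1, (u : ℂ))) = sc u • (u : ℂ) := csnd_φ _
      change ((unitOf (csnd (data.φ (1, (u : ℂ))))) : ℂ) = u
      rw [h, unitOf_smul (sc_pos _), unitOf_coe]
    rw [this]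
  · have : θ.comp data.tube.longitude = ContinuousMap.const Circle 1 := by
      ext z
      have h : csnd (data.φ (z, ((1 : Circle) : ℂ))) = sc ((1 : Circle) : ℂ) • (((1 : Circle) : ℂ)) :=
        csnd_φ _
      change ((unitOf (csnd (data.φ (z, ((1 : Circle) : ℂ))))) : ℂ) = (1 : Circle)
      rw [h, unitOf_smul (sc_pos _), unitOf_coe]
    rw [this]

/-- The standard unknot is a smooth knot. -/
theorem isSmoothKnot_unknot : IsSmoothKnot unknot := knot_eq ▸ data.isSmoothKnot

/-- The standard unknot is trivial. -/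
theorem isTrivialKnot_unknot : IsTrivialKnot unknot :=
  ⟨Diffeomorph.refl _ _ _, by simp⟩

/-- The standard unknot has a positively oriented tube with the preferred framing. -/
theorem exists_tube : ∃ N : Tube unknot, N.IsPositive ∧ N.IsPreferred :=
  knot_eq ▸ ⟨data.tube, isPositive, isPreferred⟩

end Unknot

end

end Claimed.Open.R306
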